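import Vale.Agent.P291.XBlk

/-!
# Recognition of the abelianized algebra by leading coefficients
-/

set_option linter.all false

open MvPolynomial

namespace Vale.Agent.P291Z.CA

open Vale.Agent.P291 Vale.Agent.P291.XB

variable {I E B Λ : Type*} [Fintype E] [DecidableEq I] [Fintype B] [DecidableEq B] [CommRing Λ]
  [IsDomain Λ] (Q : QD I E B Λ)

theorem exists_lead [Algebra ℚ Λ] {lam : B → ℤ} {h : SS B Λ} (hh : Q.InvL lam h) :
    ∃ y ∈ Q.A, y.coeff lam = toK h * Q.e lam ∧ ∀ mu, y.coeff mu ≠ 0 → nrm mu ≤ nrm lam ∧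
      (nrm mu = nrm lam → ∃ σ ∈ Q.W, mu = lact σ lam) := by
  obtain ⟨τ, hτ, rfl, hs⟩ := surj_chain Q (len lam) (lv lam) (fun i j hij => lv_anti lam hij) h
    (fun σ hσ hV => hh σ hσ (lact_of_vact hV))
  refine ⟨_, MT_mem Q _ hτ, ?_, fun mu hmu => ?_⟩
  · rw [MT_coeff, Finset.sum_eq_single (lv lam)]
    · rw [e_chain Q (len lam) (lv lam) (fun i j hij => lv_anti lam hij), sum_lv]
    · intro V hV hne
      rw [Finset.mem_filter] at hV
      by_cases h0 : τ V = 0
      · rw [h0, toK, map_zero, zero_mul]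
      · obtain ⟨σ, hσ, h2, h3⟩ := (norm_le Q lam V (hs V h0)).2 (by rw [hV.2])
        rw [hV.2] at h3
        exact absurd (_root_.funext fun j => by rw [h2 j, vact_lv h3.symm]) hne
    · intro h
      exact (h (by rw [Finset.mem_filter]; exact ⟨Finset.mem_univ _, sum_lv lam⟩)).elim
  · rw [MT_coeff] at hmu
    obtain ⟨V, hV, hne⟩ := Finset.exists_ne_zero_of_sum_ne_zero hmu
    have h1 := norm_le Q lam V (hs V fun h0 => hne (by rw [h0, toK, map_zero, zero_mul]))
    rw [(Finset.mem_filter.1 hV).2] at h1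
    exact ⟨h1.1, fun h2 => (h1.2 h2).imp fun σ h => ⟨h.1, h.2.2⟩⟩

/-- an invariant group that contains `A` and has the leading coefficients of `A` is `A` -/
theorem mem_A_of_lead [Algebra ℚ Λ] (T : AddSubgroup (AA B Λ)) (hA : ∀ z ∈ Q.A, z ∈ T)
    (hW : ∀ z ∈ T, ∀ σ ∈ Q.W, ∀ lam, z.coeff (lact σ lam) = act σ (z.coeff lam))
    (hl : ∀ z ∈ T, z ≠ 0 → ∃ lam, z.coeff lam ≠ 0 ∧ (∀ mu, z.coeff mu ≠ 0 → nrm mu ≤ nrm lam) ∧
      ∃ h, z.coeff lam = toK h * Q.e lam) : ∀ z ∈ T, z ∈ Q.A := by
  classical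
  have key : ∀ N : ℕ, ∀ z ∈ T, (∀ mu, z.coeff mu ≠ 0 → nrm mu < N) → z ∈ Q.A := by
    intro N
    induction N with
    | zero =>
      intro z _ h
      rw [show z = 0 from AddMonoidAlgebra.ext (Finsupp.ext fun mu => by_contra fun h' =>
        (h mu h').not_ge (Finset.sum_nonneg fun _ _ => sq_nonneg _))]
      exact zero_mem _
    | succ N ih =>
      intro z
      induction hc : (z.coeff.support.filter fun mu => nrm mu = N).card
        using Nat.strong_induction_on generalizing z with
      | _ c ih' =>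
      intro hz h
      by_cases h0 : z = 0
      · exact h0 ▸ zero_mem _
      obtain ⟨lam, h1, h2, f, hf⟩ := hl z hz h0
      by_cases hN : nrm lam < N
      · exact ih z hz fun mu hm => (h2 mu hm).trans_lt hN
      have hN' : nrm lam = N := by
        have := h lam h1
        push_cast at this
        omega
      obtain ⟨y, hy, e1, e2⟩ := exists_lead Q (lam := lam) (h := f) fun σ hσ e => by
        have := hW z hz σ hσ lam
        rw [e, hf, map_mul, act_toK, e_act Q σ hσ, e] at this
        exact (IsFractionRing.injective _ (KK B Λ) (mul_right_cancel₀ (e_ne_zero Q lam) this)).symm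
      have hz' := T.sub_mem hz (hA y hy)
      have e3 : ∀ mu, (z - y).coeff mu = z.coeff mu - y.coeff mu := fun _ => rfl
      have e4 : (z - y).coeff lam = 0 := by rw [e3, hf, e1, sub_self]
      rw [← sub_add_cancel z y]
      subst hc
      refine add_mem (ih' _ (Finset.card_lt_card ⟨fun mu hm => ?_, fun hs => ?_⟩) _ rfl hz'
        fun mu hm => ?_) hy
      · rw [Finset.mem_filter, Finsupp.mem_support_iff] at hm ⊢
        refine ⟨fun h3 => ?_, hm.2⟩
        obtain ⟨σ, hσ, rfl⟩ := (e2 mu fun h4 => hm.1 (by rw [e3, h3, h4, sub_self])).2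
          (hm.2.trans hN'.symm)
        exact hm.1 (by rw [hW _ hz' σ hσ, e4, map_zero])
      · exact Finsupp.mem_support_iff.1 (Finset.mem_filter.1 (hs (Finset.mem_filter.2
          ⟨Finsupp.mem_support_iff.2 h1, hN'⟩))).1 e4
      · by_cases h3 : z.coeff mu = 0
        · exact (e2 mu fun h4 => hm (by rw [e3, h3, h4, sub_self])).1.trans_lt (h lam h1)
        · exact h mu h3
  intro z hz
  obtain ⟨N, hN⟩ := (z.coeff.support.image nrm).bddAbove
  exact key (N.toNat + 1) z hz fun mu hm => by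
    have := hN (Finset.mem_image_of_mem nrm (Finsupp.mem_support_iff.2 hm))
    omega

end Vale.Agent.P291Z.CA
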