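import Vale.Agent.P291Z.C.CDef
import Vale.Agent.P291Z.C.CAlg0
import Vale.Agent.P291.Hik.Surj

/-!
# Characterization of the abelianized algebra
-/

set_option linter.all false

namespace Vale.Agent.P291Z

open Set Function Topology MvPolynomial Quiv Lt Vale.Agent.P291 Vale.Agent.P291.Hik

theorem gact_eq {B Λ : Type*} [Fintype B] [DecidableEq B] [CommRing Λ] [IsDomain Λ]
    (σ : Equiv.Perm B) (z : P291.AA B Λ) : P291.gact σ z = gactHom σ z := by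
  conv_rhs => rw [← AddMonoidAlgebra.sum_coeff_single z, Finsupp.sum, map_sum]
  exact Finset.sum_congr rfl fun lam _ => (gactHom_single σ lam _).symm

variable {I E : Type} {Q : Quiv I E} {Φ : Type} [Fintype Φ] [Fintype I] [Fintype E] [DecidableEq I]

theorem spE_Del : spE Q Φ (Del (Q.nn Φ)) = ∏ i, ∏ a : Fin (Q.v i), ∏ b ∈ Finset.Ioi a,
    (X ⟨i, a⟩ - X ⟨i, b⟩ : SS Q.qd.Col (LF Φ)) := by
  have h : ∀ a : Φ, ∏ z : Fin (Q.nn Φ (Sum.inr a)), ∏ b ∈ Finset.Ioi z,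
      (X ⟨Sum.inr a, z⟩ - X ⟨Sum.inr a, b⟩ : SP (Q.nn Φ)) = 1 := fun a =>
    Finset.prod_eq_one fun z _ => Finset.prod_eq_one fun b hb =>
      absurd (Subsingleton.elim (α := Fin 1) z b) (Finset.mem_Ioi.1 hb).ne
  rw [Del, Fintype.prod_sum_type, Finset.prod_eq_one fun a _ => h a, mul_one]
  simp only [map_prod, map_sub]
  refine Finset.prod_congr rfl fun i _ => Finset.prod_congr rfl fun a _ =>
    Finset.prod_congr rfl fun b _ => ?_
  rw [spE_inl ⟨i, a⟩, spE_inl ⟨i, b⟩]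

theorem den_dvd (χ : Q.qd.Fl → Φ → ℤ) {μ : Col Q → ℤ} (h : ∀ c c', μ c - μ c' ≤ 1) :
    (cq Q χ).den μ ∣ spE Q Φ (Del (Q.nn Φ)) := by
  rw [spE_Del, QD.den, ← Finset.prod_filter_of_ne (p := fun p => p.1 ≠ p.2) fun p _ hp e =>
    hp (by rw [e, sub_self (μ _), Int.toNat_zero, pow_zero]), prod_prs]
  refine Finset.prod_dvd_prod_of_dvd _ _ fun i _ => ?_
  rw [← Finset.prod_prod_Ioi_mul_eq_prod_prod_off_diag]
  refine Finset.prod_dvd_prod_of_dvd _ _ fun a _ => Finset.prod_dvd_prod_of_dvd _ _ fun b _ => ?_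
  have h1 := h ⟨i, a⟩ ⟨i, b⟩
  have h2 := h ⟨i, b⟩ ⟨i, a⟩
  obtain e | e | e : μ ⟨i, a⟩ - μ ⟨i, b⟩ = 1 ∨ μ ⟨i, a⟩ - μ ⟨i, b⟩ = 0 ∨
      μ ⟨i, a⟩ - μ ⟨i, b⟩ = -1 := by omega
  all_goals
    dsimp only
    rw [← neg_sub (μ ⟨i, a⟩), e]
  · simp
  · simp
  · exact ⟨-1, by simp⟩

theorem M_FV_mem (χ : Q.qd.Fl → Φ → ℤ) (R : Subring (AF Q Φ))
    (h₁ : ∀ (μ : Col Q → ℤ) (g : SP (Q.nn Φ)),
      ∑ w : Wy (Q.nn Φ), AddMonoidAlgebra.single (lact (Q.qd.act (wyG w)) μ)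
        (P291.act (Q.qd.act (wyG w)) (sK Q Φ (rhoS χ μ * g) / sK Q Φ (Del (Q.nn Φ)))) ∈ R)
    (V : Finset (Option Q.qd.Col)) (f : SS Q.qd.Col (LF Φ)) : (cq Q χ).M (FV Q.qd V f) ∈ R := by
  obtain ⟨q, hq⟩ := den_dvd χ (μ := lamV V) fun c c' => by
    unfold lamV
    split_ifs <;> omega
  have h0 : toK q ≠ 0 := toK_ne_zero fun e =>
    TS.Del_ne_zero ((spE Q Φ).injective (by rw [hq, e, mul_zero, map_zero]))
  have h := h₁ (lamV V) ((spE Q Φ).symm (f * q))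
  rw [sK_apply, sK_apply, map_mul, spE_rhoS, RingEquiv.apply_symm_apply, hq] at h
  rw [M_FV]
  refine (congrArg (· ∈ R) (@Fintype.sum_bijective _ _ _ _ (_) _ _ wyG_bijective _ _
    fun w => ?_)).mp h
  rw [lamV_vact, ← e_act _ _ (act_mem Q.qd _ _), ← act_toK, ← map_mul (P291.act _), QD.e]
  refine congrArg (fun y => AddMonoidAlgebra.single _ (P291.act _ y)) ?_
  simp only [toK, map_mul]
  rw [← mul_assoc, mul_div_mul_right _ _ h0, mul_comm, mul_div_assoc]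

theorem mem_iff_mem_A (χ : Q.qd.Fl → Φ → ℤ) (R : Subring (AF Q Φ))
    (h₁ : ∀ (μ : Col Q → ℤ) (g : SP (Q.nn Φ)),
      ∑ w : Wy (Q.nn Φ), AddMonoidAlgebra.single (lact (Q.qd.act (wyG w)) μ)
        (P291.act (Q.qd.act (wyG w)) (sK Q Φ (rhoS χ μ * g) / sK Q Φ (Del (Q.nn Φ)))) ∈ R)
    (h₂ : ∀ x ∈ R, ∀ σ ∈ (cq Q χ).W, P291.gact σ x = x)
    (h₃ : ∀ x ∈ R, ∀ μ : Col Q → ℤ, (∀ ν, key μ < key ν → x.coeff ν = 0) →
      (∀ i, Monotone fun a => μ ⟨i, a⟩) → ∃ s, x.coeff μ = toK s * (cq Q χ).e μ) (x : AF Q Φ) :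
    x ∈ R ↔ x ∈ (cq Q χ).A := by
  have hM : ∀ F ∈ (cq Q χ).Eqv, (cq Q χ).M F ∈ R := fun F hF => by
    rw [M_eq Q.qd _ hF]
    exact sum_mem fun V _ => M_FV_mem χ R h₁ V _
  have hA : ∀ z ∈ (cq Q χ).A, z ∈ R := fun z hz => by
    refine Algebra.adjoin_induction (p := fun z _ => z ∈ R) ?_ (fun r => ?_)
      (fun _ _ _ _ => add_mem) (fun _ _ _ _ => mul_mem) hz
    · rintro _ ⟨F, hF, rfl⟩
      exact hM F hF
    · have h := hM (fun V => if V = ∅ then C r else 0) fun σ _ V => by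
        simp only [TB.vact_eq_empty]
        split_ifs
        · rw [rename_C]
        · rw [map_zero]
      rw [QD.M, Finset.sum_eq_single ∅ (fun V _ hV => by
        rw [if_neg hV, toK, map_zero, zero_mul, AddMonoidAlgebra.single_zero])
        (fun h => (h (Finset.mem_univ _)).elim), if_pos rfl, TB.lamV_empty, e_zero, mul_one] at h
      rwa [algebraMap_AA]
  have hW : ∀ z ∈ R, ∀ σ ∈ (cq Q χ).W, ∀ μ, z.coeff (lact σ μ) = P291.act σ (z.coeff μ) :=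
    fun z hz σ hσ μ => by rw [← gactHom_coeff, ← gact_eq, h₂ z hz σ hσ]
  refine ⟨CA.mem_A_of_lead _ R.toAddSubgroup hA hW (fun z hz h0 => ?_) x, hA x⟩
  obtain ⟨μ, h1, h2⟩ := z.coeff.support.exists_max_image key (Finsupp.support_nonempty_iff.2
    fun e => h0 (AddMonoidAlgebra.ext e))
  simp only [Finsupp.mem_support_iff] at h1 h2
  refine ⟨μ, h1, fun ν hν => nrm_le_of_key (h2 ν hν), h₃ z hz μ
    (fun ν hν => by_contra fun e => hν.not_ge (h2 ν e)) (monotone_of_key fun σ => h2 _ ?_)⟩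
  have := hW z hz _ (act_mem Q.qd _ σ⁻¹) μ
  exact fun e => h1 ((P291.act _).injective ((this.symm.trans e).trans (map_zero _).symm))

end Vale.Agent.P291Z
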