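import Vale.Agent.P291Z.C.CFin
import Vale.Agent.P291Z.Kir2

/-!
# The isomorphism, given the Higgs side
-/

set_option linter.all false

namespace Vale.Agent.P291Z.Flav

open Set Function

variable {I E Φ : Type} {Q : Quiv I E} [Fintype Φ] [Fintype I] [Fintype E] {A : Flav Q Φ}
  {ν : I → ℤ}

theorem exists_ringEquiv {R S T : Type} [Ring R] [Ring S] [Ring T] {φ : R →+* S} {ψ : R →+* T}
    (hφ : Surjective φ) (hψ : Surjective ψ) (h : ∀ r, φ r = 0 ↔ ψ r = 0) :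
    ∃ e : S ≃+* T, ∀ r, e (φ r) = ψ r := by
  let f := φ.liftOfSurjective hφ ⟨ψ, fun r => (h r).1⟩
  have hf : ∀ r, f (φ r) = ψ r := φ.liftOfSurjective_comp_apply hφ _
  refine ⟨RingEquiv.ofBijective f ⟨(injective_iff_map_eq_zero f).2 fun s hs => ?_, fun t => ?_⟩, hf⟩
  · obtain ⟨r, rfl⟩ := hφ s
    exact (h r).2 ((hf r).symm.trans hs)
  · obtain ⟨r, rfl⟩ := hψ t
    exact ⟨_, hf r⟩

theorem exists_deg_preimage {φ : RR Q Φ →+* A.HX ν}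
    (h : ∀ k r, r.1 ∈ HGdeg _ _ k → (φ r).1 ∈ HGdeg _ _ k) (k : ℤ) (r : RR Q Φ) :
    ∃ r' : RR Q Φ, r'.1 ∈ HGdeg _ _ k ∧ ∀ M, (φ r').1 M = H.comp k ((φ r).1 M) := by
  refine RR.induction (P := fun r => ∃ r' : RR Q Φ, r'.1 ∈ HGdeg _ _ k ∧
    ∀ M, (φ r').1 M = H.comp k ((φ r).1 M)) r ⟨0, RR.zero_deg, fun M => ?_⟩ ?_ fun j r hr => ?_
  · rw [map_zero]
    exact (map_zero _).symm
  · rintro a b ⟨a', h1, h2⟩ ⟨b', h3, h4⟩
    refine ⟨a' + b', RR.add_deg h1 h3, fun M => ?_⟩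
    rw [map_add, map_add]
    exact (congrArg₂ (· + ·) (h2 M) (h4 M)).trans (map_add _ _ _).symm
  · by_cases e : k = j
    · subst e
      exact ⟨r, hr, fun M => (h k r hr M).2.comp_eq.symm⟩
    · refine ⟨0, RR.zero_deg, fun M => ?_⟩
      rw [map_zero, (h j r hr M).2.comp_ne e]
      rfl

theorem hikita_of [DecidableEq I] (W : Wts A) (hν : A.Regular ν)
    (h : ∃ φ : RR Q Φ →+* A.HX ν, (∀ r, φ r = A.phiH ν r) ∧ Surjective φ ∧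
      (∀ r, φ r = 0 ↔ psi Q Φ r ∈ (cq Q W.χ).JC) ∧
      ∀ k r, r.1 ∈ HGdeg _ _ k → (φ r).1 ∈ HGdeg _ _ k) :
    ∃ e : A.HX ν ≃+* A.CY ν, (∀ r, e (A.phiH ν r) = A.phiC ν r) ∧
      ∀ k (c : A.HX ν), c.1 ∈ HGdeg _ _ k ↔
        ∃ a ∈ A.Adeg (-k), e c = Ideal.Quotient.mk _ a := by
  obtain ⟨φ, h1, h2, h3, h4⟩ := h
  obtain ⟨ψ, h5, h6, h7, h8, h9⟩ := coul_final W hν
  obtain ⟨e, he⟩ := exists_ringEquiv h2 h6 fun r => (h3 r).trans (h7 r).symm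
  refine ⟨e, fun r => by rw [← h1, he, h5], fun k c => ⟨fun hc => ?_, ?_⟩⟩
  · obtain ⟨r, rfl⟩ := h2 c
    obtain ⟨r', hr, e'⟩ := exists_deg_preimage h4 k r
    refine ⟨_, h9 k r' hr, ?_⟩
    rw [← show φ r' = φ r from Subtype.ext (funext fun M => (e' M).trans (hc M).2.comp_eq), he, h5]
    rfl
  · rintro ⟨a, ha, e'⟩
    obtain ⟨r, hr, e''⟩ := h8 k a ha
    rw [e.injective (e'.trans (e''.symm.trans (he r).symm))]
    exact h4 k r hr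

end Vale.Agent.P291Z.Flav
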