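import Vale.Agent.P291Z.C.CDef
import Vale.Agent.P291Z.Gen2

/-!
# The abelianization map: fibres and cells
-/

set_option linter.all false

namespace Vale.Agent.P291Z

open Set Function Topology MvPolynomial Quiv Lt Vale.Agent.P291 Vale.Agent.P291.Hik

theorem CQ.gy_epush_eq_zero {G X Y Z : Type} [Group G] [TopologicalSpace G] [Sys G]
    [TopologicalSpace X] [MulAction G X] [Nice X] [ContinuousSMul G X] [TopologicalSpace Y]
    [MulAction G Y] [Nice Y] [ContinuousSMul G Y] [TopologicalSpace Z] [MulAction G Z] [Nice Z]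
    [ContinuousSMul G Z] {i : Y →[G] X} (hi : IsClosedEmbedding i) {f : Z →[G] X} (hf : IsPr f)
    {x : CQ G X} (hx : x.supp ⊆ range i) (h : ∀ z y, i y ≠ f z) (c : EH G Z) :
    gy i x (epush f c) = 0 := by
  haveI : IsEmpty (⊥ : SubMulAction G Z) := ⟨fun a => a.2⟩
  have h1 : IsClosed ((⊥ : SubMulAction G Z) : Set Z) := isClosed_empty
  haveI := Nice.of_isLocallyClosed h1.isLocallyClosed
  rw [gy_epush hi (i' := (⊥ : SubMulAction G Z).inclusion) h1.isClosedEmbedding_subtypeVal hf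
    (g := ⟨isEmptyElim, fun _ => isEmptyElim⟩)
    ⟨continuous_of_discreteTopology, fun _ _ => (toFinite _).isCompact⟩ isEmptyElim
    (fun z ⟨y, hy⟩ => absurd hy (h z y)) hx,
    (ENull.of_isEmpty (G := G) (X := (⊥ : SubMulAction G Z))).subsingleton.elim (gy _ _ c) 0,
    map_zero]

variable {I E : Type} {Q : Quiv I E} {Φ : Type} [Fintype Φ] [Fintype I] [Fintype E] [DecidableEq I]

variable (Φ) in
/-- the weights of the coordinates of a cell -/
def cW (μ : Col Q → ℤ) (x : CIQ μ) : Bx (Q.nn Φ) → ℤ := rootW ⟨x.1, x.2.1.1⟩ ⟨x.1, x.2.1.2⟩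

variable (Φ) in
/-- the Euler class of a cell -/
noncomputable def eC (μ : Col Q → ℤ) : SP (Q.nn Φ) := ∏ x, linf _ (cW Φ μ x)

theorem eC_ne (μ : Col Q → ℤ) : eC Φ μ ≠ 0 := Finset.prod_ne_zero_iff.2 fun x _ h => by
  have := spE_rootW (Φ := Φ) (Q := Q) ⟨x.1, x.2.1.1⟩ ⟨x.1, x.2.1.2⟩
  rw [show linf _ (rootW _ _) = 0 from h, map_zero, eq_comm, sub_eq_zero] at this
  exact CI.ne x.2 (eq_of_heq (Sigma.mk.inj (X_injective this)).2)

theorem prod_Prs (χ : Q.qd.Fl → Φ → ℤ) {M : Type} [CommMonoid M] (g : Q.qd.Col × Q.qd.Col → M) :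
    ∏ p ∈ (cq Q χ).Prs, g p = ∏ i, ∏ b : Fin (Q.v i), ∏ a : Fin (Q.v i), g (⟨i, a⟩, ⟨i, b⟩) := by
  rw [QD.Prs, Finset.prod_filter, Fintype.prod_prod_type_right, Fintype.prod_sigma]
  exact Finset.prod_congr rfl fun i _ => Finset.prod_congr rfl fun b _ =>
    prod_col Q.qd i fun c => g (c, ⟨i, b⟩)

theorem spE_eC (χ : Q.qd.Fl → Φ → ℤ) {μ : Col Q → ℤ} (hm : ∀ i, Monotone fun a => μ ⟨i, a⟩) :
    spE Q Φ (eC Φ μ) = (cq Q χ).den μ := by
  refine Eq.trans ?_ (prod_Prs χ _).symm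
  rw [eC, map_prod, Fintype.prod_sigma]
  refine Finset.prod_congr rfl fun i _ => ?_
  rw [Fintype.prod_sigma, Fintype.prod_prod_type_right]
  refine Finset.prod_congr rfl fun b _ => Finset.prod_congr rfl fun a _ => ?_
  refine (Finset.prod_congr rfl fun _ _ => spE_rootW ⟨i, a⟩ ⟨i, b⟩).trans ?_
  rw [Fin.prod_const, mult_of_monotone (hm i)]

namespace Flav

variable {A : Flav Q Φ} {n : ℕ} {χ : I → ℤ} {d : ℕ} (W : Wts A) (hd : 2 * n ≤ d)

variable (A d) in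
/-- the fibre over `t^μ` as a representation of the torus -/
abbrev NR (μ : Col Q → ℤ) : Type :=
  SubRep (G := Tc (Q.nn Φ)) (A.Nmu d μ) fun t _ h => Nmu.smul_mem t h

section

variable {μ : Col Q → ℤ}

theorem isRep_NR : IsRep (Tc (Q.nn Φ)) (A.NR d μ) (Module.finrank ℂ (A.Nmu d μ)) :=
  (A.isRep_sF d).toT.subRep _ _

instance : Nice (A.NR d μ) := isRep_NR.nice

instance : ContinuousSMul (Tc (Q.nn Φ)) (A.NR d μ) := isRep_NR.cont

variable (d μ) in
/-- the weights of the quotient by the fibre -/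
def qW (x : {p : Fin d × QL.Ix Q // ((p.1 : ℕ) : ℤ) < exN μ p.2}) : Bx (Q.nn Φ) → ℤ :=
  ixW W.χ x.1.2

variable (d μ) in
/-- the quotient by the fibre -/
noncomputable def qL : (Fin d → A.NN) →ₗ[ℂ] Wr (qW d W μ) :=
  LinearMap.pi fun x => W.b.coord x.1.2 ∘ₗ LinearMap.proj x.1.1

theorem qL_smul (t : Tc (Q.nn Φ)) (s : Fin d → A.NN) : qL d W μ (t • s) = t • qL d W μ s :=
  funext fun x => W.repr_smul t _ (by
    rcases x with ⟨⟨k, c | c⟩, h⟩
    · intro e
      have h1 : μ ⟨Q.t c.1, c.2.1⟩ = μ ⟨Q.s c.1, c.2.2⟩ := congrArg μ (Option.some.inj e)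
      simp only [exN] at h
      omega
    · exact fun e => nomatch e)

theorem qL_surjective : Surjective (qL d W μ) := fun y => by
  classical
  refine ⟨fun k => W.b.equivFun.symm fun c =>
    if h : ((k : ℕ) : ℤ) < exN μ c then y ⟨(k, c), h⟩ else 0, funext fun x => ?_⟩
  exact (congrFun (W.b.equivFun.apply_symm_apply _) x.1.2).trans (dif_pos x.2)

theorem qL_eq_zero (s : Fin d → A.NN) : qL d W μ s = 0 ↔ s ∈ A.Nmu d μ :=
  ⟨fun h => (mem_Nmu' W.comm).2 fun c k hk => congrFun h ⟨(k, c), hk⟩,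
    fun h => funext fun x => (mem_Nmu' W.comm).1 h _ _ x.2⟩

include hd in
theorem eu_qW (hμ : μ ∈ Box Q n χ) : eu (isRep_Wr (qW d W μ)) = psiT _ (rhoS W.χ (-μ)) := by
  classical
  rw [eu_Wr, rhoS]
  congr 1
  refine (Finset.prod_subtype (Finset.univ.filter fun p : Fin d × QL.Ix Q =>
    ((p.1 : ℕ) : ℤ) < exN μ p.2) (by simp) fun p => linf _ (ixW W.χ p.2)).symm.trans ?_
  rw [Finset.prod_filter, Fintype.prod_prod_type_right]
  refine Finset.prod_congr rfl fun c _ => ?_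
  have h1 := abs_le.1 (abs_exN_le hμ.1 c)
  dsimp only
  rw [← Finset.prod_filter, Finset.prod_const, exN_neg, neg_neg,
    Finset.filter_congr (q := fun k : Fin d => (k : ℕ) < (exN μ c).toNat) fun k _ => by omega,
    Fin.card_filter_val_lt, min_eq_right (by omega)]

variable (d) (hμ : μ ∈ Box Q n χ)

/-- the inclusion of the fibre -/
noncomputable def fE : A.NR d μ →[Tc (Q.nn Φ)] A.RS n χ d :=
  ⟨fibE hμ, fun t s => (toG_smul_fibE hμ t s).symm⟩

variable {d}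

theorem isClosedEmbedding_fE : IsClosedEmbedding (fE (A := A) d hμ) := isClosedEmbedding_fibE hμ

theorem fE_zero : fE (A := A) d hμ 0 = A.oE d hμ () := RS.ext rfl fun k hk => dif_pos hk

include hd in
/-- the section on the fibre -/
theorem gy_pull_eS (z : EH (Tc (Q.nn Φ)) (A.NR d μ)) :
    CQ.gy (zeroH _ Unit _) (CQ.pull (isClosedEmbedding_fE hμ).continuous (A.eS n χ d)) z =
      rhoS W.χ (-μ) • CQ.gy (zeroH _ Unit _)
        (CQ.eul isRep_NR (σ := MulActionHom.id _) continuous_id) z := by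
  have h1 : Continuous (SubRep.incl (A.Nmu d μ) fun t _ h => Nmu.smul_mem t h) :=
    continuous_subtype_val
  rw [eS, CQ.pull_eul _ (continuous_toT (A.continuous_sF n χ d))
      (isClosedEmbedding_fE hμ).continuous h1 fun s => _root_.funext fun k => (fibE_sec hμ s k).symm,
    ← mul_one (CQ.eul _ h1), CQ.gy_eul_sub _ isRep_NR (isRep_Wr (qW d W μ))
      (A.Nmu d μ).subtype (fun _ _ => rfl) Subtype.val_injective (qL d W μ) (qL_smul W)
      (qL_surjective W) (fun s => (qL_eq_zero W s).trans ⟨fun h => ⟨⟨s, h⟩, rfl⟩,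
        fun ⟨y, hy⟩ => hy ▸ y.2⟩) h1 (σ₁ := MulActionHom.id _) continuous_id (fun _ => rfl)
      (CQ.isClosedEmbedding_pt _) (by
        rw [mul_one]
        exact fun s hs => ⟨(), Eq.symm hs⟩), mul_one, eu_qW W hd hμ]
  rfl

/-- the chart of a cell -/
noncomputable def cE : Wr (cW Φ μ) × A.NR d μ →[Tc (Q.nn Φ)] A.RS n χ d :=
  ⟨chartN hd hμ, fun t y => by
    have h : twc t y.1 = t • y.1 := _root_.funext fun x =>
      congrArg (· * y.1 x) (chr_rootW ⟨x.1, x.2.1.1⟩ ⟨x.1, x.2.1.2⟩ t).symm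
    refine Eq.trans ?_ (toG_smul_chartN hd hμ t y).symm
    rw [h]
    rfl⟩

theorem isEmbedding_cE : IsEmbedding (cE (A := A) hd hμ) := isEmbedding_chartN hd hμ

theorem supp_tR_eS : (A.tR n χ d μ * A.eS n χ d).supp ⊆ range (A.oE d hμ) := by
  rw [CQ.supp_mul, supp_tR hμ.1, supp_eS]
  exact fun x hx => (mem_range_oE hμ).2 hx

/-- the localization on a cell -/
theorem exists_cell : ∃ θ : EH (Tc (Q.nn Φ)) (Wr (cW Φ μ) × A.NR d μ) → SP (Q.nn Φ),
    (∀ w, θ w = 0 → w = 0) ∧ ∀ w, eC Φ μ * coT _ (CQ.gy (zeroH _ Unit _)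
      (CQ.pull (isEmbedding_cE hd hμ).continuous (A.tR n χ d μ * A.eS n χ d)) w) =
      eN Q Φ n * (rhoS W.χ (-μ) * θ w) := by
  let j : A.NR d μ →[Tc (Q.nn Φ)] Wr (cW Φ μ) × A.NR d μ :=
    eprod (zeroH _ _ _) (MulActionHom.id _)
  let p₁ : Wr (cW Φ μ) × A.NR d μ →[Tc (Q.nn Φ)] Wr (cW Φ μ) := ⟨Prod.fst, fun _ _ => rfl⟩
  let p₂ : Wr (cW Φ μ) × A.NR d μ →[Tc (Q.nn Φ)] A.NR d μ := ⟨Prod.snd, fun _ _ => rfl⟩
  have h1 : Continuous p₁ := continuous_fst
  obtain ⟨h2, h3, h4⟩ := CQ.gy_eul_bijective (isRep_Wr (cW Φ μ)) (p := p₂) (κ := p₁) (s := j)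
    (Homeomorph.prodComm _ _).isHomeomorph h1 (fun _ => rfl) fun _ => rfl
  obtain ⟨h5, h6, h7⟩ := CQ.gy_eul_bijective (isRep_NR (A := A) (d := d) (μ := μ))
    (isTE_rep _).homeo (κ := MulActionHom.id _) continuous_id (isTE_rep _).ps (isTE_rep _).ks
  have hc := (isEmbedding_cE (A := A) hd hμ).continuous
  have h8 : ∀ s, cE hd hμ (j s) = fE d hμ s := chartN_zero hd hμ
  have h9 : ∀ s, A.sF n χ d (cE hd hμ (j s)) = 0 → s = 0 := fun s hs => Subtype.ext
    (funext fun k => (fibE_sec hμ s k).symm.trans (congrFun ((h8 s) ▸ hs) k))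
  have h10 : ∀ x : CQ _ _, x.supp ⊆ p₁ ⁻¹' {0} →
      (x * CQ.pull hc (A.eS n χ d)).supp ⊆ range (zeroH (Tc (Q.nn Φ)) Unit _) :=
    fun x hx y hy => by
    rw [CQ.supp_mul, CQ.supp_pull, supp_eS] at hy
    obtain ⟨s, rfl⟩ := h3 (hx hy.1)
    obtain rfl := h9 s hy.2
    exact ⟨(), rfl⟩
  have hp := CQ.isClosedEmbedding_pt (zeroH (Tc (Q.nn Φ)) Unit (Wr (cW Φ μ) × A.NR d μ))
  refine ⟨fun w => coT _ (CQ.gy (zeroH _ Unit _)
    (CQ.eul isRep_NR (σ := MulActionHom.id _) continuous_id)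
    (CQ.gy j (CQ.eul (isRep_Wr (cW Φ μ)) h1) w)), fun w hw => ?_, fun w => ?_⟩
  · rwa [(coT _).map_eq_zero_iff, map_eq_zero_iff _ h7.1, map_eq_zero_iff _ h4.1] at hw
  have h11 : CQ.HasCls (CQ.pull hp.continuous (CQ.pull hc (A.tR n χ d μ))) (psiT _ (eN Q Φ n)) := by
    have h12 := continuous_toT (A.continuous_blE n χ d)
    rw [tR, CQ.pull_pull hc h12 (h12.comp hc) (k := (toT (A.blE n χ d)).comp (cE hd hμ))
      fun _ => rfl, CQ.pull_pull hp.continuous _ (k := ((toT (A.blE n χ d)).comp (cE hd hμ)).comp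
        (zeroH _ Unit _)) ((h12.comp hc).comp hp.continuous) fun _ => rfl]
    exact hasCls_tl _ (fun _ => cellQ_zero) hμ.1
  have h12 := CQ.gy_swap hp (h10 _ (by
      rw [CQ.supp_pull, supp_tR hμ.1]
      exact fun y hy => cellQ_injective (Eq.trans hy cellQ_zero.symm)))
    (h10 _ subset_rfl) h11 ((CQ.hasCls_eul (isRep_Wr (cW Φ μ)) h1).pull hp.continuous) w
  rw [eu_Wr, mul_comm (CQ.eul _ _), ← CQ.gy_gy h2 h5 (k := zeroH _ Unit _)
      (x := CQ.pull hc (A.eS n χ d)) (y := CQ.eul (isRep_Wr (cW Φ μ)) h1) (fun _ => rfl) h3 (by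
      rw [CQ.supp_pull, supp_eS]
      exact fun s hs => ⟨(), (h9 s hs).symm⟩),
    CQ.pull_pull h2.continuous hc (isClosedEmbedding_fE hμ).continuous fun s => (h8 s).symm,
    gy_pull_eS W hd hμ] at h12
  rw [map_mul, eC, ← coT_psiT, h12, coT_psiT, map_smul, smul_eq_mul]

end

theorem evK_eq {μ : Col Q → ℤ} {z : EH (Tc (Q.nn Φ)) (A.RS n χ d)} {e s : SP (Q.nn Φ)}
    (he : e ≠ 0) (h : e * A.ev n χ d μ z = eN Q Φ n * (rhoS W.χ (-μ) * s)) :
    evK n χ d W μ z = sK Q Φ s * (sK Q Φ (rhoS W.χ μ) / sK Q Φ e) := by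
  have h1 := congrArg (sK Q Φ) h
  have h2 := (map_ne_zero_iff _ sK_injective).2 he
  have h3 := (map_ne_zero_iff _ (sK_injective (Q := Q) (Φ := Φ))).2 (rhoS_ne W.χ (-μ))
  have h4 := sK_eN_ne (Q := Q) (Φ := Φ) (n := n)
  rw [map_mul, map_mul, map_mul] at h1
  rw [evK_apply, mK, eq_div_of_mul_eq h2 ((mul_comm _ _).trans h1)]
  field_simp

theorem ev_eq_zero {μ : Col Q → ℤ} {z : EH (Tc (Q.nn Φ)) (A.RS n χ d)} (hμ : μ ∈ Box Q n χ)
    (h : (PhiT n χ d W z).coeff μ = 0) :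
    CQ.gy (A.oE d hμ) (A.tR n χ d μ * A.eS n χ d) z = 0 := by
  rwa [coeff_PhiT, evK_apply, div_eq_zero_iff, or_iff_left sK_eN_ne, mul_eq_zero,
    or_iff_right (mK_ne _ _), map_eq_zero_iff _ sK_injective, ev_apply hμ,
    (coT _).map_eq_zero_iff] at h

include hd

/-- the classes supported on the fibre over a fixed point -/
theorem exists_PhiT_single {μ : Col Q → ℤ} (hμ : μ ∈ Box Q n χ) (g : SP (Q.nn Φ)) :
    ∃ z, PhiT n χ d W z = AddMonoidAlgebra.single μ (sK Q Φ (rhoS W.χ μ * g)) := by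
  classical
  obtain ⟨h5, h6, h7⟩ := CQ.gy_eul_bijective (isRep_NR (A := A) (d := d) (μ := μ))
    (isTE_rep _).homeo (κ := MulActionHom.id _) continuous_id (isTE_rep _).ps (isTE_rep _).ks
  obtain ⟨y, hy⟩ := h7.2 (g • fundT _)
  have hf := isClosedEmbedding_fE (A := A) (d := d) hμ
  refine ⟨epush (fE d hμ) y, AddMonoidAlgebra.ext (Finsupp.ext fun ν => ?_)⟩
  rw [coeff_PhiT, AddMonoidAlgebra.coeff_single_apply]
  split_ifs with h
  · subst h
    have h1 : ∀ s, fE d hμ s ∈ range (A.oE d hμ) → s ∈ range (zeroH (Tc (Q.nn Φ)) Unit (A.NR d μ)) :=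
      fun s ⟨_, hs⟩ => ⟨(), hf.injective ((fE_zero hμ).trans hs)⟩
    have h2 := continuous_toT (A.continuous_blE n χ d)
    rw [evK_eq W one_ne_zero (s := g), map_one, div_one, map_mul, mul_comm]
    rw [one_mul, ev_apply hμ, CQ.gy_epush (CQ.isClosedEmbedding_pt _) h5 (.of_isClosedEmbedding hf)
      (g := MulActionHom.id _) IsPr.id (fun _ => fE_zero hμ) h1 (supp_tR_eS hμ),
      epush_id fun _ => rfl, map_mul, CQ.gy_mul_cls h5 (r := psiT _ (eN Q Φ n)), coT_psiT,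
      gy_pull_eS W hd hμ, map_smul, hy, coT_smul_fundT, smul_eq_mul]
    · rw [CQ.supp_pull, supp_eS]
      exact fun s hs => h1 s ((mem_range_oE hμ).2 ⟨rfl, hs⟩)
    · rw [tR, CQ.pull_pull hf.continuous h2 (h2.comp hf.continuous)
        (k := (toT (A.blE n χ d)).comp (fE d hμ)) fun _ => rfl]
      exact (hasCls_tl _ (fun _ => rfl) hμ.1).pull _
  · by_cases hν : ν ∈ Box Q n χ
    · rw [evK_apply, ev_apply hν, CQ.gy_epush_eq_zero (CQ.isClosedEmbedding_pt _)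
        (.of_isClosedEmbedding hf) (supp_tR_eS hν)
        fun s _ e => h (Lmu_injective (congrArg (·.1.1) e)).symm, map_zero, map_zero, mul_zero,
        zero_div]
    · rw [evK_apply, ev_of_not_mem hν, map_zero, mul_zero, zero_div]

theorem gy_cE_injective (W : Wts A) {μ : Col Q → ℤ} (hμ : μ ∈ Box Q n χ) :
    Injective (CQ.gy (zeroH _ Unit _)
      (CQ.pull (isEmbedding_cE hd hμ).continuous (A.tR n χ d μ * A.eS n χ d))) := by
  obtain ⟨θ, h1, h2⟩ := exists_cell W hd hμ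
  refine (injective_iff_map_eq_zero _).2 fun w hw => h1 w ?_
  have := h2 w
  rwa [hw, map_zero, mul_zero, eq_comm, mul_eq_zero, or_iff_right eN_ne, mul_eq_zero,
    or_iff_right (rhoS_ne _ _)] at this

omit hd in
/-- the cell of a triple -/
noncomputable def lamB (x : A.RS n χ d) : Box Q n χ := ⟨lam x.1.1, Rel.lam_mem x.2.1⟩

omit hd in
theorem lamB_smul (t : Tc (Q.nn Φ)) (x : A.RS n χ d) : lamB (t • x) = lamB x :=
  Subtype.ext ((RS.qbd x).lam_toG t)

omit hd in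
theorem eventually_lamB (x₀ : A.RS n χ d) :
    ∀ᶠ x in 𝓝 x₀, lamB x = lamB x₀ ∨ key (lamB x₀).1 < key (lamB x).1 :=
  (eventually_key RS.continuous_lat RS.qbd x₀).mono fun _ h => h.imp_left Subtype.ext

theorem range_cE (μ : Box Q n χ) : range (cE (A := A) hd μ.2) = {x | lamB x = μ} :=
  (range_chartN hd μ.2).trans (Set.ext fun _ => ⟨fun h => Subtype.ext h, congrArg Subtype.val⟩)

theorem cE_zero {μ : Col Q → ℤ} (hμ : μ ∈ Box Q n χ) : cE (A := A) hd hμ 0 = A.oE d hμ () :=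
  (chartN_zero hd hμ 0).trans (fE_zero hμ)

theorem PhiT_injective : Injective (PhiT n χ d W) := by
  haveI := (finite_Box (Q := Q) (n := n) (χ := χ)).to_subtype
  refine (injective_iff_map_eq_zero _).2 fun z hz => ?_
  exact CQ.cell_inj (key := fun μ => key μ.1) lamB_smul eventually_lamB
    (fun μ => isEmbedding_cE hd μ.2) (range_cE hd)
    (p := fun _ => zeroH _ Unit _) (fun μ => cE_zero hd μ.2) (fun μ => supp_tR_eS μ.2)
    (fun μ => gy_cE_injective hd W μ.2) fun μ => ev_eq_zero W μ.2 (by rw [hz]; rfl)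

theorem PhiG_injective : Injective (PhiG n χ d W) :=
  (PhiT_injective W hd).comp resT_injective

/-- the leading coefficient -/
theorem PhiT_lead {z : EH (Tc (Q.nn Φ)) (A.RS n χ d)} {μ : Col Q → ℤ}
    (h : ∀ ν, key μ < key ν → (PhiT n χ d W z).coeff ν = 0)
    (hm : ∀ i, Monotone fun a => μ ⟨i, a⟩) :
    ∃ s, (PhiT n χ d W z).coeff μ = toK s * (cq Q W.χ).e μ := by
  haveI := (finite_Box (Q := Q) (n := n) (χ := χ)).to_subtype
  by_cases hμ : μ ∈ Box Q n χ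
  · obtain ⟨w, hw⟩ := CQ.cell_lead (key := fun μ => key μ.1) lamB_smul eventually_lamB
      (fun μ => isEmbedding_cE hd μ.2)
      (range_cE hd) (p := fun _ => zeroH _ Unit _) (fun μ => cE_zero hd μ.2)
      (fun μ => supp_tR_eS μ.2) (fun μ => gy_cE_injective hd W μ.2) (l := ⟨μ, hμ⟩)
      fun ν hν => ev_eq_zero W ν.2 (h _ hν)
    obtain ⟨θ, -, h2⟩ := exists_cell W hd hμ
    refine ⟨spE Q Φ (θ w), ?_⟩
    rw [coeff_PhiT, evK_eq W (eC_ne μ) (s := θ w) (by rw [ev_apply hμ, hw, h2]), sK_apply,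
      sK_apply, sK_apply, spE_rhoS, spE_eC W.χ hm]
    rfl
  · exact ⟨0, (not_not.1 fun e => hμ (mem_Box_of_coeff W e)).trans
      ((congrArg (· * _) (map_zero _)).trans (zero_mul _)).symm⟩

end Flav

end Vale.Agent.P291Z
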