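import Vale.Agent.P291Z.C.CDef

/-!
# The abelianization map: compatibility with the transition maps and with the coefficient map
-/

set_option linter.unusedSectionVars false

namespace Vale.Agent.P291Z

open Set Function Topology MvPolynomial Quiv Lt Vale.Agent.P291 Vale.Agent.P291.Hik

namespace CQ

variable {G X Y W : Type} [Group G] [TopologicalSpace G] [Sys G] [TopologicalSpace X]
  [MulAction G X] [Nice X] [ContinuousSMul G X] [TopologicalSpace Y] [MulAction G Y] [Nice Y]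
  [ContinuousSMul G Y] [AddCommGroup W] [Module ℂ W] [TopologicalSpace W] [DistribMulAction G W]

theorem eul_snoc {d r r₁ r₂ : ℕ} (hW : IsRep G W r) (h₁ : IsRep G (Fin d → W) r₁)
    (h₂ : IsRep G (Fin (d + 1) → W) r₂) {σ : X →[G] (Fin (d + 1) → W)} (hσ : Continuous σ)
    {σ₁ : X →[G] (Fin d → W)} (hσ₁ : Continuous σ₁) {τ : X →[G] W} (hτ : Continuous τ)
    (e₁ : ∀ x k, σ x k.castSucc = σ₁ x k) (e₂ : ∀ x, σ x (Fin.last d) = τ x) :
    eul h₂ hσ = eul h₁ hσ₁ * eul hW hτ := by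
  let L : (Fin (d + 1) → W) →ₗ[ℂ] (Fin d → W) × W :=
    (LinearMap.funLeft ℂ W Fin.castSucc).prod (LinearMap.proj (Fin.last d))
  have hL : Bijective L := ⟨fun s s' h => funext (Fin.lastCases (congrArg Prod.snd h)
    (congrFun (congrArg Prod.fst h))), fun y => ⟨Fin.snoc y.1 y.2,
      Prod.ext (_root_.funext (Fin.snoc_castSucc (α := fun _ => W) y.2 y.1))
        (Fin.snoc_last (α := fun _ => W) y.2 y.1)⟩⟩
  have h3 : Continuous (⟨fun x => (σ₁ x, τ x), fun g x => Prod.ext (σ₁.map_smul g x)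
    (τ.map_smul g x)⟩ : X →[G] (Fin d → W) × W) := hσ₁.prodMk hτ
  rw [← eul_prod h₁ hW hσ₁ hτ h3 fun _ => rfl]
  exact eul_iso h₂ _ hσ h3 (fun _ => L)
    ((h₂.continuous_linear (h₁.prod hW) L).comp continuous_snd) (fun _ => hL) (fun _ _ _ => rfl)
    (fun x => Prod.ext (funext (e₁ x)) (e₂ x)) (h₂.finrank_eq.symm.trans
      ((LinearEquiv.ofBijective L hL).finrank_eq.trans (h₁.prod hW).finrank_eq))

theorem hasCls_eul_zero {r : ℕ} (hW : IsRep G W r) {σ : X →[G] W} (hσ : Continuous σ) (h : r = 0) :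
    HasCls (eul hW hσ) 1 := by
  subst h
  exact eu_zero hW ▸ hasCls_eul hW hσ

variable {f : X →[G] Y} (hf : IsPr f) {o : Unit →[G] Y} {a : CQ G Y} (ha : a.supp ⊆ range o)
include ha

theorem gy_pt_epush {p : Unit →[G] X} (e : f (p ()) = o ()) (h : f ⁻¹' range o ⊆ range p)
    (c : EH G X) : gy o a (epush f c) = gy p (pull hf.1 a) c := by
  rw [gy_epush (isClosedEmbedding_pt o) (isClosedEmbedding_pt p) hf (g := MulActionHom.id G)
    IsPr.id (fun _ => e) h ha, epush_id fun _ => rfl]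

include hf in
theorem gy_pt_epush_empty (h : f ⁻¹' a.supp = ∅) (c : EH G X) : gy o a (epush f c) = 0 := by
  have := gy_epush_sum (Λ := Unit) (t := fun _ => 1) (r := 1) (c := c)
    (by rw [Fintype.sum_unique, hasCls_one.gy_id fun _ => rfl]) hf ha (fun _ => 0)
    fun _ => Or.inl ⟨by rw [mul_one, supp_pull, h], rfl⟩
  rwa [one_smul, Fintype.sum_unique] at this

end CQ

variable {I E : Type} {Q : Quiv I E} {Φ : Type} [Fintype Φ] [Fintype I] [Fintype E] [DecidableEq I]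

namespace Flav

variable {A : Flav Q Φ} {n : ℕ} {χ : I → ℤ} {d d' : ℕ} {k : ℤ} (W : Wts A)

theorem oE_val {μ : Col Q → ℤ} (hμ : μ ∈ Box Q n χ) : (A.oE d hμ ()).1 = (Lmu μ, 0) :=
  Subtype.coe_mk (Lmu μ, (0 : ℕ → A.NN)) _

theorem supp_mul_eS {μ : Col Q → ℤ} (hμ : μ ∈ Box Q n χ) :
    (A.tR n χ d μ * A.eS n χ d).supp ⊆ range (A.oE d hμ) := fun y hy => by
  rw [CQ.supp_mul, supp_eS, supp_tR hμ.1] at hy
  exact (mem_range_oE hμ).2 hy

theorem PhiT_congr {n' : ℕ} {z : EH (Tc (Q.nn Φ)) (A.RS n χ d)}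
    {z' : EH (Tc (Q.nn Φ)) (A.RS n' χ d')}
    (h : ∀ μ, eN Q Φ n' * A.ev n χ d μ z = eN Q Φ n * A.ev n' χ d' μ z') :
    PhiT n χ d W z = PhiT n' χ d' W z' := by
  refine AddMonoidAlgebra.ext (Finsupp.ext fun μ => ?_)
  rw [coeff_PhiT, coeff_PhiT, evK_apply, evK_apply, div_eq_div_iff sK_eN_ne sK_eN_ne, mul_assoc,
    mul_assoc, ← map_mul, ← map_mul, mul_comm _ (eN Q Φ n'), h, mul_comm (eN Q Φ n)]

theorem ev_gD (μ : Col Q → ℤ) (β : EH (GG (Q.nn Φ)) (A.RS n χ (d + 1))) :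
    A.ev n χ d μ (resT (A.gD n χ d β)) = A.ev n χ (d + 1) μ (resT β) := by
  by_cases hμ : μ ∈ Box Q n χ
  swap
  · rw [ev_of_not_mem hμ, ev_of_not_mem hμ]
  have hi := A.isClosedEmbedding_incDE n χ d
  have hi' : IsClosedEmbedding (toT (A.incDE n χ d)) := hi
  have hs := A.continuous_secE n χ (d + 1) d
  have hr := (A.range_incDE n χ d).ge
  let σ : A.RS n χ (d + 1) →[Tc (Q.nn Φ)] (Fin d → A.NN) := ⟨fun x k => x.1.2 k, fun _ _ => rfl⟩
  have hσ : Continuous σ := continuous_pi fun k => RS.continuous_sec k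
  have e1 : A.tR n χ d μ * A.eS n χ d = CQ.pull hi'.continuous
      (A.tR n χ (d + 1) μ * CQ.eul (A.isRep_sF d).toT hσ) := by
    rw [map_mul, tR, tR, CQ.pull_pull hi'.continuous (continuous_toT (A.continuous_blE n χ _))
      (continuous_toT (A.continuous_blE n χ d))
      fun x => Subtype.ext (congrArg Prod.fst (incDE_val x)).symm, eS,
      CQ.pull_eul _ hσ hi'.continuous (continuous_toT (A.continuous_sF n χ d))
        fun x => funext fun k => (congrArg (fun y : Q.Lat × (ℕ → A.NN) => y.2 k)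
          (incDE_val x)).symm]
  have e2 : A.eS n χ (d + 1) = CQ.eul (A.isRep_sF d).toT hσ *
      CQ.eul A.isRep_NN.toT (continuous_toT hs) :=
    CQ.eul_snoc _ _ _ _ _ _ (fun _ _ => rfl) fun _ => rfl
  have e3 : resT (A.gD n χ d β) = CQ.gy (toT (A.incDE n χ d))
      (CQ.eul A.isRep_NN.toT (continuous_toT hs)) (resT β) := by
    rw [gD, ← CQ.gy_eul A.isRep_NN hs hi hr, CQ.resT_gy hi (x := CQ.eul A.isRep_NN hs) hr,
      CQ.plT_eul]
  have h4 := supp_mul_eS (A := A) (d := d) hμ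
  rw [e1, CQ.supp_pull] at h4
  rw [ev_apply hμ, ev_apply hμ, e3, e2, ← mul_assoc, e1]
  exact congrArg _ (CQ.gy_gy hi' (CQ.isClosedEmbedding_pt _)
    (fun _ => Subtype.ext (((oE_val hμ).trans (oE_val hμ).symm).trans (incDE_val _).symm))
    (y := CQ.eul A.isRep_NN.toT (continuous_toT hs)) hr h4 _)

theorem PhiG_gD (β : EH (GG (Q.nn Φ)) (A.RS n χ (d + 1))) :
    PhiG n χ d W (A.gD n χ d β) = PhiG n χ (d + 1) W β :=
  PhiT_congr W fun μ => congrArg _ (ev_gD μ β)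

theorem PhiG_at (hd : 2 * n ≤ d) (hd' : 2 * n ≤ d') (β : A.An n χ k) :
    PhiG n χ d W (An.at d hd β) = PhiG n χ d' W (An.at d' hd' β) :=
  seq_induction (P := fun d => ∀ hd : 2 * n ≤ d,
    PhiG n χ d W (An.at d hd β) = PhiG n χ d' W (An.at d' hd' β)) hd' (fun _ => rfl) (fun _ hd =>
      have e := (congrArg _ (An.gD_at hd β)).symm.trans (PhiG_gD W _)
      ⟨fun h _ => e.trans (h _), fun h _ => e.symm.trans (h _)⟩) d hd hd

theorem ev_incN (μ : Col Q → ℤ) (z : EH (Tc (Q.nn Φ)) (A.RS n χ d)) :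
    eN Q Φ n * A.ev (n + 1) χ d μ (epush (toT (A.incNE n χ d)) z) =
      eN Q Φ (n + 1) * A.ev n χ d μ z := by
  have hf : IsPr (toT (A.incNE n χ d)) := .of_isClosedEmbedding (A.isClosedEmbedding_incNE n χ d)
  have hv : ∀ x, (toT (A.incNE n χ d) x).1 = x.1 := A.incNE_val n χ d
  have hl : ∀ x, (toT (A.incNE n χ d) x).1.1 = x.1.1 := fun x => congrArg Prod.fst (hv x)
  by_cases hμ : μ ∈ Box Q n χ
  · have hμ' : μ ∈ Box Q (n + 1) χ := ⟨fun c => (hμ.1 c).trans (by push_cast; omega), hμ.2⟩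
    have ho := (CQ.isClosedEmbedding_pt (A.oE d hμ)).continuous
    have e1 : CQ.pull hf.1 (A.eS (n + 1) χ d) = A.eS n χ d :=
      CQ.pull_eul _ _ _ _ fun x => funext fun k =>
        (congrArg (fun y : Q.Lat × (ℕ → A.NN) => y.2 k) (hv x)).symm
    have e2 : CQ.HasCls (CQ.pull ho (CQ.pull hf.1 (A.tR (n + 1) χ d μ))) (psiT _ (eN Q Φ (n + 1))) :=
      have hk : Continuous ((toT (A.incNE n χ d)).comp (A.oE d hμ)) := hf.1.comp ho
      (CQ.pull_pull ho hf.1 hk (fun _ => rfl) _).symm ▸ hasCls_tR hk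
        (fun _ => (hl _).trans (congrArg Prod.fst (oE_val hμ))) hμ'.1
    rw [ev_swap hμ (by
      rw [CQ.supp_pull, supp_tR hμ'.1]
      exact fun x hx => (hl x).symm.trans hx) e2, ev_apply hμ', CQ.gy_pt_epush hf (supp_mul_eS hμ')
      (p := A.oE d hμ) (Subtype.ext (((hv _).trans (oE_val hμ)).trans (oE_val hμ').symm)) (by
        rintro x ⟨_, hx⟩
        exact ⟨(), Subtype.ext (((oE_val hμ).trans (oE_val hμ').symm).trans
          ((congrArg Subtype.val hx).trans (hv x)))⟩), map_mul, e1]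
  · rw [ev_of_not_mem hμ, mul_zero]
    by_cases hμ' : μ ∈ Box Q (n + 1) χ
    · rw [ev_apply hμ', CQ.gy_pt_epush_empty hf (supp_mul_eS hμ'), map_zero, mul_zero]
      rw [CQ.supp_mul, supp_tR hμ'.1]
      exact eq_empty_of_forall_notMem fun x hx =>
        hμ (rel_one_Lmu.1 (((hl x).symm.trans hx.1) ▸ x.2.1))
    · rw [ev_of_not_mem hμ', mul_zero]

theorem PhiG_incN (β : EH (GG (Q.nn Φ)) (A.RS n χ d)) :
    PhiG (n + 1) χ d W (epush (A.incNE n χ d) β) = PhiG n χ d W β :=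
  (congrArg (PhiT (n + 1) χ d W)
    (resT_epush (.of_isClosedEmbedding (A.isClosedEmbedding_incNE n χ d)) β)).trans
    (PhiT_congr W fun μ => ev_incN μ _)

theorem PhiG_up (hd : 2 * (n + 1) ≤ d) (hd' : 2 * n ≤ d') (β : A.An n χ k) :
    PhiG (n + 1) χ d W (An.at d hd (An.up β)) = PhiG n χ d' W (An.at d' hd' β) :=
  (congrArg _ (An.at_up hd β)).trans ((PhiG_incN W _).trans (PhiG_at W _ _ β))

theorem mem_Box_zero {μ : Col Q → ℤ} : μ ∈ Box Q 0 0 ↔ μ = 0 :=
  ⟨fun h => funext fun c => abs_nonpos_iff.1 (h.1 c), by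
    rintro rfl
    exact ⟨fun _ => by simp, fun _ => by simp⟩⟩

theorem ev_base (z : EH (Tc (Q.nn Φ)) (A.RS 0 0 0)) :
    A.ev 0 0 0 0 z = coT _ (epush (toT (toUnit _ _)) z) := by
  have hμ : (0 : Col Q → ℤ) ∈ Box Q 0 0 := mem_Box_zero.2 rfl
  have ho := CQ.isClosedEmbedding_pt (A.oE 0 hμ)
  have hp : IsHomeomorph (A.oE 0 hμ) := isHomeomorph_iff_exists_inverse.2
    ⟨ho.continuous, fun _ => (), fun _ => rfl, fun _ => RS.eq_of_zero _ _, continuous_const⟩
  obtain ⟨w, rfl⟩ := (isoEH_homeo hp).bij.2 z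
  have h1 : CQ.HasCls (A.eS 0 0 0) 1 := CQ.hasCls_eul_zero _ _ (by simp)
  have h2 := (hasCls_tR ho.continuous (fun _ => rfl) hμ.1).mul (h1.pull ho.continuous)
  rw [← map_mul, eN_zero, map_one, mul_one] at h2
  rw [ev_apply hμ, CQ.gy_epush_self ho (supp_mul_eS hμ) h2, one_smul, epush_epush
    (.of_isClosedEmbedding ho) (IsPr.of_isHomeomorph isHomeomorph_toUnit)
    (h := MulActionHom.id _) fun _ => rfl, epush_id fun _ => rfl]

theorem PhiG_cap {r : RR Q Φ} {β : A.An 0 0 k} (h : CapRel r β) :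
    PhiG 0 0 0 W (An.at 0 le_rfl β) = QD.cst (psi Q Φ r) := by
  refine AddMonoidAlgebra.ext (Finsupp.ext fun μ => ?_)
  rw [PhiG_apply, coeff_PhiT, evK_apply, QD.cst, AddMonoidAlgebra.coeff_single]
  by_cases hμ : μ = 0
  · subst hμ
    rw [ev_base, ← resT_epush (IsPr.of_isHomeomorph isHomeomorph_toUnit), capRel_iff.1 h,
      resT_smul, mK_zero, eN_zero, map_one, one_mul, div_one, Finsupp.single_eq_same]
    exact congrArg (sK Q Φ) (coT_smul_fundT _)
  · rw [ev_of_not_mem (mt mem_Box_zero.1 hμ), map_zero, mul_zero, zero_div,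
      Finsupp.single_eq_of_ne hμ]

end Flav

end Vale.Agent.P291Z
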