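import Vale.Agent.P291Z.Gen1

/-!
# Localization lemmas for a general group
-/

set_option linter.unusedSectionVars false

namespace Vale.Agent.P291Z.CQ

open Set Function Topology

variable {G : Type} [Group G] [TopologicalSpace G] [Sys G]
  {X Y Z B : Type} [TopologicalSpace X] [MulAction G X] [Nice X]
  [ContinuousSMul G X] [TopologicalSpace Y] [MulAction G Y] [Nice Y] [ContinuousSMul G Y]
  [TopologicalSpace Z] [MulAction G Z] [Nice Z] [ContinuousSMul G Z]
  [TopologicalSpace B] [MulAction G B] [Nice B] [ContinuousSMul G B]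

theorem isClosedEmbedding_pt (o : Unit →[G] X) : IsClosedEmbedding o :=
  continuous_of_discreteTopology.isClosedEmbedding fun _ _ _ => rfl

/-- **SUM**: localization of a push-forward -/
theorem gy_epush_sum {Λ : Type} [Fintype Λ] {t : Λ → CQ G X} {r : HS G Unit} {c : EH G X}
    (h : r • c = ∑ l, gy (MulActionHom.id G) (t l) c) {f : X →[G] Z} (hf : IsPr f)
    {o : Unit →[G] Z} {a : CQ G Z} (ha : a.supp ⊆ range o) (F : Λ → EH G Unit)
    (hF : ∀ l, ((pull hf.1 a * t l).supp = ∅ ∧ F l = 0) ∨ ∃ p : Unit →[G] X, f (p ()) = o () ∧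
      (pull hf.1 a * t l).supp ⊆ range p ∧ F l = gy p (pull hf.1 a * t l) c) :
    r • gy o a (epush f c) = ∑ l, F l := by
  have ho := isClosedEmbedding_pt o
  let A : SubMulAction G X := ⟨f ⁻¹' range o, fun g x hx => by
    rw [mem_preimage, map_smul]
    exact range_inv o g _ hx⟩
  have h1 : IsClosed (A : Set X) := ho.isClosed_range.preimage hf.1
  have : Nice A := Nice.of_isLocallyClosed h1.isLocallyClosed
  have : CompactSpace A := isCompact_iff_compactSpace.1 (hf.2 _ (isCompact_range ho.continuous))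
  have h2 : IsClosedEmbedding A.inclusion := h1.isClosedEmbedding_subtypeVal
  have h3 : IsPr (toUnit G A) := .of_isProperMap continuous_const.isProperMap
  have h4 : f ⁻¹' range o ⊆ range A.inclusion := fun x hx => ⟨⟨x, hx⟩, rfl⟩
  rw [← gy_smul ho ha, ← epush_smul hf, h, map_sum, map_sum]
  refine Finset.sum_congr rfl fun l _ => ?_
  rw [gy_epush ho h2 hf h3 (fun y => y.2.choose_spec.symm) h4 ha, ← pull_id
    (isClosedEmbedding_id (G := G)).continuous (fun _ => rfl) (pull hf.1 a), gy_gy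
    isClosedEmbedding_id h2 (k := A.inclusion) (fun _ => rfl) (subset_range_id _)
    (by rw [supp_pull]; exact (preimage_mono ha).trans h4)]
  rcases hF l with ⟨e, e'⟩ | ⟨p, e, e', e''⟩
  · rw [gy_eq_zero h2 e, map_zero, e']
  · let k : Unit →[G] A := ⟨fun _ => ⟨p (), (), e.symm⟩, fun g _ => Subtype.ext (p.map_smul g ())⟩
    rw [← epush_gy h2 (isClosedEmbedding_pt k) (j := p) (fun _ => rfl) e', epush_epush
      (.of_isClosedEmbedding (isClosedEmbedding_pt k)) h3 (h := MulActionHom.id G) fun _ => rfl,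
      epush_id fun _ => rfl, e'']

/-- a class is the sum of its parts -/
theorem smul_eq_sum_cut {Λ : Type} [Fintype Λ] {S K : Λ → Set Y} (h : ∀ l, IsCut G (S l) (K l))
    {x : CQ G Y} (hx : ∀ y ∈ x.supp, ∃ l, y ∈ S l ∧ ∀ l', l' ≠ l → y ∉ K l') {r : HS G Unit}
    (hr : HasCls x r) {f : X →[G] Y} (hf : Continuous f) (c : EH G X) :
    r • c = ∑ l, gy (MulActionHom.id G) (pull hf (cut (h l) x)) c := by
  rw [← (hr.pull hf).gy_id (f := MulActionHom.id G) (fun _ => rfl), ← mul_one (pull hf x),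
    gy_eq_sum_cut (fun l => (h l).preimage hf) (fun y hy => hx _ (by rwa [supp_pull] at hy))
      isClosedEmbedding_id (subset_range_id _)]
  refine Finset.sum_congr rfl fun l _ => ?_
  rw [mul_one, pull_cut]
  rintro y ⟨h1, h2⟩
  obtain ⟨l', h3, h4⟩ := hx y h1
  exact (not_not.1 fun e => h4 l e h2 : l = l') ▸ h3

section rep

variable {W W₁ W₂ : Type} [AddCommGroup W] [Module ℂ W] [TopologicalSpace W] [DistribMulAction G W]
  [AddCommGroup W₁] [Module ℂ W₁] [TopologicalSpace W₁] [DistribMulAction G W₁]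
  [AddCommGroup W₂] [Module ℂ W₂] [TopologicalSpace W₂] [DistribMulAction G W₂] {r r₁ r₂ : ℕ}

/-- **EXC** for compact groups: the section takes values in the subrepresentation `W₁` of `W`
with quotient `W₂` -/
theorem gy_eul_sub [CompactSpace G] (hW : IsRep G W r) (h₁ : IsRep G W₁ r₁) (h₂ : IsRep G W₂ r₂)
    (ι : W₁ →ₗ[ℂ] W) (hι : ∀ (g : G) w, ι (g • w) = g • ι w) (hi : Injective ι)
    (q : W →ₗ[ℂ] W₂) (hq : ∀ (g : G) w, q (g • w) = g • q w) (hs : Surjective q)
    (he : ∀ w, q w = 0 ↔ w ∈ range ι) {σ : X →[G] W} (hσ : Continuous σ) {σ₁ : X →[G] W₁}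
    (hσ₁ : Continuous σ₁) (e : ∀ x, σ x = ι (σ₁ x)) {i : Y →[G] X} (hc : IsClosedEmbedding i)
    {u : CQ G X} (hu : (eul h₁ hσ₁ * u).supp ⊆ range i) (z : EH G X) :
    gy i (eul hW hσ * u) z = eu h₂ • gy i (eul h₁ hσ₁ * u) z := by
  have := Sys.isTopologicalGroup G
  obtain ⟨π, h1, h2, h3⟩ := h₁.exists_split hW ι hι hi q hs he
  have h0 : Continuous (zeroH G X W₂) := continuous_const
  have hτ : Continuous (eprod σ₁ (zeroH G X W₂)) := hσ₁.prodMk h0
  rw [eul_iso hW (h₁.prod h₂) hσ hτ (fun _ => π.prod q)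
      ((hW.continuous_linear (h₁.prod h₂) _).comp continuous_snd) (fun _ => h3)
      (fun g _ w => Prod.ext (h1 g w) (hq g w))
      (fun x => by rw [e]; exact Prod.ext (h2 _) ((he _).2 ⟨_, rfl⟩))
      (hW.finrank_eq.symm.trans ((LinearEquiv.ofBijective _ h3).finrank_eq.trans
        (h₁.prod h₂).finrank_eq)),
    eul_prod h₁ h₂ hσ₁ h0 hτ fun _ => rfl, mul_comm (eul h₁ hσ₁), mul_assoc,
    gy_mul_cls hc hu ((hasCls_eul h₂ _).pull _)]

variable [Nice W₁] [ContinuousSMul G W₁] [Nice W₂] [ContinuousSMul G W₂]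

/-- **VB**: restriction of a class on a vector bundle `X → B` to a subrepresentation `W₂` of the
fibre `W₁ × W₂` over a fixed point -/
theorem gy_fibre (h₁ : IsRep G W₁ r₁) (h₂ : IsRep G W₂ r₂) {π : X →[G] B} (hπ : Continuous π)
    {s : B →[G] X} (hs : IsClosedEmbedding s) (hπs : ∀ b, π (s b) = b) {τ : CQ G X}
    (hτ : τ.supp ⊆ range s) {o : Unit →[G] B} {φ : W₁ × W₂ →[G] X} (hφ : IsClosedEmbedding φ)
    (hr : π ⁻¹' range o ⊆ range φ) (h0 : φ 0 = s (o ()))
    (ht : pull hφ.continuous τ = eul (h₁.prod h₂) (σ := MulActionHom.id G) continuous_id)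
    {κ : X →[G] W₁} (hκ : Continuous κ) (hκφ : ∀ w, κ (φ w) = w.1) {y : W₂ →[G] X}
    (hy : ∀ w, y w = φ (0, w)) {a : CQ G B} (ha : a.supp ⊆ range o) (v : EH G X) :
    gy (zeroH G Unit W₂) (eul h₂ (σ := MulActionHom.id G) continuous_id)
      (gy y (eul h₁ hκ * pull hπ a) v) = gy o a (gy s τ v) := by
  let j : W₂ →[G] W₁ × W₂ := eprod (zeroH G W₂ W₁) (MulActionHom.id G)
  let p₁ : W₁ × W₂ →[G] W₁ := ⟨Prod.fst, fun _ _ => rfl⟩
  let p₂ : W₁ × W₂ →[G] W₂ := ⟨Prod.snd, fun _ _ => rfl⟩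
  have hj : IsClosedEmbedding j := .of_continuous_injective_isClosedMap
    (continuous_const.prodMk continuous_id) (fun _ _ e => congrArg Prod.snd e)
    (isClosedMap_prodMk_left 0)
  have h1 : (pull hπ a).supp ⊆ range φ := by
    rw [supp_pull]
    exact (preimage_mono ha).trans hr
  have h2 : p₁ ⁻¹' {0} ⊆ range j := fun w hw => ⟨w.2, Prod.ext (Eq.symm hw) rfl⟩
  have h3 : Continuous p₁ := continuous_fst
  have h4 : Continuous p₂ := continuous_snd
  have h5 : Continuous (MulActionHom.id G : W₁ × W₂ →[G] _) := continuous_id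
  have h6 : (gy y (eul h₁ hκ * pull hπ a)) v = _ :=
    (gy_gy hφ hj hy (x := eul h₁ hκ) h1 (fun w hw => h2 ((hκφ w).symm.trans hw)) v).symm
  have h7 := pull_eul h₂ h4 hj.continuous (τ := MulActionHom.id G) continuous_id fun _ => rfl
  have h8 : eul h₂ h4 * eul h₁ h3 = pull hφ.continuous τ :=
    ((mul_comm _ _).trans (eul_prod h₁ h₂ h3 h4 h5 fun _ => rfl).symm).trans ht.symm
  have h9 : pull hs.continuous (pull hπ a) = a := (pull_pull hs.continuous hπ
    (k := MulActionHom.id G) continuous_id (fun b => (hπs b).symm) a).trans (pull_id _ (fun _ => rfl) a)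
  rw [pull_eul h₁ hκ hφ.continuous h3 fun w => (hκφ w).symm] at h6
  refine (congrArg₂ (gy _ · ·) h7.symm h6).trans ((gy_gy hj (isClosedEmbedding_pt _)
    (k := zeroH G Unit (W₁ × W₂)) (x := eul h₂ h4) (y := eul h₁ h3) (fun _ => rfl) h2
    (fun w (hw : w = 0) => ⟨(), hw.symm⟩) _).trans ?_)
  rw [h8, gy_gy hφ (isClosedEmbedding_pt _) (k := s.comp o) (fun _ => h0.symm) h1 (by
      rw [← supp_pull hφ.continuous, ht]
      exact fun w hw => ⟨(), Eq.symm hw⟩), mul_comm,
    ← gy_gy hs (isClosedEmbedding_pt o) (fun _ => rfl) hτ (by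
      rw [← supp_pull hs.continuous, h9]
      exact ha), h9]

end rep

end Vale.Agent.P291Z.CQ
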