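import Vale.Agent.P291Z.C.CWr
import Vale.Agent.P291Z.C.CGen
import Vale.Agent.P291Z.CT0

/-!
# The abelianization map: definitions
-/

set_option linter.unusedSectionVars false

namespace Vale.Agent.P291Z

open Set Function Topology MvPolynomial Quiv Lt Vale.Agent.P291 Vale.Agent.P291.Hik

section inst

variable {J₁ J₂ : Type} [Fintype J₁] [Fintype J₂] {n₁ : J₁ → ℕ} {n₂ : J₂ → ℕ} {Z Z' : Type}

theorem continuous_toT [TopologicalSpace Z] [MulAction (GG n₁) Z] [MulAction (Tc n₁) Z]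
    [IsScalarTower (Tc n₁) (GG n₁) Z] [TopologicalSpace Z'] [MulAction (GG n₁) Z']
    [MulAction (Tc n₁) Z'] [IsScalarTower (Tc n₁) (GG n₁) Z'] {f : Z →[GG n₁] Z'}
    (hf : Continuous f) : Continuous (toT f) := hf

end inst

variable {I E : Type} {Q : Quiv I E} {Φ : Type} [Fintype Φ] [Fintype I] [Fintype E]

namespace Flav

variable {A : Flav Q Φ} {n : ℕ} {χ : I → ℤ} {n' : ℕ} {χ' : I → ℤ} {d d' : ℕ}

variable (A n χ d)

/-- the lattice of a triple -/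
noncomputable def blE : A.RS n χ d →[GG (Q.nn Φ)] BL Q n where
  toFun x := ⟨x.1.1, RS.qbd x⟩
  map_smul' _ _ := rfl

theorem continuous_blE : Continuous (A.blE n χ d) := RS.continuous_lat.subtype_mk _

/-- the section of a triple -/
noncomputable def sF : A.RS n χ d →[GG (Q.nn Φ)] (Fin d → A.NN) where
  toFun x k := x.1.2 k
  map_smul' _ _ := rfl

theorem continuous_sF : Continuous (A.sF n χ d) := continuous_pi fun k => RS.continuous_sec k

theorem isRep_sF : IsRep (GG (Q.nn Φ)) (Fin d → A.NN)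
    (Fintype.card (Fin d) * Module.finrank ℂ (Q.N ℂ)) := (Four.isRep_NN (A := A)).pi

/-- the Euler class of the section -/
noncomputable def eS : CQ (Tc (Q.nn Φ)) (A.RS n χ d) :=
  CQ.eul (A.isRep_sF d).toT (continuous_toT (A.continuous_sF n χ d))

variable {n χ}

/-- the fixed point `(t^μ, 0)` -/
noncomputable def oE {μ : Col Q → ℤ} (hμ : μ ∈ Box Q n χ) : Unit →[Tc (Q.nn Φ)] A.RS n χ d where
  toFun _ := ⟨(Lmu μ, 0), rel_one_Lmu.2 hμ, fun _ _ => rfl,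
    pres_Lmu_poly.2 fun c _ _ _ => QL.co_zero c⟩
  map_smul' t _ := RS.ext (toG_smul_Lmu t μ).symm fun _ _ => (smul_zero (toG _ t)).symm

variable {A d}

theorem mem_range_oE {μ : Col Q → ℤ} (hμ : μ ∈ Box Q n χ) {x : A.RS n χ d} :
    x ∈ range (A.oE d hμ) ↔ x.1.1 = Lmu μ ∧ A.sF n χ d x = 0 :=
  ⟨by rintro ⟨_, rfl⟩; exact ⟨rfl, rfl⟩,
    fun h => ⟨(), RS.ext h.1.symm fun k hk => (congrFun h.2 ⟨k, hk⟩).symm⟩⟩

theorem supp_eS : (A.eS n χ d).supp = {x | A.sF n χ d x = 0} := CQ.supp_eul _ _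

end Flav

variable [DecidableEq I]

section point

variable (Φ) (n : ℕ)

/-- the weights of the off-diagonal entries of the projections -/
def sW (x : SI Q n) : Bx (Q.nn Φ) → ℤ := rootW ⟨x.1, x.2.1.1.1⟩ ⟨x.1, x.2.1.2.1⟩

variable (Q)

/-- the off-diagonal entries of the projections -/
noncomputable def sgE : BL Q n →[Tc (Q.nn Φ)] Wr (sW (Q := Q) Φ n) where
  toFun L := sg n L.1
  map_smul' t L := funext fun x => by
    refine (sg_toG t L.1 x).trans ?_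
    change _ = chr _ (rootW _ _) t * sg n L.1 x
    rw [chr_rootW]
    rfl

theorem continuous_sgE : Continuous (sgE Q Φ n) :=
  continuous_sg continuous_subtype_val fun x => x.2

/-- the Euler class of the representation of off-diagonal entries -/
noncomputable def eN : SP (Q.nn Φ) := ∏ x, linf _ (sW (Q := Q) Φ n x)

variable {Q}

theorem isCut_U (μ : Col Q → ℤ) : IsCut (Tc (Q.nn Φ)) ((fun L : BL Q n => L.1) ⁻¹' Uo n μ)
    ((fun L : BL Q n => L.1) ⁻¹' Uc n μ) where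
  opn := isOpen_Uo continuous_subtype_val (fun x => x.2) μ
  cls := isClosed_Uc continuous_subtype_val (fun x => x.2) μ
  sub := preimage_mono (Uo_subset μ)
  iS t _ h := (toG_mem_Uo t).2 h
  iK t _ h := (toG_mem_Uc t).2 h

/-- the point class of `t^μ` -/
noncomputable def tl (μ : Col Q → ℤ) : CQ (Tc (Q.nn Φ)) (BL Q n) :=
  CQ.cut (isCut_U Φ n μ) (CQ.eul (isRep_Wr _) (continuous_sgE Q Φ n))

variable {Φ n}

theorem eN_ne : eN Q Φ n ≠ 0 :=
  Finset.prod_ne_zero_iff.2 fun x _ h => X_sub_X_ne_zero (Λ := LF Φ)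
    (fun e => x.2.2 (WtB.col_inj e)) ((spE_rootW _ _).symm.trans
      ((congrArg (spE Q Φ) h).trans (map_zero _)))

theorem eN_zero : eN Q Φ 0 = 1 :=
  Finset.prod_eq_one fun x _ => absurd (Finset.mem_Ico.1 x.2.1.1.2.2) (by simp)

theorem rename_eN (w : Wy (Q.nn Φ)) : rename (Wy.perm w) (eN Q Φ n) = eN Q Φ n := by
  refine (spE Q Φ).injective ?_
  rw [spE_rename, eN, map_prod, map_prod]
  refine Fintype.prod_equiv (Equiv.sigmaCongrRight fun i => Equiv.subtypeEquiv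
    (((wyG w i).prodCongr (Equiv.refl _)).prodCongr ((wyG w i).prodCongr (Equiv.refl _)))
      fun p => (wyG w i).injective.ne_iff.symm) _ _ fun x => ?_
  rw [sW, sW, spE_rootW, spE_rootW, map_sub, rename_X, rename_X]
  rfl

theorem exists_of_mem_supp {L : BL Q n}
    (h : L ∈ (CQ.eul (isRep_Wr _) (continuous_sgE Q Φ n)).supp) : ∃ ν : Col Q → ℤ,
      (∀ c, |ν c| ≤ n) ∧ L.1 = Lmu ν := by
  rw [CQ.supp_eul] at h
  obtain ⟨ν, e⟩ := L.2.sg_eq_zero'.1 h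
  exact ⟨ν, qbd_Lmu.1 (e ▸ L.2), e⟩

theorem supp_inter_Uc {μ : Col Q → ℤ} (hμ : ∀ c, |μ c| ≤ n) :
    (CQ.eul (isRep_Wr _) (continuous_sgE Q Φ n)).supp ∩ (fun L : BL Q n => L.1) ⁻¹' Uc n μ =
      {L | L.1 = Lmu μ} := by
  refine Subset.antisymm (fun L h => ?_) fun L (h : L.1 = Lmu μ) => ⟨?_, ?_⟩
  · obtain ⟨ν, hν, e⟩ := exists_of_mem_supp h.1
    exact (Lmu_mem_Uc hμ hν).1 (e ▸ h.2) ▸ e
  · rw [CQ.supp_eul]
    exact L.2.sg_eq_zero'.2 ⟨μ, h⟩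
  · exact show L.1 ∈ Uc n μ from h ▸ Uo_subset μ (Lmu_mem_Uo μ)

theorem supp_inter_Uc_subset {μ : Col Q → ℤ} (hμ : ∀ c, |μ c| ≤ n) :
    (CQ.eul (isRep_Wr _) (continuous_sgE Q Φ n)).supp ∩ (fun L : BL Q n => L.1) ⁻¹' Uc n μ ⊆
      (fun L : BL Q n => L.1) ⁻¹' Uo n μ := by
  rw [supp_inter_Uc hμ]
  exact fun L (h : L.1 = Lmu μ) => show L.1 ∈ Uo n μ from h ▸ Lmu_mem_Uo μ

theorem supp_tl {μ : Col Q → ℤ} (hμ : ∀ c, |μ c| ≤ n) :
    (tl Φ n μ).supp = {L | L.1 = Lmu μ} :=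
  (CQ.supp_cut _ (supp_inter_Uc_subset hμ)).trans (supp_inter_Uc hμ)

variable {X : Type} [TopologicalSpace X] [MulAction (Tc (Q.nn Φ)) X] [Nice X]
  [ContinuousSMul (Tc (Q.nn Φ)) X] {f : X →[Tc (Q.nn Φ)] BL Q n} (hf : Continuous f)

theorem hasCls_tl {μ : Col Q → ℤ} (h : ∀ x, (f x).1 = Lmu μ) (hμ : ∀ c, |μ c| ≤ n) :
    CQ.HasCls (CQ.pull hf (tl Φ n μ)) (psiT _ (eN Q Φ n)) := by
  rw [tl, CQ.pull_cut_of_subset _ hf (supp_inter_Uc_subset hμ)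
    fun x _ => show (f x).1 ∈ Uo n μ from h x ▸ Lmu_mem_Uo μ, eN, ← eu_Wr]
  exact (CQ.hasCls_eul _ _).pull hf

/-- the bounded cocharacters -/
abbrev Bd' (Q : Quiv I E) (n : ℕ) : Type := {μ : Col Q → ℤ // ∀ c, |μ c| ≤ n}

noncomputable instance : Fintype (Bd' Q n) := finite_bd.fintype

theorem smul_eq_sum_tl (c : EH (Tc (Q.nn Φ)) X) : psiT _ (eN Q Φ n) • c =
    ∑ μ : Bd' Q n, CQ.gy (MulActionHom.id _) (CQ.pull hf (tl Φ n μ.1)) c := by
  refine CQ.smul_eq_sum_cut (fun μ : Bd' Q n => isCut_U Φ n μ.1) (fun L hL => ?_)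
    (by rw [eN, ← eu_Wr]; exact CQ.hasCls_eul _ _) hf c
  obtain ⟨ν, hν, e⟩ := exists_of_mem_supp hL
  exact ⟨⟨ν, hν⟩, show L.1 ∈ Uo n ν from e ▸ Lmu_mem_Uo ν, fun μ hμ h =>
    hμ (Subtype.ext ((Lmu_mem_Uc μ.2 hν).1 (e ▸ h)).symm)⟩

end point

section field

variable (Q Φ)

/-- the field of rational functions -/
abbrev KF : Type := P291.KK Q.qd.Col (LF Φ)

/-- the localized algebra of the torus -/
abbrev AF : Type := P291.AA Q.qd.Col (LF Φ)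

/-- polynomials as rational functions -/
noncomputable def sK : SP (Q.nn Φ) →+* KF Q Φ := (algebraMap _ _).comp (spE Q Φ).toRingHom

variable {Q Φ}

theorem sK_apply (s : SP (Q.nn Φ)) : sK Q Φ s = toK (spE Q Φ s) := rfl

theorem sK_injective : Injective (sK Q Φ) :=
  (IsFractionRing.injective _ _).comp (spE Q Φ).injective

theorem sK_smul (c : ℂ) (s : SP (Q.nn Φ)) : sK Q Φ (c • s) = c • sK Q Φ s := by
  rw [sK_apply, sK_apply, spE_smul]
  exact map_smul (IsScalarTower.toAlgHom ℂ _ _) _ _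

theorem sK_rename (w : Wy (Q.nn Φ)) (s : SP (Q.nn Φ)) :
    sK Q Φ (rename (Wy.perm w) s) = P291.act (Q.qd.act (wyG w)) (sK Q Φ s) := by
  rw [sK_apply, sK_apply, spE_rename, act_toK]

theorem sK_eN_ne {n : ℕ} : sK Q Φ (eN Q Φ n) ≠ 0 :=
  fun h => eN_ne (sK_injective (h.trans (map_zero _).symm))

variable (χ : Q.qd.Fl → Φ → ℤ)

/-- the factor `rho μ` in `S` -/
noncomputable def rhoS (μ : Col Q → ℤ) : SP (Q.nn Φ) :=
  ∏ c : QL.Ix Q, linf _ (ixW χ c) ^ (-exN μ c).toNat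

theorem spE_rhoS (μ : Col Q → ℤ) : spE Q Φ (rhoS χ μ) = (cq Q χ).rho μ := by
  rw [rhoS, QD.rho, prod_ix, map_prod]
  refine Finset.prod_congr rfl fun c _ => ?_
  rw [map_pow, spE_ixW]
  congr 2
  obtain c | c := c <;> exact neg_sub _ _

theorem rhoS_ne (μ : Col Q → ℤ) : rhoS χ μ ≠ 0 := fun h =>
  rho_ne_zero _ μ ((spE_rhoS χ μ).symm.trans ((congrArg (spE Q Φ) h).trans (map_zero _)))

theorem sK_rhoS_ne (μ : Col Q → ℤ) : sK Q Φ (rhoS χ μ) ≠ 0 :=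
  fun h => rhoS_ne χ μ (sK_injective (h.trans (map_zero _).symm))

theorem rhoS_zero : rhoS χ 0 = 1 :=
  Finset.prod_eq_one fun c _ => by rw [exN_zero]; rfl

/-- the multiplicative factor `∏ ξ ^ (-⟨ξ, μ⟩)` -/
noncomputable def mK (μ : Col Q → ℤ) : KF Q Φ := sK Q Φ (rhoS χ μ) / sK Q Φ (rhoS χ (-μ))

theorem mK_zero : mK χ 0 = 1 := by
  rw [mK, neg_zero, div_self (sK_rhoS_ne χ 0)]

theorem mK_ne (μ : Col Q → ℤ) : mK χ μ ≠ 0 :=
  div_ne_zero (sK_rhoS_ne χ _) (sK_rhoS_ne χ _)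

theorem mK_add (μ ν : Col Q → ℤ) : mK χ (μ + ν) = mK χ μ * mK χ ν := by
  rw [mK, mK, mK, div_mul_div_comm, div_eq_div_iff (sK_rhoS_ne χ _)
    (mul_ne_zero (sK_rhoS_ne χ _) (sK_rhoS_ne χ _))]
  simp only [← map_mul, rhoS, ← Finset.prod_mul_distrib, ← pow_add, exN_neg, exN_add]
  refine congrArg _ (Finset.prod_congr rfl fun c _ => congrArg _ ?_)
  omega

theorem act_mK (w : Wy (Q.nn Φ)) (μ : Col Q → ℤ) :
    P291.act (Q.qd.act (wyG w)) (mK χ μ) = mK χ (lact (Q.qd.act (wyG w)) μ) := by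
  simp only [mK, map_div₀, sK_apply, spE_rhoS, act_toK, rename_rho _ (act_mem Q.qd _ _)]
  rfl

end field

namespace Flav

variable (A : Flav Q Φ) (n : ℕ) (χ : I → ℤ) (d : ℕ)

/-- the point class of `t^μ` on the space of triples -/
noncomputable def tR (μ : Col Q → ℤ) : CQ (Tc (Q.nn Φ)) (A.RS n χ d) :=
  CQ.pull (continuous_toT (A.continuous_blE n χ d)) (tl Φ n μ)

open Classical in
/-- the localization at the fixed point `(t^μ, 0)` -/
noncomputable def ev (μ : Col Q → ℤ) :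
    EH (Tc (Q.nn Φ)) (A.RS n χ d) →ₗ[SP (Q.nn Φ)] SP (Q.nn Φ) :=
  if hμ : μ ∈ Box Q n χ then
    (coT _).toLinearMap ∘ₗ
      { toFun := CQ.gy (A.oE d hμ) (A.tR n χ d μ * A.eS n χ d)
        map_add' := map_add _
        map_smul' := fun s z => CQ.gy_smul (CQ.isClosedEmbedding_pt _) (by
          rw [CQ.supp_mul, tR, CQ.supp_pull, supp_tl hμ.1, supp_eS]
          exact fun x hx => (mem_range_oE hμ).2 hx) _ z }
  else 0

variable {A n χ d}

theorem supp_tR {μ : Col Q → ℤ} (hμ : ∀ c, |μ c| ≤ n) :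
    (A.tR n χ d μ).supp = {x | x.1.1 = Lmu μ} := by
  rw [tR, CQ.supp_pull, supp_tl hμ]; rfl

theorem hasCls_tR {X : Type} [TopologicalSpace X] [MulAction (Tc (Q.nn Φ)) X] [Nice X]
    [ContinuousSMul (Tc (Q.nn Φ)) X] {f : X →[Tc (Q.nn Φ)] A.RS n χ d} (hf : Continuous f)
    {μ : Col Q → ℤ} (h : ∀ x, (f x).1.1 = Lmu μ) (hμ : ∀ c, |μ c| ≤ n) :
    CQ.HasCls (CQ.pull hf (A.tR n χ d μ)) (psiT _ (eN Q Φ n)) :=
  have hk : Continuous ((toT (A.blE n χ d)).comp f) := (A.continuous_blE n χ d).comp hf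
  (CQ.pull_pull hf (continuous_toT (A.continuous_blE n χ d)) hk (fun _ => rfl) _).symm ▸
    hasCls_tl hk h hμ

theorem ev_apply {μ : Col Q → ℤ} (hμ : μ ∈ Box Q n χ) (z : EH (Tc (Q.nn Φ)) (A.RS n χ d)) :
    A.ev n χ d μ z = coT _ (CQ.gy (A.oE d hμ) (A.tR n χ d μ * A.eS n χ d) z) := by
  rw [ev, dif_pos hμ]; rfl

theorem ev_of_not_mem {μ : Col Q → ℤ} (hμ : μ ∉ Box Q n χ) (z : EH (Tc (Q.nn Φ)) (A.RS n χ d)) :
    A.ev n χ d μ z = 0 := by
  rw [ev, dif_neg hμ]; rfl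

/-- the point class can be replaced by any other one -/
theorem ev_swap {μ : Col Q → ℤ} (hμ : μ ∈ Box Q n χ) {u : CQ (Tc (Q.nn Φ)) (A.RS n χ d)}
    (hu : u.supp ⊆ {x | x.1.1 = Lmu μ}) {e : SP (Q.nn Φ)}
    (he : CQ.HasCls (CQ.pull (CQ.isClosedEmbedding_pt (A.oE d hμ)).continuous u) (psiT _ e))
    (z : EH (Tc (Q.nn Φ)) (A.RS n χ d)) :
    e * A.ev n χ d μ z = eN Q Φ n * coT _ (CQ.gy (A.oE d hμ) (u * A.eS n χ d) z) := by
  have hs : ∀ {x : CQ (Tc (Q.nn Φ)) (A.RS n χ d)}, x.supp ⊆ {x | x.1.1 = Lmu μ} →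
      (x * A.eS n χ d).supp ⊆ range (A.oE d hμ) := fun hx y hy => by
    rw [CQ.supp_mul, supp_eS] at hy
    exact (mem_range_oE hμ).2 ⟨hx hy.1, hy.2⟩
  have ho := CQ.isClosedEmbedding_pt (A.oE d hμ)
  rw [ev_apply hμ, ← coT_psiT, ← coT_psiT, CQ.gy_swap ho (hs (supp_tR hμ.1).subset) (hs hu)
    (hasCls_tR ho.continuous (fun _ => rfl) hμ.1) he]

variable (n χ d) (W : Wts A)

/-- the coefficient of `u^μ` -/
noncomputable def evK (μ : Col Q → ℤ) : EH (Tc (Q.nn Φ)) (A.RS n χ d) →ₗ[ℂ] KF Q Φ where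
  toFun z := mK W.χ μ * sK Q Φ (A.ev n χ d μ z) / sK Q Φ (eN Q Φ n)
  map_add' z z' := by rw [map_add, map_add, mul_add, add_div]
  map_smul' c z := by
    rw [LinearMap.map_smul_of_tower, sK_smul, mul_smul_comm, smul_div_assoc]; rfl

/-- the abelianization map for the torus -/
noncomputable def PhiT : EH (Tc (Q.nn Φ)) (A.RS n χ d) →ₗ[ℂ] AF Q Φ :=
  ∑ μ ∈ (finite_Box (Q := Q) (n := n) (χ := χ)).toFinset,
    AddMonoidAlgebra.lsingle μ ∘ₗ evK n χ d W μ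

/-- the abelianization map -/
noncomputable def PhiG : EH (GG (Q.nn Φ)) (A.RS n χ d) →ₗ[ℂ] AF Q Φ := PhiT n χ d W ∘ₗ resT

variable {n χ d}

theorem evK_apply (μ : Col Q → ℤ) (z : EH (Tc (Q.nn Φ)) (A.RS n χ d)) :
    evK n χ d W μ z = mK W.χ μ * sK Q Φ (A.ev n χ d μ z) / sK Q Φ (eN Q Φ n) := rfl

theorem coeff_PhiT (z : EH (Tc (Q.nn Φ)) (A.RS n χ d)) (μ : Col Q → ℤ) :
    (PhiT n χ d W z).coeff μ = evK n χ d W μ z := by
  classical
  rw [PhiT, LinearMap.sum_apply, AddMonoidAlgebra.coeff_sum, Finsupp.finsetSum_apply]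
  simp only [LinearMap.comp_apply, AddMonoidAlgebra.lsingle_apply, AddMonoidAlgebra.coeff_single,
    Finsupp.single_apply, Finset.sum_ite_eq', Finite.mem_toFinset]
  split_ifs with h
  · rfl
  · rw [evK_apply, ev_of_not_mem h, map_zero, mul_zero, zero_div]

theorem PhiG_apply (z : EH (GG (Q.nn Φ)) (A.RS n χ d)) :
    PhiG n χ d W z = PhiT n χ d W (resT z) := rfl

theorem mem_Box_of_coeff {z : EH (Tc (Q.nn Φ)) (A.RS n χ d)} {μ : Col Q → ℤ}
    (h : (PhiT n χ d W z).coeff μ ≠ 0) : μ ∈ Box Q n χ := by_contra fun hμ => h (by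
  rw [coeff_PhiT, evK_apply, ev_of_not_mem hμ, map_zero, mul_zero, zero_div])

theorem PhiT_smul (s : SP (Q.nn Φ)) (z : EH (Tc (Q.nn Φ)) (A.RS n χ d)) :
    PhiT n χ d W (s • z) = QD.cst (spE Q Φ s) * PhiT n χ d W z := by
  refine AddMonoidAlgebra.ext (Finsupp.ext fun μ => ?_)
  rw [QD.cst, AddMonoidAlgebra.coeff_single_zero_mul, coeff_PhiT, coeff_PhiT, evK_apply, evK_apply,
    map_smul, smul_eq_mul, map_mul, sK_apply s]
  ring

end Flav

end Vale.Agent.P291Z
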