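import Vale.Agent.P291Z.Coul3

/-!
# The Coulomb side
-/

set_option linter.all false

namespace Vale.Agent.P291Z.Flav

open Set Function Topology MvPolynomial Quiv Lt Vale.Agent.P291 Vale.Agent.P291.Hik

variable {I E Φ : Type} {Q : Quiv I E} [Fintype Φ] [Fintype I] [Fintype E] {A : Flav Q Φ}
  {n n' : ℕ} {χ χ' : I → ℤ} {k k' : ℤ} {ν : I → ℤ}

/-- the specification of the product -/
theorem conv_final (β₁ : A.An n χ k) (β₂ : A.An n' χ' k') :
    ∃ β₃, ConvRel β₁ β₂ β₃ ∧ cls β₁ * cls β₂ = cls β₃ ∧ ∀ β, ConvRel β₁ β₂ β → β = β₃ := by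
  classical
  exact (mult (exists_wts A).some).conv_final β₁ β₂

theorem prj_mul_mem_JJ (p : (I → ℤ) → ℤ → Prop) {j : A.AA} (hj : j ∈ A.JJ ν) (b : A.AA) :
    AA.prj p (b * j) ∈ A.JJ ν := by
  induction hj using Submodule.span_induction generalizing b with
  | zero => rw [mul_zero, map_zero]; exact zero_mem _
  | add x y _ _ hx hy => rw [mul_add, map_add]; exact add_mem (hx b) (hy b)
  | smul c x _ hx => rw [smul_eq_mul, ← mul_assoc]; exact hx _
  | mem x hx =>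
    obtain ⟨m, hm, hx⟩ := hx
    refine spP_induction (p := fun χ _ => ∑ i, ν i * χ i = m)
      (P := fun x => AA.prj p (b * x) ∈ A.JJ ν) hx (by rw [mul_zero, map_zero]; exact zero_mem _)
      (fun x y hx hy => by rw [mul_add, map_add]; exact add_mem hx hy) fun n χ k β h => ?_
    refine AA.induction (P := fun b => AA.prj p (b * cls β) ∈ A.JJ ν) b
      (by rw [zero_mul, map_zero]; exact zero_mem _)
      (fun x y hx hy => by rw [add_mul, map_add]; exact add_mem hx hy) fun n' χ' k' β' => ?_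
    obtain ⟨γ, -, e, -⟩ := conv_final β' β
    by_cases h' : p (χ' + χ) (k' + k)
    · rw [e, AA.prj_pos h', ← e]
      exact Ideal.mul_mem_left _ _ (Ideal.subset_span ⟨m, hm, cls_mem_spP
        (p := fun χ _ => ∑ i, ν i * χ i = m) h β⟩)
    · rw [e, AA.prj_neg h']
      exact zero_mem _

theorem coefA_mem_Adeg {r : RR Q Φ} (hr : r.1 ∈ HGdeg _ _ k) : A.coefA r ∈ A.Adeg (-k) := by
  obtain ⟨β, -, h, -⟩ := coefA_final (A := A) k r hr
  exact Submodule.subset_span ⟨0, 0, β, h⟩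

theorem RR.deg_iff {r : RR Q Φ} : r.1 ∈ HGdeg _ _ k ↔
    (show HS (GG (Q.nn Φ)) Unit from r) • fundE (Q.nn Φ) ∈ EH.deg _ _ (-k) := by
  rw [smul_fundE_deg, neg_neg]
  rfl

theorem RR.zero_deg : (0 : RR Q Φ).1 ∈ HGdeg _ _ k :=
  RR.deg_iff.2 ((congrArg (· ∈ EH.deg _ _ (-k))
    (zero_smul (HS (GG (Q.nn Φ)) Unit) (fundE (Q.nn Φ)))).mpr (Submodule.zero_mem _))

theorem RR.add_deg {r s : RR Q Φ} (hr : r.1 ∈ HGdeg _ _ k) (hs : s.1 ∈ HGdeg _ _ k) :
    (r + s).1 ∈ HGdeg _ _ k :=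
  RR.deg_iff.2 ((add_smul (R := HS (GG (Q.nn Φ)) Unit) r s (fundE (Q.nn Φ))).symm ▸
    add_mem (RR.deg_iff.1 hr) (RR.deg_iff.1 hs) :)

theorem exists_prj_coefA (k : ℤ) (r : RR Q Φ) : ∃ r' : RR Q Φ, r'.1 ∈ HGdeg _ _ k ∧
    AA.prj (fun _ j => j = -k) (A.coefA r) = A.coefA r' := by
  refine RR.induction (P := fun r => ∃ r' : RR Q Φ, r'.1 ∈ HGdeg _ _ k ∧
    AA.prj (fun _ j => j = -k) (A.coefA r) = A.coefA r') r ⟨0, RR.zero_deg, by simp⟩ ?_
    fun j r hr => ?_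
  · rintro a b ⟨a', h1, h2⟩ ⟨b', h3, h4⟩
    exact ⟨a' + b', RR.add_deg h1 h3, by rw [map_add, map_add, map_add, h2, h4]⟩
  · obtain ⟨β, -, h, -⟩ := coefA_final (A := A) j r hr
    by_cases e : j = k
    · exact ⟨r, e ▸ hr, by rw [h, AA.prj_pos (congrArg _ e)]⟩
    · exact ⟨0, RR.zero_deg, by rw [h, AA.prj_neg fun e' => e (neg_injective e'), map_zero]⟩

variable [DecidableEq I] (W : Wts A)

theorem PhiA_mul (a b : A.AA) : PhiA W (a * b) = PhiA W a * PhiA W b := (mult W).PhiA_conv a b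

theorem PhiA_mem (a : A.AA) : PhiA W a ∈ (cq Q W.χ).A := ((mult W).mem_range _).1 ⟨a, rfl⟩

theorem mem_Awt {m : ℤ} {a : A.AA} : a ∈ A.Awt ν m ↔ Hm Q.qd ν m (PhiA W a) :=
  (mem_spP_chg W (p := fun χ => ∑ i, ν i * χ i = m)).trans (forall₂_congr fun μ _ => by
    rw [QData.nuWt, Fintype.sum_sigma]
    simp only [chg, Finset.mul_sum])

theorem mem_JJ (hν : A.Regular ν) {a : A.AA} : a ∈ A.JJ ν ↔ PhiA W a ∈ (cq Q W.χ).II := by
  refine ⟨fun h => ?_, fun h => ?_⟩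
  · induction h using Submodule.span_induction with
    | zero => rw [map_zero]; exact zero_mem _
    | add x y _ _ hx hy => rw [map_add]; exact add_mem hx hy
    | smul c x _ hx => rw [smul_eq_mul, PhiA_mul]; exact TB.II_mul_mem _ (PhiA_mem W c) hx
    | mem x hx =>
      obtain ⟨m, hm, hx⟩ := hx
      exact mem_II_of_Hm Q.qd _ ν hm (PhiA_mem W x) ((mem_Awt W).1 hx)
  · obtain ⟨x, hx, e⟩ := J_of_JN Q.qd _ ν (II_le_JN _ ν (reg_core _ ν hν.qd) h)
    suffices ∃ b ∈ A.JJ ν, PhiA W b = Q.qd.val _ x by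
      obtain ⟨b, hb, e'⟩ := this
      rwa [← PhiA_injective W (e'.trans e)]
    clear e
    induction hx using Submodule.span_induction with
    | zero => exact ⟨0, zero_mem _, (map_zero _).trans (map_zero (Q.qd.val _)).symm⟩
    | add x y _ _ hx hy =>
      obtain ⟨b, hb, e⟩ := hx
      obtain ⟨b', hb', e'⟩ := hy
      exact ⟨b + b', add_mem hb hb', (map_add _ _ _).trans
        ((congrArg₂ (· + ·) e e').trans (map_add (Q.qd.val _) x y).symm)⟩
    | smul c x _ hx =>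
      obtain ⟨b, hb, e⟩ := hx
      obtain ⟨b', e'⟩ := ((mult W).mem_range _).2 ((mem_alg Q.qd _ _).1 c.2)
      exact ⟨b' * b, Ideal.mul_mem_left _ _ hb, (PhiA_mul W _ _).trans
        ((congrArg₂ (· * ·) e' e).trans (map_mul (Q.qd.val _) c x).symm)⟩
    | mem x hx =>
      obtain ⟨m, hm, hx⟩ := hx
      obtain ⟨b, e⟩ := ((mult W).mem_range _).2 ((mem_alg Q.qd _ _).1 x.2)
      exact ⟨b, Ideal.subset_span ⟨m, hm, (mem_Awt W).2 (e ▸ hx)⟩, e⟩

/-- the coefficient map as a ring homomorphism -/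
noncomputable def coefR : RR Q Φ →+* A.AA where
  toFun := A.coefA
  map_one' := rfl
  map_mul' r s := PhiA_injective W (by simp only [PhiA_mul, PhiA_coefA, map_mul, Hik.cst_mul])
  map_zero' := map_zero _
  map_add' := map_add _

/-- **The Coulomb side.** -/
theorem coul_final (hν : A.Regular ν) : ∃ φ : RR Q Φ →+* A.CY ν, (∀ r, φ r = A.phiC ν r) ∧
    Surjective φ ∧ (∀ r, φ r = 0 ↔ psi Q Φ r ∈ (cq Q W.χ).JC) ∧
    (∀ k, ∀ a ∈ A.Adeg (-k), ∃ r, r.1 ∈ HGdeg _ _ k ∧ φ r = Ideal.Quotient.mk _ a) ∧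
    ∀ k r, r.1 ∈ HGdeg _ _ k → A.coefA r ∈ A.Adeg (-k) := by
  have h1 : ∀ a : A.AA, ∃ r, a - A.coefA r ∈ A.JJ ν := fun a => by
    obtain ⟨r, hr, y, hy, e⟩ := A_eq Q.qd _ (PhiA_mem W a)
    obtain ⟨r, rfl⟩ := (mem_range_psi W.χ).2 hr
    refine ⟨r, (mem_JJ W hν).2 ?_⟩
    rw [map_sub, PhiA_coefA, e, add_sub_cancel_left]
    exact hy
  refine ⟨(Ideal.Quotient.mk _).comp (coefR W), fun _ => rfl, fun y => ?_, fun r => ?_,
    fun k a ha => ?_, fun k r => coefA_mem_Adeg⟩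
  · obtain ⟨a, rfl⟩ := Ideal.Quotient.mk_surjective y
    exact (h1 a).imp fun r h => (Ideal.Quotient.eq.2 h).symm
  · refine Ideal.Quotient.eq_zero_iff_mem.trans ((mem_JJ W hν).trans ?_)
    exact (PhiA_coefA W r).symm ▸ (and_iff_right ((mem_range_psi W.χ).1 ⟨r, rfl⟩)).symm
  · obtain ⟨r, hr⟩ := h1 a
    obtain ⟨r', h2, h3⟩ := exists_prj_coefA (A := A) k r
    have h4 := prj_mul_mem_JJ (fun _ j => j = -k) hr 1
    rw [one_mul, map_sub, h3, mem_spP_iff.1 (span_deg_eq (A := A) (-k) ▸ ha)] at h4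
    exact ⟨r', h2, (Ideal.Quotient.eq.2 h4).symm⟩

end Vale.Agent.P291Z.Flav
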