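import Vale.Agent.P291Z.C.CMul3

/-!
# The abelianization map is multiplicative
-/

set_option linter.unusedSectionVars false
set_option linter.style.haveILetI false

namespace Vale.Agent.P291Z

open Set Function Topology Quiv Lt

variable {I E : Type} {Q : Quiv I E} {Φ : Type} [Fintype Φ] [Fintype I] [Fintype E]

namespace Flav

variable {A : Flav Q Φ} {n : ℕ} {χ : I → ℤ} {n' : ℕ} {χ' : I → ℤ} {d d' : ℕ}
  {μ ν : Col Q → ℤ}

variable (A d) in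
/-- the fixed point with lattices `t^μ`, `t^ν` and zero section -/
noncomputable def o2 (hμ : μ ∈ Box Q n χ) (hν : ν - μ ∈ Box Q n' χ') :
    Unit →[Tc (Q.nn Φ)] A.R2 n χ n' χ' d where
  toFun _ := ⟨(A.oE d hμ (), Lmu ν), rel_Lmu.2 hν, pres_Lmu_poly.2 fun c _ _ _ => QL.co_zero c⟩
  map_smul' t _ := Subtype.ext (Prod.ext ((A.oE d hμ).map_smul t ()) (toG_smul_Lmu t ν).symm)

theorem mem_range_o2 (hμ : μ ∈ Box Q n χ) (hν : ν - μ ∈ Box Q n' χ') {x : A.R2 n χ n' χ' d}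
    (h : x.1.1 ∈ range (A.oE d hμ)) (h' : x.1.2 = Lmu ν) : x ∈ range (A.o2 d hμ hν) := by
  obtain ⟨_, h⟩ := h
  exact ⟨(), Subtype.ext (Prod.ext h h'.symm)⟩

theorem yP_eq_iota (hd' : 2 * n' ≤ d') (hμ : μ ∈ Box Q n χ) (hν : ν - μ ∈ Box Q n' χ')
    (y : TO Q Φ) : yP lt_smul (A.oE d' hν) (o := A.oE d hμ) rfl hμ.1 y =
      A.iota hd' (yP lt₂_smul (MulActionHom.id _) (o := A.o2 d hμ hν) rfl hμ.1 y) := by
  refine Subtype.ext (Subtype.ext (Prod.ext (Prod.ext rfl (RS.ext ?_ fun k hk => ?_)) rfl))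
  · have h1 := mulL_dEl hμ.1 y.2 (ν - μ)
    have h2 := QBd.det_ne (((frame_dEl hμ.1).2 y.2).1.symm ▸ qbd_Lmu.2 hμ.1)
    rw [add_sub_cancel] at h1
    change Lmu (ν - μ) = mulL (laur (dEl n μ y.1).1)⁻¹ (Lmu ν)
    rw [← h1, ← mulL_mul, QL.inv_mul_of_det h2, mulL_one]
  · refine Eq.trans ?_ (if_pos hk).symm
    exact ((trL_sF (dEl n μ y.1) ((frame_dEl hμ.1).2 y.2).2 (A.oE d hμ ()) ⟨k, hk⟩).symm.trans
      (congrFun (map_zero (trL d d' (dEl n μ y.1) _)) _)).symm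

variable [DecidableEq I]

theorem supp_tR_mul_eS (hμ : μ ∈ Box Q n χ) :
    (A.tR n χ d μ * A.eS n χ d).supp ⊆ range (A.oE d hμ) := by
  rw [CQ.supp_mul, supp_tR hμ.1, supp_eS]
  exact fun x hx => (mem_range_oE hμ).2 hx

variable (A n χ n' χ' d) in
theorem pull_mm_eS : CQ.pull (continuous_toT (A.continuous_mmE n χ n' χ' d))
    (A.eS (n + n') (χ + χ') d) =
      CQ.pull (continuous_toT (A.isPr_pr1E n χ n' χ' d).1) (A.eS n χ d) := by
  have h : Continuous ((toT (A.sF n χ d)).comp (toT (A.pr1E n χ n' χ' d))) :=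
    (A.continuous_sF n χ d).comp R2.continuous_fst
  exact (CQ.pull_eul _ _ _ h fun _ => rfl).trans (CQ.pull_eul _ _ _ h fun _ => rfl).symm

theorem pull_iota_voF (hd' : 2 * n' ≤ d') (x : CQ (Tc (Q.nn Φ)) (A.RS n χ d)) :
    CQ.pull (continuous_toT (A.continuous_iotaE n χ χ' d hd')) (voF lt_smul _ n x) =
      voF lt₂_smul Unit n (CQ.pull (continuous_toT (A.isPr_pr1E n χ n' χ' d).1) x) := by
  have h1 : ∀ (t : T2 Q Φ) (v : A.Vq n χ n' χ' d), (t • v).1.1.1.1.1.1 =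
      (sumProdT _ _).π₁ t • v.1.1.1.1.1.1 := fun _ _ => rfl
  have h2 : Continuous fun v : A.Vq n χ n' χ' d => v.1.1.1.1.1.1 :=
    R2.continuous_fst.comp VO.continuous_fst
  exact (CQ.pull_pl₁ _ (VO.fst_smulT _ _ n) VO.continuous_fst _ h1 h2 (fun _ => rfl) x).trans
    (CQ.pl₁_pull _ (VO.fst_smulT _ _ n) VO.continuous_fst _ h1 h2 (fun _ => rfl) x).symm

variable {c : EH (GG (Q.nn Φ)) (A.R2 n χ n' χ' d)} {z₁ : EH (GG (Q.nn Φ)) (A.RS n χ d)}
  {z₂ : EH (GG (Q.nn Φ)) (A.RS n' χ' d')}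

variable (A n χ n' χ' d μ ν) in
/-- the point class of the fixed point with lattices `t^μ`, `t^ν` -/
noncomputable def t2 : CQ (Tc (Q.nn Φ)) (A.R2 n χ n' χ' d) :=
  CQ.pull (continuous_toT (A.continuous_mmE n χ n' χ' d)) (A.tR (n + n') (χ + χ') d ν) *
    CQ.pull (continuous_toT (A.isPr_pr1E n χ n' χ' d).1) (A.tR n χ d μ * A.eS n χ d)

theorem supp_t2 (hμ : ∀ c, |μ c| ≤ n) (hν : ∀ c, |ν c| ≤ (n + n' : ℕ)) :
    (A.t2 n χ n' χ' d μ ν).supp =
      {x | x.1.2 = Lmu ν ∧ x.1.1.1.1 = Lmu μ ∧ A.sF n χ d x.1.1 = 0} := by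
  rw [t2, CQ.supp_mul, CQ.supp_pull, CQ.supp_pull, CQ.supp_mul, supp_tR hμ, supp_tR hν, supp_eS]
  rfl

theorem mem_box_add (hμ : μ ∈ Box Q n χ) (hν : ν - μ ∈ Box Q n' χ') :
    ν ∈ Box Q (n + n') (χ + χ') := add_sub_cancel μ ν ▸ Box.add hμ hν

theorem supp_t2_subset (hμ : μ ∈ Box Q n χ) (hν : ν - μ ∈ Box Q n' χ') :
    (A.t2 n χ n' χ' d μ ν).supp ⊆ range (A.o2 d hμ hν) := by
  rw [supp_t2 hμ.1 (mem_box_add hμ hν).1]
  exact fun x hx => mem_range_o2 hμ hν ((mem_range_oE hμ).2 hx.2) hx.1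

theorem coT_gy_o2 (hd' : 2 * n' ≤ d') (h : pst lt₂_smul Unit n (crs c (fundE _)) =
      egys (A.iotaE n χ χ' d hd') (eul (A.sigE n χ n' χ' d d'))
        (pst lt_smul (A.RS n' χ' d') n (crs z₁ z₂)))
    (hμ : μ ∈ Box Q n χ) (hν : ν - μ ∈ Box Q n' χ') :
    eN Q Φ n' * coT _ (CQ.gy (A.o2 d hμ hν) (A.t2 n χ n' χ' d μ ν) (resT c)) =
      eN Q Φ (n + n') * (A.ev n χ d μ (resT z₁) * A.ev n' χ' d' (ν - μ) (resT z₂)) := by
  obtain ⟨P⟩ := exists_spl (Φ := Φ) hμ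
  obtain ⟨e, he, hf⟩ := CQ.exists_fold_cross (n := Q.nn Φ)
  have hq := supp_t2_subset (A := A) (d := d) hμ hν
  have h1 : (1 : CQ (Tc (Q.nn Φ)) Unit).supp ⊆ range (MulActionHom.id (Tc (Q.nn Φ))) :=
    CQ.subset_range_id _
  obtain ⟨Fq, hq1, hq2⟩ := exists_frame_cross lt₂_smul P (o := A.o2 d hμ hν) rfl hμ.1 hq h1
    continuous_lt₂ (fun x => x.1.1.2.1) c (fundE _)
  obtain ⟨Fp, hp1, hp2⟩ := exists_frame_cross lt_smul P (o := A.oE d hμ) rfl hμ.1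
    (supp_tR_mul_eS hμ) (supp_tR_mul_eS (d := d') hν) continuous_lt (fun x => x.2.1) z₁ z₂
  have hι := A.isClosedEmbedding_iotaE n χ χ' d hd'
  have hσ : (CQ.eul (A.isRep_sF d').snd (A.continuous_sigE n χ n' χ' d d')).supp =
      range (A.iotaE n χ χ' d hd') := (CQ.supp_eul _ _).trans (A.range_iotaE n χ χ' d hd').symm
  have h2 : CQ.eul P.isRep (continuous_kO (Z' := Unit) lt₂_smul P) *
      (voF lt₂_smul Unit n (A.t2 n χ n' χ' d μ ν) * voS lt₂_smul Unit n 1) =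
      voF lt₂_smul Unit n (CQ.pull (continuous_toT (A.continuous_mmE n χ n' χ' d))
        (A.tR (n + n') (χ + χ') d ν)) * CQ.pull (continuous_toT (A.continuous_iotaE n χ χ' d hd'))
        (CQ.eul P.isRep (continuous_kO lt_smul P) * voF lt_smul _ n (A.tR n χ d μ * A.eS n χ d)) := by
    rw [map_one, mul_one, t2, map_mul (voF _ _ _),
      map_mul (CQ.pull (continuous_toT (A.continuous_iotaE n χ χ' d hd'))), pull_iota_voF,
      CQ.pull_eul _ _ _ (continuous_kO (Z' := Unit) lt₂_smul P) fun _ => rfl, mul_left_comm]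
  have h3 : CQ.eul P.isRep (continuous_kO lt_smul P) * (voF lt_smul _ n (A.tR n χ d μ * A.eS n χ d)
      * voS lt_smul _ n (A.tR n' χ' d' (ν - μ) * A.eS n' χ' d')) =
      voS lt_smul _ n (A.tR n' χ' d' (ν - μ)) * (CQ.eul P.isRep (continuous_kO lt_smul P) *
        voF lt_smul _ n (A.tR n χ d μ * A.eS n χ d)) * voS lt_smul _ n (A.eS n' χ' d') := by
    rw [map_mul (voS _ _ _)]
    ac_rfl
  have h4 := CQ.fold_swap isOpenEmbedding_toE range_toE (z := Fq) (z' := Fp) (s' := eN Q Φ n')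
    (s := eN Q Φ (n + n')) (by
      rw [hq2, hp2, h, ← CQ.gy_eul (A.isRep_sF d').snd (A.continuous_sigE n χ n' χ' d d') hι
        (A.range_iotaE n χ χ' d hd').superset, CQ.resT_gy hι hσ.subset, h2, h3]
      refine CQ.gy_swap_gy' (ι := toT (A.iotaE n χ χ' d hd')) hι (isClosedEmbedding_yP _ _ _)
        (isClosedEmbedding_yP _ _ _).continuous (yP_eq_iota hd' hμ hν)
        ((CQ.supp_plT _).trans hσ) ?_ ?_ ?_
        (hasCls_voF _ _ _ ?_) (hasCls_voS _ _ _ (hasCls_tR _ (fun _ => rfl) hν.1)) _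
      · rw [map_mul, mul_assoc, mul_assoc, eS_mul_sig, ← mul_assoc, ← mul_assoc,
          mul_assoc _ _ (voF _ _ _ _)]
      · rw [← h2]
        exact supp_yP _ P _ _ hq h1
      · rw [← h3]
        exact supp_yP _ P _ _ (supp_tR_mul_eS hμ) (supp_tR_mul_eS hν)
      · have h5 : Continuous ((toT (A.mmE n χ n' χ' d)).comp (A.o2 d hμ hν)) :=
          continuous_of_discreteTopology
        rw [CQ.pull_pull _ (continuous_toT (A.continuous_mmE n χ n' χ' d)) h5 fun _ => rfl]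
        exact hasCls_tR h5 (fun _ => rfl) (mem_box_add hμ hν).1)
  rw [hq1, hp1, hf, hf, CQ.hasCls_one.gy_id fun _ => rfl, one_smul, ← ev_apply, ← ev_apply,
    mul_left_comm, mul_left_comm _ e] at h4
  have h6 : coT _ (resT (fundE (Q.nn Φ))) = 1 :=
    (congrArg _ (one_smul _ _).symm).trans (coT_smul_fundT 1)
  rw [h6, mul_one] at h4
  exact mul_left_cancel₀ he h4

theorem ev_epush_mm (hd' : 2 * n' ≤ d') (h : pst lt₂_smul Unit n (crs c (fundE _)) =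
      egys (A.iotaE n χ χ' d hd') (eul (A.sigE n χ n' χ' d d'))
        (pst lt_smul (A.RS n' χ' d') n (crs z₁ z₂))) (ν : Col Q → ℤ) :
    eN Q Φ n * eN Q Φ n' * A.ev _ _ d ν (resT (epush (A.mmE n χ n' χ' d) c)) = eN Q Φ (n + n') *
      ∑ μ : Bd' Q n, A.ev n χ d μ.1 (resT z₁) * A.ev n' χ' d' (ν - μ.1) (resT z₂) := by
  classical
  have h0 : ∀ μ, ¬(μ ∈ Box Q n χ ∧ ν - μ ∈ Box Q n' χ') →
      A.ev n χ d μ (resT z₁) * A.ev n' χ' d' (ν - μ) (resT z₂) = 0 := fun μ hμ => by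
    rcases not_and_or.1 hμ with h1 | h1
    · rw [ev_of_not_mem h1, zero_mul]
    · rw [ev_of_not_mem h1, mul_zero]
  by_cases hν : ν ∈ Box Q (n + n') (χ + χ')
  swap
  · rw [ev_of_not_mem hν, mul_zero, Finset.sum_eq_zero fun μ _ => h0 μ.1 fun h1 =>
      hν (mem_box_add h1.1 h1.2), mul_zero]
  have hm := A.isPr_mmE n χ n' χ' d
  have hp := continuous_toT (A.isPr_pr1E n χ n' χ' d).1
  have hf : Continuous ((toT (A.blE n χ d)).comp (toT (A.pr1E n χ n' χ' d))) :=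
    (A.continuous_blE n χ d).comp R2.continuous_fst
  have h1 : ∀ μ, CQ.pull (f := toT (A.mmE n χ n' χ' d)) hm.1
      (A.tR (n + n') (χ + χ') d ν * A.eS (n + n') (χ + χ') d) * CQ.pull hf (tl Φ n μ) =
      A.t2 n χ n' χ' d μ ν := fun μ => by
    rw [t2, map_mul, map_mul, ← pull_mm_eS, tR, tR, CQ.pull_pull hp _ hf fun _ => rfl, mul_assoc,
      mul_comm (CQ.pull hf _)]
  have h2 := CQ.gy_epush_sum (smul_eq_sum_tl hf (resT c)) (f := toT (A.mmE n χ n' χ' d)) hm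
    (supp_tR_mul_eS hν) (fun μ => if hμ : μ.1 ∈ Box Q n χ ∧ ν - μ.1 ∈ Box Q n' χ' then
      CQ.gy (A.o2 d hμ.1 hμ.2) (A.t2 n χ n' χ' d μ.1 ν) (resT c) else 0) fun μ => by
        rw [h1]
        by_cases hμ : μ.1 ∈ Box Q n χ ∧ ν - μ.1 ∈ Box Q n' χ'
        · exact Or.inr ⟨_, rfl, supp_t2_subset hμ.1 hμ.2, dif_pos hμ⟩
        · refine Or.inl ⟨?_, dif_neg hμ⟩
          rw [supp_t2 μ.2 hν.1]
          refine eq_empty_of_forall_notMem fun x hx => hμ ⟨rel_one_Lmu.1 ?_, rel_Lmu.1 ?_⟩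
          · exact hx.2.1 ▸ x.1.1.2.1
          · exact hx.2.1 ▸ hx.1 ▸ x.2.1
  rw [ev_apply hν, resT_epush hm, mul_right_comm, ← coT_psiT, h2, map_sum, Finset.sum_mul,
    Finset.mul_sum]
  refine Finset.sum_congr rfl fun μ _ => ?_
  split_ifs with hμ
  · rw [mul_comm, coT_gy_o2 hd' h]
  · rw [map_zero, zero_mul, h0 _ hμ, mul_zero]

/-- **MULT** -/
theorem PhiG_mul (W : Wts A) (hd' : 2 * n' ≤ d') (h : pst lt₂_smul Unit n (crs c (fundE _)) =
      egys (A.iotaE n χ χ' d hd') (eul (A.sigE n χ n' χ' d d'))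
        (pst lt_smul (A.RS n' χ' d') n (crs z₁ z₂))) :
    PhiG (n + n') (χ + χ') d W (epush (A.mmE n χ n' χ' d) c) =
      PhiG n χ d W z₁ * PhiG n' χ' d' W z₂ := by
  classical
  refine AddMonoidAlgebra.coeff_injective (Finsupp.ext fun ν => ?_)
  have h1 := congrArg (sK Q Φ) (ev_epush_mm hd' h ν)
  have h2 : ∀ μ ∈ (PhiG n χ d W z₁).coeff.support,
      μ ∈ Finset.univ.map (Embedding.subtype fun μ : Col Q → ℤ => ∀ c, |μ c| ≤ n) := fun μ hμ =>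
    Finset.mem_map.2 ⟨⟨μ, (mem_Box_of_coeff W (Finsupp.mem_support_iff.1 hμ)).1⟩,
      Finset.mem_univ _, rfl⟩
  rw [AddMonoidAlgebra.coeff_mul_apply_left, Finsupp.sum_of_support_subset _ h2 _
    (by exact fun _ _ => zero_mul _), Finset.sum_map, PhiG_apply, coeff_PhiT, evK_apply,
    div_eq_iff sK_eN_ne]
  refine mul_left_cancel₀ (mul_ne_zero (sK_eN_ne (n := n)) (sK_eN_ne (n := n'))) ?_
  rw [mul_left_comm, ← map_mul, ← map_mul, h1, map_mul, map_sum, Finset.mul_sum, Finset.mul_sum,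
    Finset.sum_mul, Finset.mul_sum]
  refine Finset.sum_congr rfl fun μ _ => ?_
  have h3 : mK W.χ ν = mK W.χ μ.1 * mK W.χ (ν - μ.1) := by rw [← mK_add, add_sub_cancel]
  have h4 := sK_eN_ne (Q := Q) (Φ := Φ) (n := n)
  have h5 := sK_eN_ne (Q := Q) (Φ := Φ) (n := n')
  rw [Embedding.subtype_apply, PhiG_apply, PhiG_apply, coeff_PhiT, coeff_PhiT, evK_apply,
    evK_apply, neg_add_eq_sub, h3, map_mul, map_mul]
  field_simp

end Flav

end Vale.Agent.P291Z
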