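import Vale.Agent.P291Z.C.CWr
import Vale.Agent.P291Z.C.CGen
import Vale.Agent.P291Z.Conv0

/-!
# Generic lemmas for the multiplicativity of the abelianization map
-/

set_option linter.unusedSectionVars false
set_option linter.style.haveILetI false

namespace Vale.Agent.P291Z

open Set Function Topology

section compl

variable {G W W₂ : Type} [Group G] [TopologicalSpace G] [IsTopologicalGroup G] [CompactSpace G]
  [AddCommGroup W] [Module ℂ W] [TopologicalSpace W] [DistribMulAction G W]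
  [AddCommGroup W₂] [Module ℂ W₂] [TopologicalSpace W₂] [DistribMulAction G W₂] {s r₂ : ℕ}

/-- an invariant complement of `ι W₂` in `S` -/
theorem IsRep.exists_compl (hW : IsRep G W s) (h₂ : IsRep G W₂ r₂) (S : Submodule ℂ W)
    (hS : ∀ (g : G), ∀ u ∈ S, g • u ∈ S) (ι : W₂ →ₗ[ℂ] W) (hι : ∀ (g : G) y, ι (g • y) = g • ι y)
    (hi : Injective ι) (hιS : ∀ y, ι y ∈ S) :
    ∃ (S₁ : Submodule ℂ W) (hS₁ : ∀ (g : G), ∀ u ∈ S₁, g • u ∈ S₁) (κ : W →ₗ[ℂ] SubRep S₁ hS₁),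
      (∀ (g : G) w, κ (g • w) = g • κ w) ∧ (∀ u : SubRep S₁ hS₁, κ u.1 = u) ∧
      (∀ y, κ (ι y) = 0) ∧ ∀ w, w ∈ S ↔ ∃ (u : SubRep S₁ hS₁) (y : W₂), w = u.1 + ι y := by
  obtain ⟨ρ, hρ, hρι⟩ := h₂.exists_retr hW ι hι hi
  obtain ⟨π, hπ, hπS⟩ := (hW.subRep S hS).exists_retr hW (S.subtype : SubRep S hS →ₗ[ℂ] W)
    (fun _ _ => rfl) Subtype.val_injective
  let P : W →ₗ[ℂ] W := (S.subtype : SubRep S hS →ₗ[ℂ] W) ∘ₗ π
  have hP : ∀ w ∈ S, P w = w := fun w hw => congrArg Subtype.val (hπS ⟨w, hw⟩)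
  have hPS : ∀ w, P w ∈ S := fun w => (π w).2
  have hPe : ∀ (g : G) w, P (g • w) = g • P w := fun g w => congrArg Subtype.val (hπ g w)
  have h1 : ∀ w, (P - ι ∘ₗ ρ ∘ₗ P) w ∈ S ⊓ LinearMap.ker ρ := fun w =>
    ⟨S.sub_mem (hPS w) (hιS _), by simp [hρι]⟩
  refine ⟨S ⊓ LinearMap.ker ρ, fun g u hu => ⟨hS g u hu.1, by
    rw [SetLike.mem_coe, LinearMap.mem_ker, hρ, LinearMap.mem_ker.1 hu.2, smul_zero]⟩,
    (P - ι ∘ₗ ρ ∘ₗ P).codRestrict _ h1, fun g w => Subtype.ext ?_, fun u => Subtype.ext ?_,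
    fun y => Subtype.ext ?_, fun w => ⟨fun hw => ⟨⟨_, h1 w⟩, ρ w, ?_⟩, ?_⟩⟩
  · change P (g • w) - ι (ρ (P (g • w))) = g • (P w - ι (ρ (P w)))
    rw [hPe, hρ, hι, smul_sub]
  · change P u.1 - ι (ρ (P u.1)) = u.1
    rw [hP _ u.2.1, LinearMap.mem_ker.1 u.2.2, map_zero, sub_zero]
  · change P (ι y) - ι (ρ (P (ι y))) = 0
    rw [hP _ (hιS y), hρι, sub_self]
  · change w = P w - ι (ρ (P w)) + ι (ρ w)
    rw [hP _ hw, sub_add_cancel]
  · rintro ⟨u, y, rfl⟩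
    exact S.add_mem u.2.1 (hιS y)

end compl

namespace CQ

section swap

variable {G X X' Y : Type} [Group G] [TopologicalSpace G] [Sys G]
  [TopologicalSpace X] [MulAction G X] [Nice X] [ContinuousSMul G X]
  [TopologicalSpace X'] [MulAction G X'] [Nice X'] [ContinuousSMul G X']
  [TopologicalSpace Y] [MulAction G Y] [Nice Y] [ContinuousSMul G Y]

theorem gy_swap_gy {ι : X' →[G] X} (hι : IsClosedEmbedding ι) {y : Y →[G] X'}
    (hy : IsClosedEmbedding y) {y' : Y →[G] X} (e : ∀ z, y' z = ι (y z)) {σ U A' S' : CQ G X}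
    (hσ : σ.supp ⊆ range ι) (h : U * σ = U * S') {A : CQ G X'}
    (h₁ : (A * pull hι.continuous U).supp ⊆ range y)
    (h₂ : (pull hι.continuous A' * pull hι.continuous U).supp ⊆ range y) {r r' : HS G Unit}
    (hr : HasCls (pull hy.continuous A) r)
    (hr' : HasCls (pull hy.continuous (pull hι.continuous A')) r') (z : EH G X) :
    r' • gy y (A * pull hι.continuous U) (gy ι σ z) = r • gy y' (A' * U * S') z := by
  rw [gy_swap hy h₁ h₂ hr hr', ← map_mul, gy_gy hι hy e hσ (by rwa [← supp_pull hι.continuous, map_mul]),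
    mul_assoc, h, mul_assoc]

end swap

section fibre

variable {J : Type} [Fintype J] {n : J → ℕ} {B W W₁ W₂ : Type} [TopologicalSpace B]
  [MulAction (GG n) B] [MulAction (Tc n) B] [IsScalarTower (Tc n) (GG n) B] [Nice B]
  [ContinuousSMul (GG n) B] [AddCommGroup W] [Module ℂ W] [TopologicalSpace W]
  [DistribMulAction (GG n) W] [DistribMulAction (Tc n) W] [IsScalarTower (Tc n) (GG n) W]
  [AddCommGroup W₁] [Module ℂ W₁] [TopologicalSpace W₁] [DistribMulAction (Tc n) W₁]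
  [AddCommGroup W₂] [Module ℂ W₂] [TopologicalSpace W₂] [DistribMulAction (Tc n) W₂]
  [Nice W₂] [ContinuousSMul (Tc n) W₂] {s r r₁ r₂ : ℕ}
  {V : SubMulAction (GG n) (B × W)} [Nice V] [ContinuousSMul (GG n) V]

/-- restriction of a pulled back class to a subrepresentation of the fibre over a fixed point -/
theorem gy_fibre_tho (hW : IsRep (GG n) W s) (hV : IsSubVB V r) (h0 : ∀ z, (z, 0) ∈ V)
    (h₁ : IsRep (Tc n) W₁ r₁) (h₂ : IsRep (Tc n) W₂ r₂) {o : Unit →[Tc n] B} (j : W₁ →ₗ[ℂ] W)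
    (hj : ∀ (t : Tc n) u, j (t • u) = t • j u) (ι : W₂ →ₗ[ℂ] W)
    (hι : ∀ (t : Tc n) u, ι (t • u) = t • ι u) (hi : Injective ι) (κ : W →ₗ[ℂ] W₁)
    (hκj : ∀ u, κ (j u) = u) (hκι : ∀ y, κ (ι y) = 0)
    (hf : ∀ w, (o (), w) ∈ V ↔ ∃ u y, w = j u + ι y) {k : V →[Tc n] W₁} (hk : Continuous k)
    (e : ∀ v, k v = κ v.1.2) {y : W₂ →[Tc n] V} (hy : ∀ w, (y w).1 = (o (), ι w))
    {π : V →[Tc n] B} (hπ : Continuous π) (eπ : ∀ v, π v = v.1.1)
    {a : CQ (Tc n) B} (ha : a.supp ⊆ range o) (β : EH (GG n) B) :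
    gy (zeroH _ Unit W₂) (eul h₂ (σ := MulActionHom.id _) continuous_id)
      (gy y (eul h₁ hk * pull hπ a) (resT (ethom V h0 β))) = gy o a (resT β) := by
  haveI := h₁.nice
  haveI := h₁.cont
  let ℓ : W₁ × W₂ →ₗ[ℂ] W := j.coprod ι
  have hκℓ : ∀ w, κ (ℓ w) = w.1 := fun w => by
    rw [LinearMap.coprod_apply, map_add, hκj, hκι, add_zero]
  have hℓ : Injective ℓ := (injective_iff_map_eq_zero ℓ).2 fun w hw => by
    have h1 : w.1 = 0 := by rw [← hκℓ, hw, map_zero]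
    rw [LinearMap.coprod_apply, h1, map_zero, zero_add] at hw
    exact Prod.ext h1 (hi (hw.trans (map_zero ι).symm))
  have hr : r = r₁ + r₂ := by
    obtain ⟨S, h1, h2⟩ := hV.fibre (o ())
    obtain ⟨ε⟩ := (h₁.prod h₂).lin
    have h3 : LinearMap.range ℓ = S := Submodule.ext fun w => by
      rw [← h2, hf]
      exact ⟨fun ⟨x, hx⟩ => ⟨x.1, x.2, hx.symm⟩, fun ⟨u, y, h⟩ => ⟨(u, y), h.symm⟩⟩
    rw [← h1, ← h3, LinearMap.finrank_range_of_inj hℓ, ε.toLinearEquiv.finrank_eq,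
      Module.finrank_fin_fun]
  subst hr
  haveI := hW.nice
  haveI := hW.toT.cont
  have hℓe : ∀ (t : Tc n) w, ℓ (t • w) = t • ℓ w := fun t w => by
    change j (t • w.1) + ι (t • w.2) = t • (j w.1 + ι w.2)
    rw [hj, hι, smul_add]
  let φ : W₁ × W₂ →[Tc n] V := ⟨fun w => ⟨(o (), ℓ w), (hf _).2 ⟨w.1, w.2, rfl⟩⟩, fun t w =>
    Subtype.ext (Prod.ext (o.map_smul t ()) (hℓe t w))⟩
  have hc : IsClosedEmbedding ℓ :=
    hW.toT.isClosedEmbedding_lin (h₁.prod h₂) (j := elin ℓ hℓe) ℓ.isLinear hℓ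
  have hφ : IsClosedEmbedding φ := by
    haveI := (inferInstance : Nice B).t2
    refine IsClosedEmbedding.of_comp IsEmbedding.subtypeVal (g := Subtype.val) ?_
    exact (IsClosedEmbedding.prodMap (isClosedEmbedding_pt o) hc).comp
      (Homeomorph.uniqueProd Unit (W₁ × W₂)).symm.isClosedEmbedding
  have hz := IsSubVB.isClosedEmbedding_zs hW h0
  have hs : (tho hW hV h0).supp ⊆ range (zs V h0) := subset_rfl
  rw [gy_fibre h₁ h₂ hπ (s := toT (zs V h0)) hz (fun b => eπ _) (τ := plT (tho hW hV h0))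
    (by rw [supp_plT]; exact hs) hφ (fun v ⟨_, hv⟩ => ?_) (Subtype.ext (Prod.ext rfl (map_zero ℓ)))
    (pull_plT_tho hW hV h0 (h₁.prod h₂) hφ.continuous (o ()) ℓ hℓ fun _ => rfl) hk
    (fun w => (e _).trans (hκℓ w)) (fun w => Subtype.ext ((hy w).trans (Prod.ext rfl ?_))) ha,
    ← resT_gy hz hs, gy_tho, egys_ethom h0 hW hV]
  · have h1 : v.1.1 = o () := (eπ v).symm.trans hv.symm
    obtain ⟨u, y, h⟩ := (hf v.1.2).1 (h1 ▸ v.2)
    exact ⟨(u, y), Subtype.ext (Prod.ext h1.symm h.symm)⟩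
  · change ι w = j 0 + ι w
    rw [map_zero, zero_add]

end fibre

end CQ

end Vale.Agent.P291Z
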