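import Vale.Agent.P291Z.C.CDef
import Vale.Agent.P291Z.C.CMul0
import Vale.Agent.P291Z.Conv1

/-!
# Diagonal frames
-/

set_option linter.unusedSectionVars false
set_option linter.style.haveILetI false

namespace Vale.Agent.P291Z

open Set hiding diagonal
open Function Topology Matrix Quiv Lt

variable {I E : Type} {Q : Quiv I E} {Φ : Type} [Fintype Φ] [Fintype I] [Fintype E]

variable (Q Φ) in
/-- the product of two copies of the torus -/
abbrev T2 : Type := Tc (Sum.elim (Q.nn Φ) (Q.nn Φ))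

variable (Q Φ) in
/-- the closure of the complex torus -/
abbrev DW : Type := Wr (CQ.dW (Q.nn Φ))

variable (m : ℕ) (μ : Col Q → ℤ)

/-- the diagonal entries of a diagonal frame -/
noncomputable def dEn (y : DW Q Φ) (k : ℤ) (i : I) (a : Fin (Q.v i)) : ℂ :=
  if k = μ ⟨i, a⟩ then y ⟨Sum.inl i, a⟩ else 0

/-- diagonal frames -/
noncomputable def dEl : DW Q Φ →ₗ[ℂ] WW Q Φ m where
  toFun y := (fun k i => diagonal (dEn μ y k.1 i), fun a => y ⟨Sum.inr a, (0 : Fin 1)⟩)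
  map_add' y y' := Prod.ext (funext fun k => funext fun i =>
    (congrArg diagonal (funext fun a => by
      simp only [dEn]
      split_ifs
      exacts [rfl, (add_zero _).symm])).trans
        (diagonal_add (dEn μ y k.1 i) (dEn μ y' k.1 i)).symm) rfl
  map_smul' c y := Prod.ext (funext fun k => funext fun i =>
    (congrArg diagonal (funext fun a => by
      simp only [dEn, Pi.smul_apply]
      split_ifs
      exacts [rfl, (smul_zero _).symm])).trans (diagonal_smul c (dEn μ y k.1 i))) rfl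

theorem fl_toG (t : Tc (Q.nn Φ)) (a : Φ) :
    (Flav.fl Q Φ (toG _ t) a : ℂ) = t ⟨Sum.inr a, (0 : Fin 1)⟩ :=
  det_fin_one (diagonal fun z : Fin 1 => (t ⟨Sum.inr a, z⟩ : ℂ))

theorem dEl_smul (t : T2 Q Φ) (y : DW Q Φ) : dEl m μ (t • y) = t • dEl m μ y := by
  have h : (toG _ t)⁻¹ = toG _ t⁻¹ := (map_inv _ t).symm
  refine Prod.ext (funext fun k => funext fun i => ?_) (funext fun a => ?_)
  · change diagonal _ = Flav.ga Q Φ (toG _ (fstT _ _ t)) i * diagonal (dEn μ y k.1 i) *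
      Flav.ga Q Φ (sndG _ _ (toG _ t)⁻¹) i
    rw [h, sndG_toG, ga_toG, ga_toG]
    have h3 : ∀ u v w : Fin (Q.v i) → ℂ, diagonal u * diagonal v * diagonal w =
        diagonal fun a => u a * v a * w a := fun u v w => by
      rw [diagonal_mul_diagonal, diagonal_mul_diagonal]
    refine Eq.trans ?_ (h3 _ _ _).symm
    congr 1
    funext a
    simp only [dEn]
    split_ifs
    · rw [Wr.smul_apply, CQ.chr_dW, mul_right_comm, map_inv]
      rfl
    · rw [mul_zero, zero_mul]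
  · change (t • y) _ = (Flav.fl Q Φ (toG _ (fstT _ _ t)) a : ℂ) * y _ *
      Flav.fl Q Φ (sndG _ _ (toG _ t)⁻¹) a
    rw [h, sndG_toG, fl_toG, fl_toG, Wr.smul_apply, CQ.chr_dW, mul_right_comm, map_inv]
    rfl

variable {m μ} (hμ : ∀ c, |μ c| ≤ m)
include hμ

theorem laur_dEl (y : DW Q Φ) (i : I) :
    laur (dEl m μ y).1 i = cd (fun a : Fin (Q.v i) => y ⟨Sum.inl i, a⟩) * dg fun a => μ ⟨i, a⟩ := by
  ext a b k
  rw [coeff_laur, cd_eq, dg, diagonal_mul_diagonal]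
  by_cases h : a = b
  · subst h
    rw [diagonal_apply_eq, coeff_C_mul, coeff_tp]
    split_ifs with h1 h2 h2
    · exact (diagonal_apply_eq _ _).trans ((if_pos h2).trans (mul_one _).symm)
    · exact (diagonal_apply_eq _ _).trans ((if_neg h2).trans (mul_zero _).symm)
    · exact absurd (Finset.mem_Icc.2 (abs_le.1 (h2 ▸ hμ ⟨i, a⟩))) h1
    · exact (mul_zero _).symm
  · rw [diagonal_apply_ne _ h]
    split_ifs
    exacts [diagonal_apply_ne _ h, rfl]

theorem dEl_injective : Injective (dEl m μ : DW Q Φ → _) := by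
  refine (injective_iff_map_eq_zero _).2 fun y hy => funext ?_
  rintro ⟨i | a, b⟩
  · have := congrFun (congrFun (congrFun (congrFun (congrArg Prod.fst hy)
      ⟨μ ⟨i, b⟩, Finset.mem_Icc.2 (abs_le.1 (hμ _))⟩) i) b) b
    exact ((diagonal_apply_eq (dEn μ y _ i) b).trans (if_pos rfl)).symm.trans this
  · obtain rfl : b = (0 : Fin 1) := Subsingleton.elim (α := Fin 1) _ _
    exact congrFun (congrArg Prod.snd hy) a

theorem lat_dEl_le (y : DW Q Φ) : lat (laur (dEl m μ y).1) ≤ Lmu μ := fun i => by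
  rw [lat_apply, laur_dEl hμ, la1_mul, la1_dg]
  refine mu1_le_iff.2 fun z hz a => ?_
  rw [cd_eq, mulVec_diagonal]
  simpa using (ge_C _).mul (hz a)

theorem mulL_dEl {y : DW Q Φ} (hy : ∀ b, y b ≠ 0) (ν : Col Q → ℤ) :
    mulL (laur (dEl m μ y).1) (Lmu ν) = Lmu (μ + ν) := funext fun i => by
  rw [mulL_apply, laur_dEl hμ, mu1_mul]
  exact (congrArg _ (mu1_dg_gl _ _)).trans (mu1_cd_gl (fun a => hy _) _)

theorem frame_dEl {y : DW Q Φ} :
    (lat (laur (dEl m μ y).1) = Lmu μ ∧ ∀ a, (dEl m μ y).2 a ≠ 0) ↔ ∀ b, y b ≠ 0 := by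
  refine ⟨fun h => ?_, fun h => ⟨?_, fun a => h _⟩⟩
  · rintro ⟨i | a, b⟩
    · have h1 := QBd.det_ne (h.1.symm ▸ qbd_Lmu.2 hμ) i
      rw [laur_dEl hμ, det_mul, cd_eq, det_diagonal] at h1
      exact fun h2 => Finset.prod_ne_zero_iff.1 (left_ne_zero_of_mul h1) b (Finset.mem_univ _)
        (by rw [h2, map_zero])
    · obtain rfl : b = (0 : Fin 1) := Subsingleton.elim (α := Fin 1) _ _
      exact h.2 a
  · have := mulL_dEl hμ h 0
    rwa [Lmu_zero, QL.mulL_lat, mul_one, add_zero] at this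

omit hμ

/-- A splitting of the space of matrices with columns in `t^μ V(O)`. -/
structure Spl (Φ : Type) [Fintype Φ] (m : ℕ) (μ : Col Q → ℤ) where
  /-- the complement of the diagonal part -/
  S : Submodule ℂ (WW Q Φ m)
  inv : ∀ (t : T2 Q Φ), ∀ u ∈ S, t • u ∈ S
  /-- the projection -/
  κ : WW Q Φ m →ₗ[ℂ] SubRep S inv
  smul : ∀ (t : T2 Q Φ) w, κ (t • w) = t • κ w
  self : ∀ u : SubRep S inv, κ u.1 = u
  diag : ∀ y, κ (dEl m μ y) = 0
  mem : ∀ w : WW Q Φ m, lat (laur w.1) ≤ Lmu μ ↔ ∃ (u : SubRep S inv) (y : DW Q Φ),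
    w = u.1 + dEl m μ y

theorem exists_spl {χ : I → ℤ} (hμ : μ ∈ Box Q m χ) : Nonempty (Spl Φ m μ) := by
  obtain ⟨ψ, -, h, -⟩ := Flav.exists_paramV (Φ := Φ) (rel_one_Lmu.2 hμ)
  obtain ⟨S, hS, κ, h1, h2, h3, h4⟩ := (isRep_WW (Q := Q) (Φ := Φ) m).toT.exists_compl
    (isRep_Wr _) (LinearMap.range ψ) (fun t u hu => (h _).1 (by
      refine (Flav.lat_laur_smul (toG _ t) u).trans_le
        ((Flav.smul_le_smul _ ((h u).2 hu)).trans_eq ?_)
      exact toG_smul_Lmu (fstT _ _ t) μ)) (dEl m μ) (dEl_smul m μ) (dEl_injective hμ.1)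
    fun y => (h _).1 (lat_dEl_le hμ.1 y)
  exact ⟨⟨S, hS, κ, h1, h2, h3, fun w => (h w).trans (h4 w)⟩⟩

theorem Spl.isRep (P : Spl Φ m μ) : IsRep (T2 Q Φ) (SubRep P.S P.inv) (Module.finrank ℂ P.S) :=
  (isRep_WW m).toT.subRep _ _

theorem Spl.continuous (P : Spl Φ m μ) : Continuous P.κ :=
  (isRep_WW (Q := Q) (Φ := Φ) m).toT.continuous_lin P.isRep P.κ

theorem Spl.exists_of_zero (P : Spl Φ m μ) {w : WW Q Φ m} (h : lat (laur w.1) ≤ Lmu μ)
    (h0 : P.κ w = 0) : ∃ y, w = dEl m μ y := by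
  obtain ⟨u, y, rfl⟩ := (P.mem w).1 h
  rw [map_add, P.self, P.diag, add_zero] at h0
  subst h0
  exact ⟨y, zero_add _⟩

variable (Q Φ) in
/-- the complex torus -/
def TO : SubMulAction (T2 Q Φ) (DW Q Φ) where
  carrier := {y | ∀ b, y b ≠ 0}
  smul_mem' t _ h b := mul_ne_zero (chr_ne _ t) (h b)

variable (Q Φ) in
/-- the inclusion of the complex torus -/
noncomputable def toE : TO Q Φ →[T2 Q Φ] DW Q Φ := ⟨fun y => y.1, fun _ _ => rfl⟩

theorem isOpenEmbedding_toE : IsOpenEmbedding (toE Q Φ) :=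
  IsOpen.isOpenEmbedding_subtypeVal (s := {y : DW Q Φ | ∀ b, y b ≠ 0}) (by
    rw [ofPred_forall]
    exact isOpen_iInter_of_finite fun b => isOpen_ne.preimage (continuous_apply b))

theorem range_toE : range (toE Q Φ) = {y | ∀ b, y b ≠ 0} := Subtype.range_coe

instance : Nice (TO Q Φ) := Nice.of_open isOpenEmbedding_toE

instance : ContinuousSMul (T2 Q Φ) (TO Q Φ) :=
  isOpenEmbedding_toE.isInducing.continuousSMul continuous_id rfl

namespace Flav

variable {Z : Type} [MulAction (GG (Q.nn Φ)) Z] {ℓ : Z → Q.Lat}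
  (hℓ : ∀ (g : GG (Q.nn Φ)) z, ℓ (g • z) = g • ℓ z) {Z' : Type} [MulAction (GG (Q.nn Φ)) Z']
  (P : Spl Φ m μ) {o : Unit →[T2 Q Φ] Pr (Q.nn Φ) (Q.nn Φ) Z Z'} (ho : ℓ (o ()).1 = Lmu μ)

variable (Z') in
/-- the projection to the complement of the diagonal part -/
noncomputable def kV : VV ℓ hℓ Z' m →[T2 Q Φ] SubRep P.S P.inv where
  toFun v := P.κ v.1.2
  map_smul' t v := P.smul t v.1.2

variable (Z') in
/-- the projection to the complement of the diagonal part -/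
noncomputable def kO : VO ℓ hℓ Z' m →[T2 Q Φ] SubRep P.S P.inv where
  toFun v := P.κ v.1.1.2
  map_smul' t v := P.smul t v.1.1.2

/-- diagonal matrices in the fibre -/
noncomputable def yV (hμ : ∀ c, |μ c| ≤ m) : DW Q Φ →[T2 Q Φ] VV ℓ hℓ Z' m where
  toFun y := ⟨(o (), dEl m μ y), (lat_dEl_le hμ y).trans_eq ho.symm⟩
  map_smul' t y := Subtype.ext (Prod.ext (o.map_smul t ()) (dEl_smul m μ t y))

/-- diagonal frames in the fibre -/
noncomputable def yO (hμ : ∀ c, |μ c| ≤ m) : TO Q Φ →[T2 Q Φ] VO ℓ hℓ Z' m where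
  toFun y := ⟨yV hℓ ho hμ y.1, ((frame_dEl hμ).2 y.2).1.trans ho.symm, ((frame_dEl hμ).2 y.2).2⟩
  map_smul' t y := Subtype.ext ((yV hℓ ho hμ).map_smul t y.1)

variable (hμ : ∀ c, |μ c| ≤ m)

theorem mem_range_yV {v : VV ℓ hℓ Z' m} (h : v.1.1 = o ()) (h0 : P.κ v.1.2 = 0) :
    v ∈ range (yV hℓ ho hμ) := by
  obtain ⟨y, hy⟩ := P.exists_of_zero (le_of_le_of_eq v.2 ((congrArg (fun x => ℓ x.1) h).trans ho)) h0
  exact ⟨y, Subtype.ext (Prod.ext h.symm hy.symm)⟩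

theorem mem_range_yO' {v : VO ℓ hℓ Z' m} (h : v.1 ∈ range (yV hℓ ho hμ)) :
    v ∈ range (yO hℓ ho hμ) := by
  obtain ⟨v, hv⟩ := v
  obtain ⟨y, rfl⟩ := h
  exact ⟨⟨y, (frame_dEl hμ).1 ⟨hv.1.trans ho, hv.2⟩⟩, rfl⟩

theorem mem_range_yO {v : VO ℓ hℓ Z' m} (h : v.1.1.1 = o ()) (h0 : P.κ v.1.1.2 = 0) :
    v ∈ range (yO hℓ ho hμ) := mem_range_yO' hℓ ho hμ (mem_range_yV hℓ P ho hμ h h0)

variable [TopologicalSpace Z] [TopologicalSpace Z'] [Nice Z] [ContinuousSMul (GG (Q.nn Φ)) Z]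
  [Nice Z'] [ContinuousSMul (GG (Q.nn Φ)) Z'] [Nice (VV ℓ hℓ Z' m)] [Nice (VO ℓ hℓ Z' m)]

theorem continuous_kV : Continuous (kV hℓ Z' P) :=
  P.continuous.comp (continuous_snd.comp continuous_subtype_val)

theorem continuous_kO : Continuous (kO hℓ Z' P) := P.continuous.comp VO.continuous_w

theorem isClosedEmbedding_yV : IsClosedEmbedding (yV hℓ ho hμ) := by
  have hc : IsClosedEmbedding (dEl m μ : DW Q Φ → WW Q Φ m) :=
    (isRep_WW m).toT.isClosedEmbedding_lin (isRep_Wr _) (j := elin _ (dEl_smul m μ))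
      (dEl m μ).isLinear (dEl_injective hμ)
  refine IsClosedEmbedding.of_comp IsEmbedding.subtypeVal (g := Subtype.val) ?_
  exact (IsClosedEmbedding.prodMap (CQ.isClosedEmbedding_pt o) hc).comp
    (Homeomorph.uniqueProd Unit _).symm.isClosedEmbedding

theorem isClosedEmbedding_yO : IsClosedEmbedding (yO hℓ ho hμ) :=
  isClosedEmbedding_of_cart (isClosedEmbedding_yV hℓ ho hμ) IsEmbedding.subtypeVal
    IsEmbedding.subtypeVal (fun _ => rfl) fun x y h => by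
      obtain ⟨z, hz⟩ := mem_range_yO' hℓ ho hμ (v := y) ⟨x, h⟩
      exact ⟨z, (isClosedEmbedding_yV hℓ ho hμ).injective ((congrArg Subtype.val hz).trans h.symm)⟩

variable {χ : I → ℤ} (hc : Continuous ℓ) (hr : ∀ z, Quiv.Rel m χ (lat 1) (ℓ z))
include hc hr

/-- a pulled back class on the closure of the torus of diagonal frames -/
theorem exists_frame_class {a : CQ (T2 Q Φ) (Pr (Q.nn Φ) (Q.nn Φ) Z Z')} (ha : a.supp ⊆ range o)
    (β : EH (GG (Sum.elim (Q.nn Φ) (Q.nn Φ))) (Pr (Q.nn Φ) (Q.nn Φ) Z Z')) :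
    ∃ F : EH (T2 Q Φ) (DW Q Φ),
      CQ.gy (zeroH _ Unit _) (CQ.eul (isRep_Wr _) (σ := MulActionHom.id _) continuous_id) F =
        CQ.gy o a (resT β) ∧
      eres (toE Q Φ) F = CQ.gy (yO hℓ ho hμ) (CQ.eul P.isRep (continuous_kO hℓ P) *
        CQ.pull (continuous_toT (continuous_voP hℓ m)) a) (resT (pst hℓ Z' m β)) := by
  have hπ := continuous_toT (continuous_vpr (VV ℓ hℓ Z' m))
  have hj := isOpenEmbedding_voE hℓ Z' hc hr
  refine ⟨_, CQ.gy_fibre_tho (isRep_WW m) (isSubVB_VV hℓ Z' hc hr) (zero_mem_VV hℓ Z' m) P.isRep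
    (isRep_Wr _) (P.S.subtype : SubRep P.S P.inv →ₗ[ℂ] _) (fun _ _ => rfl) (dEl m μ) (dEl_smul m μ)
    (dEl_injective hμ) P.κ P.self P.diag (fun w => Iff.trans (by rw [← ho]; rfl) (P.mem w))
    (continuous_kV hℓ P) (fun _ => rfl) (y := yV hℓ ho hμ) (fun _ => rfl) hπ (fun _ => rfl) ha β, ?_⟩
  rw [CQ.eres_gy (isClosedEmbedding_yV hℓ ho hμ) (isClosedEmbedding_yO hℓ ho hμ)
    (f := toT (voE hℓ Z' m)) hj isOpenEmbedding_toE (fun _ => rfl)
    (fun v hv => mem_range_yO' hℓ ho hμ hv) ?_, map_mul,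
    CQ.pull_eul _ _ _ (continuous_kO hℓ P) fun _ => rfl,
    CQ.pull_pull _ _ (continuous_toT (continuous_voP hℓ m)) fun _ => rfl, ← resT_eres hj]
  · rfl
  · rw [CQ.supp_mul, CQ.supp_eul, CQ.supp_pull]
    rintro v ⟨h1, h2⟩
    obtain ⟨_, h3⟩ := ha h2
    exact mem_range_yV hℓ P ho hμ h3.symm h1

end Flav

end Vale.Agent.P291Z
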