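import Vale.Agent.P291Z.C.CWr
import Vale.Agent.P291Z.Gen3

/-!
# A class on the closure of the torus which vanishes on the torus
-/

set_option linter.all false

namespace Vale.Agent.P291Z.CQ

open Set Function Topology MvPolynomial

variable {J : Type} [Fintype J] {n : J → ℕ}

theorem linf_dW (b : Bx n) :
    linf _ (dW n b) = X ⟨Sum.inl b.1, b.2⟩ - X ⟨Sum.inr b.1, b.2⟩ := by
  classical
  simp [linf, dW, sub_smul, Finset.sum_sub_distrib, Pi.single_apply, ite_smul]

/-- **REG**: a class on the closure of the torus which vanishes on the torus -/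
theorem fold_eq_zero {Y : Type} [TopologicalSpace Y] [MulAction (Tc (Sum.elim n n)) Y] [Nice Y]
    [ContinuousSMul (Tc (Sum.elim n n)) Y] {j : Y →[Tc (Sum.elim n n)] Wr (dW n)}
    (hj : IsOpenEmbedding j) (hr : range j = {y | ∀ b, y b ≠ 0})
    {z : EH (Tc (Sum.elim n n)) (Wr (dW n))} (hz : eres j z = 0) :
    fold n (coT _ (gy (zeroH _ Unit (Wr (dW n)))
      (eul (isRep_Wr (dW n)) (σ := MulActionHom.id _) continuous_id) z)) = 0 := by
  classical
  have hV := isRep_Wr (dW n)
  have ho := vcl_free hV (psiT _) (fundT_free (Sum.elim n n))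
  obtain ⟨a, rfl⟩ := ho.2 z
  rw [(isTE_rep _).gy_eul hV]
  have h1 : egys (zeroH _ Unit (Wr (dW n))) (P291Z.eul (MulActionHom.id _))
      (psiT (Sum.elim n n) a • vcl (Wr (dW n)) (fundT (Sum.elim n n))) = a • fundT _ := by
    rw [← vcl_smul hV, egys_zero_vcl hV]
    rfl
  rw [h1, coT_smul_fundT]
  refine reg_wt hV (Pi.basisFun ℂ (Bx n)) (dW n) (fun t p => funext fun i => ?_)
    (u := fun b => ⟨Sum.inl b.1, b.2⟩) (v := fun b => ⟨Sum.inr b.1, b.2⟩) ?_ ?_ linf_dW
    (isTE_rep _).homeo ho hj (fun x => by rw [hr]; rfl) ((eres_smul hj _ _).symm.trans hz)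
    (fold n : SP _ →+* SP n) fun i => ?_
  · change chr _ (dW n i) t * (Pi.basisFun ℂ _ p) i = chr _ (dW n p) t * (Pi.basisFun ℂ _ p) i
    rw [Pi.basisFun_apply, Pi.single_apply]
    split_ifs with h
    · rw [h]
    · rw [mul_zero, mul_zero]
  · rintro ⟨i, a⟩ ⟨k, b⟩ h
    obtain rfl : i = k := Sum.inr_injective (congrArg Sigma.fst h)
    obtain rfl : a = b := eq_of_heq (Sigma.mk.inj h).2
    rfl
  · exact fun i k h => Sum.inl_ne_inr (congrArg Sigma.fst h)
  · show fold n _ = fold n _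
    rw [fold, rename_X, rename_X]

end Vale.Agent.P291Z.CQ
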