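import Vale.Agent.P291Z.C.CMul1
import Vale.Agent.P291Z.C.CReg

/-!
# Cross products at fixed points
-/

set_option linter.unusedSectionVars false
set_option linter.style.haveILetI false

namespace Vale.Agent.P291Z

open Set Function Topology Quiv Lt

namespace CQ

section swap

variable {G X X' Y : Type} [Group G] [TopologicalSpace G] [Sys G]
  [TopologicalSpace X] [MulAction G X] [Nice X] [ContinuousSMul G X]
  [TopologicalSpace X'] [MulAction G X'] [Nice X'] [ContinuousSMul G X']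
  [TopologicalSpace Y] [MulAction G Y] [Nice Y] [ContinuousSMul G Y]

theorem gy_swap_gy' {ι : X' →[G] X} (hι : IsClosedEmbedding ι) {y : Y →[G] X'}
    (hy : IsClosedEmbedding y) {y' : Y →[G] X} (hy' : Continuous y') (e : ∀ z, y' z = ι (y z))
    {σ U A' S' : CQ G X} (hσ : σ.supp = range ι) (h : U * σ = U * S') {A : CQ G X'}
    (h₁ : (A * pull hι.continuous U).supp ⊆ range y) (h₂ : (A' * U * S').supp ⊆ range y')
    {r r' : HS G Unit} (hr : HasCls (pull hy.continuous A) r) (hr' : HasCls (pull hy' A') r')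
    (z : EH G X) :
    r' • gy y (A * pull hι.continuous U) (gy ι σ z) = r • gy y' (A' * U * S') z := by
  refine gy_swap_gy hι hy e hσ.subset h h₁ (fun x hx => ?_) hr
    (by rwa [pull_pull _ _ hy' e]) z
  rw [← map_mul, supp_pull] at hx
  rw [mul_assoc, ← h, ← mul_assoc, supp_mul, hσ] at h₂
  obtain ⟨w, hw⟩ := h₂ ⟨hx, x, rfl⟩
  exact ⟨w, hι.injective ((e w).symm.trans hw)⟩

variable {G₁ G₂ Z : Type} [Group G₁] [TopologicalSpace G₁] [Sys G₁] [Group G₂]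
  [TopologicalSpace G₂] [Sys G₂] (S : SysProd G G₁ G₂) [TopologicalSpace Z] [Nice Z]
  {b : X → Z} (hc : Continuous b) {f : Y →[G] X} (hf : Continuous f)

theorem hasCls_pull_pl₁ [MulAction G₁ Z] [ContinuousSMul G₁ Z]
    (hb : ∀ (g : G) y, b (g • y) = S.π₁ g • b y) {o : Unit →[G₁] Z} (e : ∀ y, o () = b (f y))
    {x : CQ G₁ Z} {r : HS G₁ Unit} (h : HasCls (pull (isClosedEmbedding_pt o).continuous x) r) :
    HasCls (pull hf (pl₁ S hb hc x)) (S.r₁ r) := by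
  have h1 : ∀ (g : G) (y : Y), o () = S.π₁ g • o () := fun t _ => o.map_smul _ ()
  rw [pull_pl₁ S hb hc hf (b' := fun _ => o ()) h1 continuous_const e,
    ← pl₁_pull S (b := fun _ => ()) (fun _ _ => rfl) continuous_const
      (isClosedEmbedding_pt o).continuous h1 continuous_const fun _ => rfl]
  exact h.pl₁ _ _ _

theorem hasCls_pull_pl₂ [MulAction G₂ Z] [ContinuousSMul G₂ Z]
    (hb : ∀ (g : G) y, b (g • y) = S.π₂ g • b y) {o : Unit →[G₂] Z} (e : ∀ y, o () = b (f y))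
    {x : CQ G₂ Z} {r : HS G₂ Unit} (h : HasCls (pull (isClosedEmbedding_pt o).continuous x) r) :
    HasCls (pull hf (pl₂ S hb hc x)) (S.r₂ r) := by
  have h1 : ∀ (g : G) (y : Y), o () = S.π₂ g • o () := fun t _ => o.map_smul _ ()
  rw [pull_pl₂ S hb hc hf (b' := fun _ => o ()) h1 continuous_const e,
    ← pl₂_pull S (b := fun _ => ()) (fun _ _ => rfl) continuous_const
      (isClosedEmbedding_pt o).continuous h1 continuous_const fun _ => rfl]
  exact h.pl₂ _ _ _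

end swap

variable {J : Type} [Fintype J] {n : J → ℕ}

theorem fold_swap {Y : Type} [TopologicalSpace Y] [MulAction (Tc (Sum.elim n n)) Y] [Nice Y]
    [ContinuousSMul (Tc (Sum.elim n n)) Y] {j : Y →[Tc (Sum.elim n n)] Wr (dW n)}
    (hj : IsOpenEmbedding j) (hr : range j = {y | ∀ b, y b ≠ 0})
    {z z' : EH (Tc (Sum.elim n n)) (Wr (dW n))} {s s' : SP n}
    (h : (sumProdT n n).r₂ (psiT n s') • eres j z = (sumProdT n n).r₁ (psiT n s) • eres j z') :
    s' * fold n (coT _ (gy (zeroH _ Unit (Wr (dW n)))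
      (eul (isRep_Wr (dW n)) (σ := MulActionHom.id _) continuous_id) z)) =
    s * fold n (coT _ (gy (zeroH _ Unit (Wr (dW n)))
      (eul (isRep_Wr (dW n)) (σ := MulActionHom.id _) continuous_id) z')) := by
  have h1 := fold_eq_zero hj hr (z := (sumProdT n n).r₂ (psiT n s') • z -
    (sumProdT n n).r₁ (psiT n s) • z') (by rw [map_sub, eres_smul hj, eres_smul hj, h, sub_self])
  have h2 : (eul (isRep_Wr (dW n)) (σ := MulActionHom.id _) continuous_id).supp ⊆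
      range (zeroH (Tc (Sum.elim n n)) Unit (Wr (dW n))) := fun x hx => ⟨(), Eq.symm hx⟩
  rwa [map_sub, gy_smul (isClosedEmbedding_pt _) h2, gy_smul (isClosedEmbedding_pt _) h2,
    sumProdT_r₁, sumProdT_r₂, map_sub, coT_psiT, coT_psiT, map_sub, map_mul, map_mul, fold_inl,
    fold_inr, sub_eq_zero] at h1

variable {Z Z' : Type} [TopologicalSpace Z] [MulAction (GG n) Z] [MulAction (Tc n) Z]
  [IsScalarTower (Tc n) (GG n) Z] [TopologicalSpace Z'] [MulAction (GG n) Z'] [MulAction (Tc n) Z']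
  [IsScalarTower (Tc n) (GG n) Z']

/-- a fixed point of the product -/
noncomputable def prPt (o : Unit →[Tc n] Z) (o' : Unit →[Tc n] Z') :
    Unit →[Tc (Sum.elim n n)] Pr n n Z Z' where
  toFun _ := (o (), o' ())
  map_smul' t _ := Prod.ext ((o.map_smul (fstT n n t) ()).trans (Pr.fst_smulT t (o (), o' ())).symm)
    ((o'.map_smul (sndT n n t) ()).trans (Pr.snd_smulT t (o (), o' ())).symm)

variable [Nice Z] [ContinuousSMul (GG n) Z] [Nice Z'] [ContinuousSMul (GG n) Z']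

variable (Z') in
/-- pull-back from the first factor -/
noncomputable def prF : CQ (Tc n) Z →* CQ (Tc (Sum.elim n n)) (Pr n n Z Z') :=
  pl₁ (sumProdT n n) (b := fun y => y.1) Pr.fst_smulT continuous_fst

variable (Z) in
/-- pull-back from the second factor -/
noncomputable def prS : CQ (Tc n) Z' →* CQ (Tc (Sum.elim n n)) (Pr n n Z Z') :=
  pl₂ (sumProdT n n) (b := fun y => y.2) Pr.snd_smulT continuous_snd

variable {o : Unit →[Tc n] Z} {o' : Unit →[Tc n] Z'} {x : CQ (Tc n) Z} {x' : CQ (Tc n) Z'}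

theorem supp_prF : (prF Z' x).supp = (fun y => y.1) ⁻¹' x.supp := by
  unfold prF
  exact supp_pl₁ _ _ _ x

theorem supp_prS : (prS Z x').supp = (fun y => y.2) ⁻¹' x'.supp := by
  unfold prS
  exact supp_pl₂ _ _ _ x'

variable (h : x.supp ⊆ range o) (h' : x'.supp ⊆ range o')
include h h'

theorem supp_pr : (prF Z' x * prS Z x').supp ⊆ range (prPt o o') := by
  rw [supp_mul]
  rintro y ⟨h1, h2⟩
  obtain ⟨_, h3⟩ := h (supp_prF.subset h1)
  obtain ⟨_, h4⟩ := h' (supp_prS.subset h2)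
  exact ⟨(), Prod.ext h3 h4⟩

theorem gy_prPt (β : EH (GG n) Z) (β' : EH (GG n) Z') :
    gy (prPt o o') (prF Z' x * prS Z x') (resT (crs β β')) =
      (sumProdT n n).cross (B := Unit) (b₁ := id) (fun _ _ => rfl) (b₂ := id) (fun _ _ => rfl)
        (gy o x (resT β)) (gy o' x' (resT β')) := by
  refine (congrArg _ (resT_cross _ _ isHomeomorph_Pr Pr.fst_smulT Pr.snd_smulT β β')).trans ?_
  exact gy_cross (sumProdT n n) _ _ isHomeomorph_Pr continuous_fst continuous_snd _ _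
    (isHomeomorph_iff_continuous_bijective.2
      ⟨by fun_prop, fun _ _ _ => rfl, fun _ => ⟨(), rfl⟩⟩) (fun _ => rfl) (fun _ => rfl)
    (isClosedEmbedding_pt o) (isClosedEmbedding_pt o') h h' _ _

end CQ

variable {I E : Type} {Q : Quiv I E} {Φ : Type} [Fintype Φ] [Fintype I] [Fintype E]

namespace Flav

variable {Z : Type} [MulAction (GG (Q.nn Φ)) Z] {ℓ : Z → Q.Lat}
  (hℓ : ∀ (g : GG (Q.nn Φ)) z, ℓ (g • z) = g • ℓ z) (Z' : Type) [MulAction (GG (Q.nn Φ)) Z']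
  (m : ℕ) [TopologicalSpace Z] [TopologicalSpace Z'] [MulAction (Tc (Q.nn Φ)) Z]
  [IsScalarTower (Tc (Q.nn Φ)) (GG (Q.nn Φ)) Z] [MulAction (Tc (Q.nn Φ)) Z']
  [IsScalarTower (Tc (Q.nn Φ)) (GG (Q.nn Φ)) Z']

theorem VO.fst_smulT (t : T2 Q Φ) (x : VO ℓ hℓ Z' m) :
    (t • x).1.1.1.1 = fstT _ _ t • x.1.1.1.1 := Pr.fst_smulT t x.1.1.1

theorem VO.snd_smulT (t : T2 Q Φ) (x : VO ℓ hℓ Z' m) :
    (t • x).1.1.1.2 = sndT _ _ t • x.1.1.1.2 := Pr.snd_smulT t x.1.1.1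

variable [Nice Z] [ContinuousSMul (GG (Q.nn Φ)) Z] [Nice Z'] [ContinuousSMul (GG (Q.nn Φ)) Z']
  [Nice (VV ℓ hℓ Z' m)] [Nice (VO ℓ hℓ Z' m)]

/-- pull-back from the first factor -/
noncomputable def voF : CQ (Tc (Q.nn Φ)) Z →* CQ (T2 Q Φ) (VO ℓ hℓ Z' m) :=
  CQ.pl₁ (sumProdT _ _) (b := fun x => x.1.1.1.1) (VO.fst_smulT hℓ Z' m) VO.continuous_fst

/-- pull-back from the second factor -/
noncomputable def voS : CQ (Tc (Q.nn Φ)) Z' →* CQ (T2 Q Φ) (VO ℓ hℓ Z' m) :=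
  CQ.pl₂ (sumProdT _ _) (b := fun x => x.1.1.1.2) (VO.snd_smulT hℓ Z' m) VO.continuous_snd

variable {Z' m} {μ : Col Q → ℤ} (P : Spl Φ m μ) {o : Unit →[Tc (Q.nn Φ)] Z}
  {o' : Unit →[Tc (Q.nn Φ)] Z'} (ho : ℓ (o ()) = Lmu μ) (hμ : ∀ c, |μ c| ≤ m)
  {x : CQ (Tc (Q.nn Φ)) Z} {x' : CQ (Tc (Q.nn Φ)) Z'}

variable (o') in
/-- diagonal frames over a fixed point -/
noncomputable def yP : TO Q Φ →[T2 Q Φ] VO ℓ hℓ Z' m := yO hℓ (o := CQ.prPt o o') ho hμ

theorem isClosedEmbedding_yP : IsClosedEmbedding (yP hℓ o' ho hμ) := isClosedEmbedding_yO _ _ _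

theorem hasCls_voF {r : HS (Tc (Q.nn Φ)) Unit}
    (h : CQ.HasCls (CQ.pull (CQ.isClosedEmbedding_pt o).continuous x) r) :
    CQ.HasCls (CQ.pull (isClosedEmbedding_yP hℓ (o' := o') ho hμ).continuous (voF hℓ Z' m x))
      ((sumProdT _ _).r₁ r) :=
  CQ.hasCls_pull_pl₁ (sumProdT _ _) VO.continuous_fst _ (VO.fst_smulT hℓ Z' m) (fun _ => rfl) h

theorem hasCls_voS {r : HS (Tc (Q.nn Φ)) Unit}
    (h : CQ.HasCls (CQ.pull (CQ.isClosedEmbedding_pt o').continuous x') r) :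
    CQ.HasCls (CQ.pull (isClosedEmbedding_yP hℓ (o' := o') ho hμ).continuous (voS hℓ Z' m x'))
      ((sumProdT _ _).r₂ r) :=
  CQ.hasCls_pull_pl₂ (sumProdT _ _) VO.continuous_snd _ (VO.snd_smulT hℓ Z' m) (fun _ => rfl) h

theorem supp_voF : (voF hℓ Z' m x).supp = (fun v => v.1.1.1.1) ⁻¹' x.supp :=
  CQ.supp_pl₁ _ (VO.fst_smulT hℓ Z' m) VO.continuous_fst x

theorem supp_voS : (voS hℓ Z' m x').supp = (fun v => v.1.1.1.2) ⁻¹' x'.supp :=
  CQ.supp_pl₂ _ (VO.snd_smulT hℓ Z' m) VO.continuous_snd x'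

variable (h : x.supp ⊆ range o) (h' : x'.supp ⊆ range o')
include h h'

theorem supp_yP : (CQ.eul P.isRep (continuous_kO hℓ P) *
    (voF hℓ Z' m x * voS hℓ Z' m x')).supp ⊆ range (yP hℓ o' ho hμ) := by
  rw [CQ.supp_mul, CQ.supp_mul, CQ.supp_eul]
  rintro v ⟨h0, h1, h2⟩
  obtain ⟨_, h3⟩ := h ((supp_voF hℓ).subset h1)
  obtain ⟨_, h4⟩ := h' ((supp_voS hℓ).subset h2)
  exact mem_range_yO hℓ P (o := CQ.prPt o o') ho hμ (Prod.ext h3.symm h4.symm) h0

theorem exists_frame_cross {χ : I → ℤ} (hc : Continuous ℓ)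
    (hr : ∀ z, Quiv.Rel m χ (lat 1) (ℓ z)) (β : EH (GG (Q.nn Φ)) Z) (β' : EH (GG (Q.nn Φ)) Z') :
    ∃ F : EH (T2 Q Φ) (DW Q Φ),
      CQ.gy (zeroH _ Unit _) (CQ.eul (isRep_Wr _) (σ := MulActionHom.id _) continuous_id) F =
        (sumProdT _ _).cross (B := Unit) (b₁ := id) (fun _ _ => rfl) (b₂ := id) (fun _ _ => rfl)
          (CQ.gy o x (resT β)) (CQ.gy o' x' (resT β')) ∧
      eres (toE Q Φ) F = CQ.gy (yP hℓ o' ho hμ) (CQ.eul P.isRep (continuous_kO hℓ P) *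
        (voF hℓ Z' m x * voS hℓ Z' m x')) (resT (pst hℓ Z' m (crs β β'))) := by
  obtain ⟨F, h1, h2⟩ := exists_frame_class hℓ P (o := CQ.prPt o o') ho hμ hc hr (CQ.supp_pr h h')
    (crs β β')
  refine ⟨F, h1.trans (CQ.gy_prPt h h' β β'), h2.trans ?_⟩
  have h3 : CQ.pull (continuous_toT (continuous_voP hℓ m)) (CQ.prF Z' x) = voF hℓ Z' m x :=
    CQ.pull_pl₁ (sumProdT _ _) _ _ _ _ _ (fun _ => rfl) x
  have h4 : CQ.pull (continuous_toT (continuous_voP hℓ m)) (CQ.prS Z x') = voS hℓ Z' m x' :=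
    CQ.pull_pl₂ (sumProdT _ _) _ _ _ _ _ (fun _ => rfl) x'
  rw [map_mul, h3, h4]
  rfl

end Flav

end Vale.Agent.P291Z
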