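import Vale.Agent.P291Z.C.CMul2

/-!
# The section that cuts out the convolution space
-/

set_option linter.unusedSectionVars false
set_option linter.style.haveILetI false

namespace Vale.Agent.P291Z

open Set Function Topology Quiv Lt

theorem CQ.eul_shear {G X W W' : Type} [Group G] [TopologicalSpace G] [Sys G] [TopologicalSpace X]
    [MulAction G X] [Nice X] [ContinuousSMul G X] [AddCommGroup W] [Module ℂ W]
    [TopologicalSpace W] [DistribMulAction G W] [AddCommGroup W'] [Module ℂ W']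
    [TopologicalSpace W'] [DistribMulAction G W'] {r r' : ℕ} (hW : IsRep G W r)
    (hW' : IsRep G W' r') {σ : X →[G] W} (hσ : Continuous σ) {σ' τ : X →[G] W'}
    (hσ' : Continuous σ') (hτ : Continuous τ) (L : X → W →ₗ[ℂ] W')
    (hL : Continuous fun x : X × W => L x.1 x.2)
    (hLe : ∀ (g : G) z w, L (g • z) (g • w) = g • L z w) (e : ∀ z, τ z = L z (σ z) - σ' z) :
    CQ.eul hW hσ * CQ.eul hW' hτ = CQ.eul hW hσ * CQ.eul hW' hσ' := by
  haveI := hW'.topGroup
  rw [← CQ.eul_prod hW hW' hσ hσ' (τ := eprod σ σ') (hσ.prodMk hσ') fun _ => rfl,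
    ← CQ.eul_prod hW hW' hσ hτ (τ := eprod σ τ) (hσ.prodMk hτ) fun _ => rfl]
  let L' : X → (W × W') →ₗ[ℂ] W × W' := fun x =>
    (LinearMap.fst ℂ _ _).prod (L x ∘ₗ LinearMap.fst ℂ _ _ - LinearMap.snd ℂ _ _)
  have h : ∀ x w, L' x w = (w.1, L x w.1 - w.2) := fun _ _ => rfl
  refine (CQ.eul_iso _ _ _ _ L' (continuous_snd.fst.prodMk ((hL.comp
    (continuous_fst.prodMk continuous_snd.fst)).sub continuous_snd.snd))
    (fun x => Involutive.bijective fun w => ?_) (fun t x w => ?_)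
    (fun x => ?_) rfl).symm
  · rw [h, h, sub_sub_cancel]
  · exact Prod.ext rfl ((congrArg (· - t • w.2) (hLe t x w.1)).trans (smul_sub _ _ _).symm)
  · exact Prod.ext rfl (e x).symm

section fst

variable {J J' : Type} [Fintype J] [Fintype J'] {n : J → ℕ} {n' : J' → ℕ} {Z : Type}

noncomputable instance [AddCommGroup Z] [DistribMulAction (GG n) Z] :
    DistribMulAction (Tc (Sum.elim n n')) (Fst n n' Z) := tDAct _ _

instance [AddCommGroup Z] [DistribMulAction (GG n) Z] :
    IsScalarTower (Tc (Sum.elim n n')) (GG (Sum.elim n n')) (Fst n n' Z) := tTower _ _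

theorem Fst.smulT [AddCommGroup Z] [TopologicalSpace Z] [DistribMulAction (GG n) Z]
    [MulAction (Tc n) Z] [IsScalarTower (Tc n) (GG n) Z] (t : Tc (Sum.elim n n'))
    (w : Fst n n' Z) : t • w = (fstT n n' t • (show Z from w) : Z) :=
  (smulT_eq Z (fstT n n' t) w).symm

theorem Snd.smulT [AddCommGroup Z] [TopologicalSpace Z] [DistribMulAction (GG n') Z]
    [MulAction (Tc n') Z] [IsScalarTower (Tc n') (GG n') Z] (t : Tc (Sum.elim n n'))
    (w : Snd n n' Z) : t • w = (sndT n n' t • (show Z from w) : Z) :=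
  (smulT_eq Z (sndT n n' t) w).symm

end fst

variable {I E : Type} {Q : Quiv I E} {Φ : Type} [Fintype Φ] [Fintype I] [Fintype E]

theorem coef_add (x y : Q.N KK) (k : ℕ) : coef (x + y) k = coef x k + coef y k :=
  QL.co_ext fun c => by
    rw [QL.co_add, QL.co_coef, QL.co_coef, QL.co_coef, QL.co_add, HahnSeries.coeff_add]

theorem coef_C_smul (a : ℂ) (x : Q.N KK) (k : ℕ) :
    coef ((HahnSeries.C a : KK) • x) k = a • coef x k :=
  QL.co_ext fun c => by
    rw [QL.co_smul, QL.co_coef, QL.co_coef, QL.co_smul, coeff_C_mul]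

theorem poly_C_smul (a : ℂ) (d : ℕ) (s : ℕ → Q.N ℂ) :
    poly d (a • s) = (HahnSeries.C a : KK) • poly d s :=
  QL.co_ext fun c => HahnSeries.ext (funext fun k => by
    rw [QL.co_smul, coeff_C_mul, QL.coeff_co_poly, QL.coeff_co_poly, Finset.mul_sum]
    refine Finset.sum_congr rfl fun j _ => ?_
    split_ifs
    exacts [QL.co_smul _ _ _, (mul_zero _).symm])

namespace Flav

variable {A : Flav Q Φ} {n : ℕ} {χ : I → ℤ} {n' : ℕ} {χ' : I → ℤ} {d d' : ℕ}

theorem ex0_add (s s' : Fin d → A.NN) : ex0 (s + s') = ex0 s + ex0 s' := funext fun k => by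
  simp only [ex0, Pi.add_apply]
  split_ifs
  exacts [rfl, (add_zero _).symm]

theorem ex0_csmul (a : ℂ) (s : Fin d → A.NN) : ex0 (a • s) = a • ex0 s := funext fun k => by
  simp only [ex0, Pi.smul_apply]
  split_ifs
  exacts [rfl, (smul_zero _).symm]

variable (d d') in
/-- `s ↦ f⁻¹ g⁻¹ s` -/
noncomputable def trL (w : WW Q Φ n) (hw : ∀ a, w.2 a ≠ 0) :
    (Fin d → A.NN) →ₗ[ℂ] (Fin d' → A.NN) where
  toFun s k := tr w hw d (ex0 s) k
  map_add' s s' := funext fun k => by
    refine Eq.trans (congrArg (A.ρ _) ?_) (map_add _ _ _)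
    rw [ex0_add]
    exact (congrArg (fun x => coef x k) ((congrArg _ (poly_add _ _)).trans (map_add _ _ _))).trans
      (coef_add _ _ _)
  map_smul' a s := funext fun k => by
    refine Eq.trans (congrArg (A.ρ _) ?_) (map_smul (A.ρ _) a _)
    rw [ex0_csmul]
    exact (congrArg (fun x => coef x k)
      ((congrArg _ (poly_C_smul a _ _)).trans (map_smul _ _ _))).trans (coef_C_smul _ _ _)

theorem trL_sF (w : WW Q Φ n) (hw : ∀ a, w.2 a ≠ 0) (x : A.RS n' χ d) (k : Fin d') :
    trL d d' w hw (A.sF n' χ d x) k = tr w hw d x.1.2 k :=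
  congrArg (fun s => tr w hw d s k) (RS.ex0_eq x)

variable (A n χ n' χ' d d')

theorem eS_mul_sig :
    voF lt_smul (A.RS n' χ' d') n (A.eS n χ d) *
      CQ.plT (CQ.eul (A.isRep_sF d').snd (A.continuous_sigE n χ n' χ' d d')) =
    voF lt_smul (A.RS n' χ' d') n (A.eS n χ d) * voS lt_smul _ n (A.eS n' χ' d') := by
  have h₁ := (A.isRep_sF d).fst (n' := Q.nn Φ)
  have h₂ := (A.isRep_sF d').snd (n₁ := Q.nn Φ)
  have c₁ : Continuous ((fstS _ (A.sF n χ d)).comp (voP lt_smul (A.RS n' χ' d') n)) :=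
    (A.continuous_sF n χ d).comp VO.continuous_fst
  have c₂ : Continuous ((sndS _ (A.sF n' χ' d')).comp (voP (Z := A.RS n χ d) lt_smul _ n)) :=
    (A.continuous_sF n' χ' d').comp VO.continuous_snd
  have e₁ : voF lt_smul (A.RS n' χ' d') n (A.eS n χ d) = CQ.plT (CQ.eul h₁ c₁) :=
    (CQ.pl₁_eul (sumProdT _ _) (VO.fst_smulT _ _ n) VO.continuous_fst h₁.toT (A.isRep_sF d).toT
      (continuous_toT c₁) (continuous_toT (A.continuous_sF n χ d)) LinearMap.id bijective_id
      (fun t w => Fst.smulT t w) fun _ => rfl).trans (CQ.plT_eul h₁ c₁).symm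
  have e₂ : voS (Z := A.RS n χ d) lt_smul _ n (A.eS n' χ' d') = CQ.plT (CQ.eul h₂ c₂) :=
    (CQ.pl₂_eul (sumProdT _ _) (VO.snd_smulT _ _ n) VO.continuous_snd h₂.toT (A.isRep_sF d').toT
      (continuous_toT c₂) (continuous_toT (A.continuous_sF n' χ' d')) LinearMap.id bijective_id
      (fun t w => Snd.smulT t w) fun _ => rfl).trans (CQ.plT_eul h₂ c₂).symm
  rw [e₁, e₂, ← map_mul, ← map_mul]
  refine congrArg _ (CQ.eul_shear h₁ h₂ c₁ c₂ _ (fun x => trL d d' x.1.1.2 x.2.2)
    (continuous_pi fun k => ?_) (fun g x w => funext fun k => ?_)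
    fun x => funext fun k => congrArg (fun y : A.NN => y - _) (trL_sF _ _ _ k).symm)
  · exact continuous_tr (VO.continuous_w.comp continuous_fst) (fun x => x.1.2.2)
      (fun x => Vp.det x.1) (fun j => (continuous_ex0 j).comp continuous_snd) k
  · exact (congrArg (fun s => tr (g • x).1.1.2 (g • x).2.2 d s k) (ex0_smul (fstG _ _ g) w)).trans
      (A.tr_smul g x.2.2 x.2.1 x.1.1.1.1.2.1 d (ex0 w) k)

end Flav

end Vale.Agent.P291Z
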