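import Vale.Agent.P291Z.C.CRing
import Vale.Agent.P291Z.C.CMul

/-!
# Multiplicativity of the abelianization map
-/

namespace Vale.Agent.P291Z.Flav

variable {I E Φ : Type} {Q : Quiv I E} [Fintype Φ] [Fintype I] [Fintype E] [DecidableEq I]
  {A : Flav Q Φ}

theorem mult (W : Wts A) : Mult W :=
  Mult.of fun n _ n' _ => ⟨2 * (n + n'), 2 * n', le_rfl, le_rfl, fun z z' =>
    PhiG_mul W le_rfl (qst_cv le_rfl z z')⟩

end Vale.Agent.P291Z.Flav
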