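import Vale.Agent.P291Z.GLSys

/-!
# The commutative monoid of classes of equivariant cocycles with supports
-/

set_option linter.unusedSectionVars false
set_option linter.style.haveILetI false

namespace Vale.Agent.P291Z

open Set Function Topology

section defs

variable (G : Type) [Group G] [TopologicalSpace G] [Sys G] (X : Type) [TopologicalSpace X]
  [MulAction G X]

/-- Systems of cocycles with an invariant supporting set. -/
structure Cyc where
  /-- the supporting set -/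
  A : Set X
  inv : ∀ (g : G), ∀ z ∈ A, g • z ∈ A
  /-- half the degree -/
  d : ℕ
  /-- the cocycles -/
  t : ∀ M, Coch (Bq G X M)
  coc : IsCoc A d t

instance Cyc.setoid : Setoid (Cyc G X) where
  r x y := x.A = y.A ∧ x.d = y.d ∧ Coh x.A x.t y.t
  iseqv := ⟨fun _ => ⟨rfl, rfl, fun _ => Cohom.refl _ _⟩,
    fun h => ⟨h.1.symm, h.2.1.symm, fun M => h.1 ▸ (h.2.2 M).symm⟩,
    fun h h' => ⟨h.1.trans h'.1, h.2.1.trans h'.2.1,
      fun M => (h.2.2 M).trans (h.1.symm ▸ h'.2.2 M)⟩⟩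

/-- Classes of systems of cocycles with supports. -/
def CQ : Type := Quotient (Cyc.setoid G X)

end defs

variable {G G' G'' : Type} [Group G] [TopologicalSpace G] [Sys G] [Group G'] [TopologicalSpace G']
  [Sys G'] [Group G''] [TopologicalSpace G''] [Sys G'']

section lev

variable {X Y Z : Type} [TopologicalSpace X] [MulAction G X] [TopologicalSpace Y] [MulAction G' Y]
  [TopologicalSpace Z] [MulAction G'' Z]

/-- Level maps `F` that cover a map `b`. -/
structure IsCov (F : ∀ M, Bq G X M → Bq G' Y M) (b : X → Y) : Prop where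
  cont : ∀ M, Continuous (F M)
  comm : ∀ M x, F (M + 1) (binc G X M x) = binc G' Y M (F M x)
  orb : ∀ (g : G) x, ∃ g' : G', b (g • x) = g' • b x
  map_mk : ∀ M x u, ∃ u', F M (Bor.mk G (x, u)) = Bor.mk G' (b x, u')

theorem IsCov.inv {F : ∀ M, Bq G X M → Bq G' Y M} {b : X → Y} (h : IsCov F b) {A : Set Y}
    (hA : ∀ (g : G'), ∀ z ∈ A, g • z ∈ A) (g : G) : ∀ z ∈ b ⁻¹' A, g • z ∈ b ⁻¹' A := by
  intro z hz
  obtain ⟨g', e⟩ := h.orb g z
  rw [mem_preimage, e]
  exact hA _ _ hz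

theorem IsCov.pre {F : ∀ M, Bq G X M → Bq G' Y M} {b : X → Y} (h : IsCov F b) {A : Set Y}
    (hA : ∀ (g : G'), ∀ z ∈ A, g • z ∈ A) (M : ℕ) : F M ⁻¹' bset A M ⊆ bset (b ⁻¹' A) M := by
  intro x hx
  obtain ⟨⟨x, u⟩, rfl⟩ := Bor.mk_surjective x
  obtain ⟨u', e⟩ := h.map_mk M x u
  obtain ⟨y, hy, e'⟩ := hx
  obtain ⟨g, hg⟩ := Bor.mk_eq_iff.1 (e.symm.trans e')
  refine ⟨(x, u), ?_, rfl⟩
  have : b x = g • y.1 := (congrArg Prod.fst hg).symm
  rw [mem_preimage, this]
  exact hA _ _ hy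

theorem IsCov.comp {F : ∀ M, Bq G X M → Bq G' Y M} {b : X → Y} {F' : ∀ M, Bq G' Y M → Bq G'' Z M}
    {b' : Y → Z} (h' : IsCov F' b') (h : IsCov F b) : IsCov (fun M => F' M ∘ F M) (b' ∘ b) where
  cont M := (h'.cont M).comp (h.cont M)
  comm M x := by rw [comp_apply, h.comm, h'.comm, comp_apply]
  orb g x := by
    obtain ⟨g', e⟩ := h.orb g x
    obtain ⟨g'', e'⟩ := h'.orb g' (b x)
    exact ⟨g'', by rw [comp_apply, e, e', comp_apply]⟩
  map_mk M x u := by
    obtain ⟨u', e⟩ := h.map_mk M x u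
    obtain ⟨u'', e'⟩ := h'.map_mk M (b x) u'
    exact ⟨u'', by rw [comp_apply, e, e', comp_apply]⟩

theorem IsCoc.lp {F : ∀ M, Bq G X M → Bq G' Y M} {b : X → Y} (h : IsCov F b) {A : Set Y}
    (hA : ∀ (g : G'), ∀ z ∈ A, g • z ∈ A) {d : ℕ} {t : ∀ M, Coch (Bq G' Y M)} (ht : IsCoc A d t) :
    IsCoc (b ⁻¹' A) d fun M => P291Z.pull (F M) (t M) where
  cocycle M := by
    rw [δ_pull]
    exact supp_pull_eq_empty (h.cont M) (ht.cocycle M)
  deg M := (ht.deg M).pull _
  supp M := ((supp_pull (h.cont M) _).trans (preimage_mono (ht.supp M))).trans (h.pre hA M)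
  compat M := by
    have e : F (M + 1) ∘ binc G X M = binc G' Y M ∘ F M := funext (h.comm M)
    rw [pull_pull, e, ← pull_pull]
    exact ((ht.compat M).pull (h.cont M)).mono (h.pre hA M)

end lev

variable {X Y Z U X' Y' : Type} [TopologicalSpace X] [MulAction G X] [Nice X]
  [ContinuousSMul G X] [TopologicalSpace Y] [MulAction G Y] [Nice Y] [ContinuousSMul G Y]
  [TopologicalSpace Z] [MulAction G Z] [Nice Z] [ContinuousSMul G Z]
  [TopologicalSpace U] [MulAction G U] [Nice U] [ContinuousSMul G U]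
  [TopologicalSpace X'] [MulAction G X'] [Nice X'] [ContinuousSMul G X']
  [TopologicalSpace Y'] [MulAction G Y'] [Nice Y'] [ContinuousSMul G Y']

theorem isCov_smap {f : X →[G] Y} (hf : Continuous f) : IsCov (smap f) f where
  cont := continuous_smap hf
  comm M x := congrFun (smap_binc f M) x
  orb g x := ⟨g, f.map_smul g x⟩
  map_mk _ _ u := ⟨u, rfl⟩

theorem bset_univ (M : ℕ) : bset (G := G) (univ : Set X) M = univ :=
  eq_univ_of_forall fun x => by
    obtain ⟨y, rfl⟩ := Bor.mk_surjective x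
    exact ⟨y, trivial, rfl⟩

theorem bset_empty (M : ℕ) : bset (G := G) (∅ : Set X) M = ∅ :=
  eq_empty_of_forall_notMem fun _ ⟨_, h, _⟩ => h

theorem isCoc_unit : IsCoc (G := G) (univ : Set X) 0 1 where
  cocycle _ := by
    rw [Pi.one_apply, δ_one_eq_zero]
    exact supp_zero
  deg _ := isDeg_one
  supp M := by
    rw [bset_univ]
    exact subset_univ _
  compat M := by
    rw [Pi.one_apply, Pi.one_apply, map_one]
    exact Cohom.refl _ _

namespace CQ

/-- the class of a system -/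
def mk {A : Set X} (hA : ∀ (g : G), ∀ z ∈ A, g • z ∈ A) {d : ℕ} {t : ∀ M, Coch (Bq G X M)}
    (ht : IsCoc A d t) : CQ G X := Quotient.mk _ ⟨A, hA, d, t, ht⟩

theorem ind {P : CQ G X → Prop} (x : CQ G X)
    (h : ∀ (A : Set X) (hA : ∀ (g : G), ∀ z ∈ A, g • z ∈ A) (d : ℕ) (t : ∀ M, Coch (Bq G X M))
      (ht : IsCoc A d t), P (mk hA ht)) : P x :=
  Quotient.inductionOn x fun c => h c.A c.inv c.d c.t c.coc

theorem mk_eq {A B : Set X} {hA : ∀ (g : G), ∀ z ∈ A, g • z ∈ A}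
    {hB : ∀ (g : G), ∀ z ∈ B, g • z ∈ B} {d e : ℕ} {s t : ∀ M, Coch (Bq G X M)}
    {hs : IsCoc A d s} {ht : IsCoc B e t} (h₁ : A = B) (h₂ : d = e) (h₃ : Coh A s t) :
    mk hA hs = mk hB ht := Quotient.sound ⟨h₁, h₂, h₃⟩

/-- the supporting set -/
def supp (x : CQ G X) : Set X := Quotient.liftOn x Cyc.A fun _ _ h => h.1

/-- half the degree -/
def deg (x : CQ G X) : ℕ := Quotient.liftOn x Cyc.d fun _ _ h => h.2.1

/-- the cohomology classes -/
noncomputable def cls (x : CQ G X) (M : ℕ) : H (Bq G X M) :=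
  Quotient.liftOn x (fun c => hcls (c.t M)) fun _ b h => (h.2.2 M).hcls_eq (b.coc.cocycle M)

theorem supp_inv (x : CQ G X) (g : G) : ∀ z ∈ x.supp, g • z ∈ x.supp :=
  x.ind (P := fun x => ∀ z ∈ x.supp, g • z ∈ x.supp) fun _ hA _ _ _ => hA g

noncomputable instance : CommMonoid (CQ G X) where
  mul := Quotient.map₂ (fun a b => ⟨a.A ∩ b.A, fun g z hz => ⟨a.inv g z hz.1, b.inv g z hz.2⟩,
      a.d + b.d, a.t * b.t, a.coc.mul a.inv b.coc⟩) (by
    rintro a a' ⟨h₁, h₂, h₃⟩ b b' ⟨k₁, k₂, k₃⟩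
    refine ⟨congrArg₂ (· ∩ ·) h₁ k₁, congrArg₂ (· + ·) h₂ k₂, fun M => ?_⟩
    have := Cohom.mul (h₃ M) (k₃ M) (a'.coc.cocycle M) (b.coc.cocycle M)
      (h₁ ▸ a'.coc.supp M) (b.coc.supp M)
    rwa [bset_inter a.inv] at this)
  one := mk (A := univ) (fun _ _ _ => trivial) isCoc_unit
  mul_assoc a b c := Quotient.inductionOn₃ a b c fun a b c => Quotient.sound
    ⟨inter_assoc _ _ _, add_assoc _ _ _, fun M => by
      change Cohom _ ((a.t * b.t * c.t) M) ((a.t * (b.t * c.t)) M)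
      rw [mul_assoc]
      exact Cohom.refl _ _⟩
  one_mul a := Quotient.inductionOn a fun a => Quotient.sound
    ⟨univ_inter _, zero_add _, fun M => by
      change Cohom _ ((1 * a.t) M) _
      rw [one_mul]
      exact Cohom.refl _ _⟩
  mul_one a := Quotient.inductionOn a fun a => Quotient.sound
    ⟨inter_univ _, add_zero _, fun M => by
      change Cohom _ ((a.t * 1) M) _
      rw [mul_one]
      exact Cohom.refl _ _⟩
  mul_comm a b := Quotient.inductionOn₂ a b fun a b => Quotient.sound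
    ⟨inter_comm _ _, add_comm _ _, fun M => by
      refine (cohom_comm_even (a.coc.cocycle M) (b.coc.cocycle M) (d := b.d) (b.coc.deg M)).mono ?_
      change _ ⊆ bset (a.A ∩ b.A) M
      rw [← bset_inter a.inv]
      exact inter_subset_inter (a.coc.supp M) (b.coc.supp M)⟩

section mk

variable {A B : Set X} (hA : ∀ (g : G), ∀ z ∈ A, g • z ∈ A) (hB : ∀ (g : G), ∀ z ∈ B, g • z ∈ B)
  {d e : ℕ} {s t : ∀ M, Coch (Bq G X M)} (hs : IsCoc A d s) (ht : IsCoc B e t)

include hA hB in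
theorem inv_inter (g : G) : ∀ z ∈ A ∩ B, g • z ∈ A ∩ B := fun z hz => ⟨hA g z hz.1, hB g z hz.2⟩

theorem mk_mul : mk hA hs * mk hB ht = mk (inv_inter hA hB) (hs.mul hA ht) := rfl

@[simp] theorem supp_mk : (mk hA hs).supp = A := rfl

@[simp] theorem deg_mk : (mk hA hs).deg = d := rfl

theorem cls_mk (M : ℕ) : (mk hA hs).cls M = hcls (s M) := rfl

end mk

@[simp] theorem supp_mul (x y : CQ G X) : (x * y).supp = x.supp ∩ y.supp :=
  Quotient.inductionOn₂ x y fun _ _ => rfl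

@[simp] theorem deg_mul (x y : CQ G X) : (x * y).deg = x.deg + y.deg :=
  Quotient.inductionOn₂ x y fun _ _ => rfl

@[simp] theorem supp_one : (1 : CQ G X).supp = univ := rfl

@[simp] theorem deg_one : (1 : CQ G X).deg = 0 := rfl

theorem cls_mul (x y : CQ G X) (M : ℕ) : (x * y).cls M = x.cls M * y.cls M :=
  Quotient.inductionOn₂ x y fun a b => hcls_mul (a.coc.cocycle M) (b.coc.cocycle M)

theorem cls_one (M : ℕ) : (1 : CQ G X).cls M = 1 := hcls_one

theorem cls_eq_zero {x : CQ G X} (h : x.supp = ∅) (M : ℕ) : x.cls M = 0 := by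
  induction x using CQ.ind with
  | h A hA d t ht =>
    obtain rfl : A = ∅ := h
    refine (hcls_eq_zero (ht.cocycle M)).2 ⟨0, ?_⟩
    rw [map_zero, sub_zero]
    exact subset_empty_iff.1 ((ht.supp M).trans (bset_empty M).subset)

section lp

variable {V W : Type} [TopologicalSpace V] [MulAction G' V] [Nice V] [ContinuousSMul G' V]
  [TopologicalSpace W] [MulAction G'' W] [Nice W] [ContinuousSMul G'' W]
  {F : ∀ M, Bq G X M → Bq G' V M} {b : X → V}

/-- pull-back along level maps -/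
noncomputable def lp (h : IsCov F b) : CQ G' V →* CQ G X where
  toFun := Quotient.map (fun a => ⟨b ⁻¹' a.A, h.inv a.inv, a.d, _, a.coc.lp h a.inv⟩) (by
    rintro a a' ⟨h₁, h₂, h₃⟩
    exact ⟨congrArg (b ⁻¹' ·) h₁, h₂, fun M => ((h₃ M).pull (h.cont M)).mono (h.pre a.inv M)⟩)
  map_one' := Quotient.sound ⟨rfl, rfl, fun M => by
    change Cohom _ (P291Z.pull (F M) 1) 1
    rw [map_one]
    exact Cohom.refl _ _⟩
  map_mul' x y := Quotient.inductionOn₂ x y fun a c => Quotient.sound ⟨rfl, rfl, fun M => by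
    change Cohom _ (P291Z.pull (F M) (a.t M * c.t M)) (_ * _)
    rw [map_mul]
    exact Cohom.refl _ _⟩

theorem lp_mk (h : IsCov F b) {A : Set V} (hA : ∀ (g : G'), ∀ z ∈ A, g • z ∈ A) {d : ℕ}
    {t : ∀ M, Coch (Bq G' V M)} (ht : IsCoc A d t) :
    lp h (mk hA ht) = mk (h.inv hA) (ht.lp h hA) := rfl

@[simp] theorem supp_lp (h : IsCov F b) (x : CQ G' V) : (lp h x).supp = b ⁻¹' x.supp :=
  Quotient.inductionOn x fun _ => rfl

@[simp] theorem deg_lp (h : IsCov F b) (x : CQ G' V) : (lp h x).deg = x.deg :=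
  Quotient.inductionOn x fun _ => rfl

theorem cls_lp (h : IsCov F b) (x : CQ G' V) (M : ℕ) :
    (lp h x).cls M = H.map ⟨F M, h.cont M⟩ (x.cls M) :=
  Quotient.inductionOn x fun a => (H.map_hcls ⟨F M, h.cont M⟩ (a.coc.cocycle M)).symm

/-- composition of pull-backs -/
theorem lp_lp (h : IsCov F b) {F' : ∀ M, Bq G' V M → Bq G'' W M} {b' : V → W} (h' : IsCov F' b')
    {F'' : ∀ M, Bq G X M → Bq G'' W M} {b'' : X → W} (h'' : IsCov F'' b'')
    (e : ∀ M x, F'' M x = F' M (F M x)) (e' : ∀ x, b'' x = b' (b x)) (x : CQ G'' W) :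
    lp h (lp h' x) = lp h'' x := by
  obtain rfl : F'' = fun M => F' M ∘ F M := funext fun M => funext (e M)
  obtain rfl : b'' = b' ∘ b := funext e'
  exact Quotient.inductionOn x fun a => Quotient.sound ⟨rfl, rfl, fun M => by
    change Cohom _ (P291Z.pull (F M) (P291Z.pull (F' M) (a.t M))) (P291Z.pull (F' M ∘ F M) (a.t M))
    rw [P291Z.pull_pull]
    exact Cohom.refl _ _⟩

end lp

/-- pull-back along an equivariant map -/
noncomputable def pull {f : X →[G] Y} (hf : Continuous f) : CQ G Y →* CQ G X := lp (isCov_smap hf)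

@[simp] theorem supp_pull {f : X →[G] Y} (hf : Continuous f) (x : CQ G Y) :
    (pull hf x).supp = f ⁻¹' x.supp := supp_lp _ x

@[simp] theorem deg_pull {f : X →[G] Y} (hf : Continuous f) (x : CQ G Y) :
    (pull hf x).deg = x.deg := deg_lp _ x

theorem pull_pull {f : X →[G] Y} (hf : Continuous f) {g : Y →[G] Z} (hg : Continuous g)
    {k : X →[G] Z} (hk : Continuous k) (e : ∀ x, k x = g (f x)) (x : CQ G Z) :
    pull hf (pull hg x) = pull hk x :=
  lp_lp (isCov_smap hf) (isCov_smap hg) (isCov_smap hk)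
    (fun M y => (congrFun (smap_comp e M) y).symm) e x

theorem pull_congr {f g : X →[G] Y} (hf : Continuous f) (hg : Continuous g) (e : ∀ x, f x = g x)
    (x : CQ G Y) : pull hf x = pull hg x := by
  obtain rfl : f = g := MulActionHom.ext e
  rfl

theorem pull_sq {f : X →[G] Y} (hf : Continuous f) {g : Y →[G] Z} (hg : Continuous g)
    {f' : X →[G] Y'} (hf' : Continuous f') {g' : Y' →[G] Z} (hg' : Continuous g')
    (e : ∀ x, g (f x) = g' (f' x)) (x : CQ G Z) : pull hf (pull hg x) = pull hf' (pull hg' x) :=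
  (pull_pull hf hg (k := g.comp f) (hg.comp hf) (fun _ => rfl) x).trans
    (pull_pull hf' hg' (k := g.comp f) (hg.comp hf) e x).symm

theorem pull_id {f : X →[G] X} (hf : Continuous f) (e : ∀ x, f x = x) (x : CQ G X) :
    pull hf x = x :=
  Quotient.inductionOn x fun a => Quotient.sound ⟨Set.ext fun y => by
    change f y ∈ a.A ↔ y ∈ a.A
    rw [e], rfl, fun M => by
    change Cohom _ (P291Z.pull (smap f M) (a.t M)) (a.t M)
    rw [smap_id e, P291Z.pull_id]
    exact Cohom.refl _ _⟩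

open Classical in
/-- the Gysin map -/
noncomputable def gy (i : Y →[G] X) (x : CQ G X) : EH G X →ₗ[ℂ] EH G Y :=
  Quotient.liftOn x (fun c => if IsClosedEmbedding i ∧ c.A ⊆ range i then egys i c.t else 0) (by
    rintro a b ⟨h₁, h₂, h₃⟩
    rw [← h₁]
    split_ifs with h
    · exact egys_congr h.1 (a.coc.mono h.2) (h₂ ▸ b.coc.mono (h₁ ▸ h.2))
        fun M => (h₃ M).mono (bset_mono h.2 M)
    · rfl)

theorem gy_mk {i : Y →[G] X} (hi : IsClosedEmbedding i) {A : Set X}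
    (hA : ∀ (g : G), ∀ z ∈ A, g • z ∈ A) {d : ℕ} {t : ∀ M, Coch (Bq G X M)} (ht : IsCoc A d t)
    (h : A ⊆ range i) : gy i (mk hA ht) = egys i t := if_pos ⟨hi, h⟩

variable {i : Y →[G] X} (hi : IsClosedEmbedding i)
include hi

theorem gy_deg {x : CQ G X} (h : x.supp ⊆ range i) {k : ℤ} {z : EH G X} (hz : z ∈ EH.deg G X k) :
    gy i x z ∈ EH.deg G Y (k - 2 * x.deg) := by
  induction x using CQ.ind with
  | h A hA d t ht =>
    rw [gy_mk hi hA ht h]
    exact egys_deg hi (ht.mono h) hz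

theorem gy_smul {x : CQ G X} (h : x.supp ⊆ range i) (r : HS G Unit) (z : EH G X) :
    gy i x (r • z) = r • gy i x z := by
  induction x using CQ.ind with
  | h A hA d t ht =>
    rw [gy_mk hi hA ht h]
    exact egys_smul hi (ht.mono h) r z

/-- composition of Gysin maps -/
theorem gy_gy {j : Z →[G] Y} (hj : IsClosedEmbedding j) {k : Z →[G] X} (e : ∀ z, k z = i (j z))
    {x y : CQ G X} (hy : y.supp ⊆ range i) (hx : i ⁻¹' x.supp ⊆ range j) (z : EH G X) :
    gy j (pull hi.continuous x) (gy i y z) = gy k (x * y) z := by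
  induction x using CQ.ind with
  | h A hA d s hs =>
  induction y using CQ.ind with
  | h B hB d' t ht =>
    have hk : IsClosedEmbedding k := by
      rw [show (k : Z → X) = i ∘ j from funext e]
      exact hi.comp hj
    have h3 : A ∩ B ⊆ range k := by
      rintro y ⟨h1, h2⟩
      obtain ⟨y, rfl⟩ := hy h2
      obtain ⟨y, rfl⟩ := hx h1
      exact ⟨y, e y⟩
    rw [mk_mul, gy_mk hk _ _ h3, gy_mk hi hB ht hy, pull, lp_mk,
      gy_mk hj (A := i ⁻¹' A) _ _ hx]
    exact egys_egys hj hi e hA hx hs (ht.mono hy) z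

/-- base change for proper maps -/
theorem gy_epush {i' : Y' →[G] X'} (hi' : IsClosedEmbedding i') {f : X' →[G] X} (hf : IsPr f)
    {g : Y' →[G] Y} (hg : IsPr g) (hsq : ∀ y, f (i' y) = i (g y))
    (hr : f ⁻¹' range i ⊆ range i') {x : CQ G X} (h : x.supp ⊆ range i) (z : EH G X') :
    gy i x (epush f z) = epush g (gy i' (pull hf.1 x) z) := by
  induction x using CQ.ind with
  | h A hA d t ht =>
    rw [gy_mk hi hA ht h, pull, lp_mk,
      gy_mk hi' (A := f ⁻¹' A) _ _ ((preimage_mono h).trans hr)]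
    exact egys_epush hi hi' hf hg hsq hr (ht.mono h) z

/-- base change for open embeddings -/
theorem eres_gy {i' : Y' →[G] X'} (hi' : IsClosedEmbedding i') {f : X' →[G] X}
    (hf : IsOpenEmbedding f) {g : Y' →[G] Y} (hg : IsOpenEmbedding g)
    (hsq : ∀ y, f (i' y) = i (g y)) (hr : f ⁻¹' range i ⊆ range i') {x : CQ G X}
    (h : x.supp ⊆ range i) (z : EH G X) :
    eres g (gy i x z) = gy i' (pull hf.continuous x) (eres f z) := by
  induction x using CQ.ind with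
  | h A hA d t ht =>
    rw [gy_mk hi hA ht h, pull, lp_mk,
      gy_mk hi' (A := f ⁻¹' A) _ _ ((preimage_mono h).trans hr)]
    exact eres_egys hi hi' hf hg hsq hr (ht.mono h) z

theorem epush_gy {k : Z →[G] Y} (hk : IsClosedEmbedding k) {j : Z →[G] X}
    (e : ∀ z, j z = i (k z)) {x : CQ G X} (h : x.supp ⊆ range j) (z : EH G X) :
    epush k (gy j x z) = gy i x z := by
  have hj : IsClosedEmbedding j := by
    rw [show (j : Z → X) = i ∘ k from funext e]
    exact hi.comp hk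
  have h' : range j ⊆ range i := by
    rintro _ ⟨y, rfl⟩
    exact ⟨_, (e y).symm⟩
  induction x using CQ.ind with
  | h A hA d t ht =>
    rw [gy_mk hi hA ht (h.trans h'), gy_mk hj hA ht h]
    exact epush_egys hk hi e (ht.mono h) z

omit hi in
theorem gy_apply_of_id {f : X →[G] X} (e : ∀ x, f x = x) (x : CQ G X) (z : EH G X) (M : ℕ) :
    (gy f x z).1 M = cap (x.cls M) (z.1 M) := by
  have hf : IsClosedEmbedding f := by
    rw [show (f : X → X) = id from funext e]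
    exact IsClosedEmbedding.id
  have h : ∀ A : Set X, A ⊆ range f := fun A y _ => ⟨y, e y⟩
  induction x using CQ.ind with
  | h A hA d t ht =>
    rw [gy_mk hf hA ht (h A), egys_apply hf (ht.mono (h A)), smap_id e,
      gys_id_eq_cap (ht.cocycle M), cls_mk]

/-- changing a factor that is only seen on the support of the other one -/
theorem gy_congr_on {j : Z →[G] Y} (hj : IsClosedEmbedding j) {k : Z →[G] X}
    (e : ∀ z, k z = i (j z)) {x x' u : CQ G X} (hu : u.supp ⊆ range i)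
    (hx : i ⁻¹' x.supp ⊆ range j) (h : pull hi.continuous x = pull hi.continuous x') (z : EH G X) :
    gy k (x * u) z = gy k (x' * u) z := by
  have hx' : i ⁻¹' x'.supp ⊆ range j := by
    rwa [← supp_pull hi.continuous, ← h, supp_pull]
  rw [← gy_gy hi hj e hu hx, ← gy_gy hi hj e hu hx', h]

theorem gy_eq_zero {x : CQ G X} (h : x.supp = ∅) (z : EH G X) : gy i x z = 0 := by
  induction x using CQ.ind with
  | h A hA d t ht =>
    obtain rfl : A = ∅ := h
    refine EH.ext fun M => ?_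
    have h0 : P291Z.supp (δ (0 : Coch (Bq G X M))) = ∅ := by rw [map_zero, supp_zero]
    have h1 : P291Z.supp (0 : Coch (Bq G X M)) ⊆ range (smap i M) := by
      rw [supp_zero]; exact empty_subset _
    have h2 : P291Z.supp (t M) = ∅ := subset_empty_iff.1 ((ht.supp M).trans (bset_empty M).subset)
    have hi' := isClosedEmbedding_smap hi M
    rw [gy_mk hi hA ht (empty_subset _), egys_apply hi (ht.mono (empty_subset _)),
      gys_congr hi' (ht.cocycle M) (h2 ▸ empty_subset _) h0 h1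
        ⟨0, h1, by rwa [map_zero, sub_zero, sub_zero]⟩, EH.zero_apply]
    refine (Gys_iff hi' h0 h1).1 fun a _ _ => ?_
    rw [ev_zero, mul_zero, ev, dif_pos (Zc _).zero_mem]
    exact (map_zero _).symm

omit hi

section cls

/-- `x` represents the class `r` of the classifying space -/
def HasCls (x : CQ G X) (r : HS G Unit) : Prop := ∀ M, x.cls M = H.map (bptC G X M) (r.1 M)

theorem hasCls_one : HasCls (1 : CQ G X) 1 := fun M => (cls_one M).trans (map_one _).symm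

theorem HasCls.mul {x y : CQ G X} {r s : HS G Unit} (h : HasCls x r) (h' : HasCls y s) :
    HasCls (x * y) (r * s) := fun M => by
  rw [cls_mul, h M, h' M, ← map_mul]
  rfl

theorem HasCls.pull {x : CQ G Y} {r : HS G Unit} (h : HasCls x r) {f : X →[G] Y}
    (hf : Continuous f) : HasCls (pull hf x) r := fun M => by
  rw [CQ.pull, cls_lp, h M]
  exact (map_bptC hf M _).symm

theorem HasCls.lp {V : Type} [TopologicalSpace V] [MulAction G' V] [Nice V] [ContinuousSMul G' V]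
    {F : ∀ M, Bq G X M → Bq G' V M} {b : X → V} (h : IsCov F b) {x : CQ G' V} {r : HS G' Unit}
    (hx : HasCls x r) {F₀ : ∀ M, C(Bq G Unit M, Bq G' Unit M)}
    (hsq : ∀ M y, bpt G' V M (F M y) = F₀ M (bpt G X M y)) {s : HS G Unit}
    (hs : ∀ M, s.1 M = H.map (F₀ M) (r.1 M)) : HasCls (lp h x) s := fun M => by
  rw [cls_lp, hx M, hs M, H.map_map, H.map_map]
  exact congrArg (fun f => H.map f (r.1 M)) (ContinuousMap.ext (hsq M))

theorem HasCls.gy_id {x : CQ G X} {r : HS G Unit} (h : HasCls x r) {f : X →[G] X}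
    (e : ∀ x, f x = x) (z : EH G X) : gy f x z = r • z := EH.ext fun M => by
  rw [gy_apply_of_id e, h M, EH.smul_apply]

theorem isClosedEmbedding_id : IsClosedEmbedding (MulActionHom.id G : X →[G] X) :=
  IsClosedEmbedding.id

theorem subset_range_id (A : Set X) : A ⊆ range (MulActionHom.id G : X →[G] X) :=
  fun y _ => ⟨y, rfl⟩

include hi

theorem gy_mul_cls {x u : CQ G X} (hu : u.supp ⊆ range i) {r : HS G Unit}
    (h : HasCls (pull hi.continuous x) r) (z : EH G X) : gy i (x * u) z = r • gy i u z := by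
  rw [← gy_gy hi isClosedEmbedding_id (fun _ => rfl) hu (subset_range_id _), h.gy_id fun _ => rfl]

/-- exchange of two factors with known classes -/
theorem gy_swap {x x' u : CQ G X} (hx : (x * u).supp ⊆ range i) (hx' : (x' * u).supp ⊆ range i)
    {r r' : HS G Unit} (h : HasCls (pull hi.continuous x) r)
    (h' : HasCls (pull hi.continuous x') r') (z : EH G X) :
    r' • gy i (x * u) z = r • gy i (x' * u) z := by
  rw [← gy_mul_cls hi hx h', ← gy_mul_cls hi hx' h, mul_left_comm]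

theorem gy_epush_self {x : CQ G X} (hx : x.supp ⊆ range i) {r : HS G Unit}
    (h : HasCls (pull hi.continuous x) r) (z : EH G Y) : gy i x (epush i z) = r • z := by
  rw [gy_epush hi isClosedEmbedding_id (IsPr.of_isClosedEmbedding hi) (g := MulActionHom.id G)
    IsPr.id (fun _ => rfl) (subset_range_id _) hx, epush_id fun _ => rfl, h.gy_id fun _ => rfl]

end cls

section eul

variable {W W' : Type} [AddCommGroup W] [Module ℂ W] [TopologicalSpace W] [DistribMulAction G W]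
  [AddCommGroup W'] [Module ℂ W'] [TopologicalSpace W'] [DistribMulAction G W'] {r r' : ℕ}

omit [TopologicalSpace G] [Sys G] [TopologicalSpace X] [Nice X] [ContinuousSMul G X] [Module ℂ W]
  [TopologicalSpace W] in
theorem zero_inv (σ : X →[G] W) (g : G) : ∀ z ∈ σ ⁻¹' {0}, g • z ∈ σ ⁻¹' {0} := fun z hz => by
  rw [mem_preimage, map_smul, mem_singleton_iff.1 hz, smul_zero]
  rfl

/-- the Euler class of a section -/
noncomputable def eul (hW : IsRep G W r) {σ : X →[G] W} (hσ : Continuous σ) : CQ G X :=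
  mk (zero_inv σ) (isCoc_eul hW hσ)

@[simp] theorem supp_eul (hW : IsRep G W r) {σ : X →[G] W} (hσ : Continuous σ) :
    (eul hW hσ).supp = σ ⁻¹' {0} := rfl

@[simp] theorem deg_eul (hW : IsRep G W r) {σ : X →[G] W} (hσ : Continuous σ) :
    (eul hW hσ).deg = r := rfl

theorem hasCls_eul (hW : IsRep G W r) {σ : X →[G] W} (hσ : Continuous σ) :
    HasCls (eul hW hσ) (eu hW) := hcls_eul hW hσ

theorem gy_eul (hW : IsRep G W r) {σ : X →[G] W} (hσ : Continuous σ) {i : Y →[G] X}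
    (hi : IsClosedEmbedding i) (h : σ ⁻¹' {0} ⊆ range i) :
    gy i (eul hW hσ) = egys i (P291Z.eul σ) := gy_mk hi _ _ h

theorem pull_eul (hW : IsRep G W r) {σ : Y →[G] W} (hσ : Continuous σ) {f : X →[G] Y}
    (hf : Continuous f) {τ : X →[G] W} (hτ : Continuous τ) (e : ∀ x, τ x = σ (f x)) :
    pull hf (eul hW hσ) = eul hW hτ := by
  obtain rfl : τ = σ.comp f := MulActionHom.ext e
  exact mk_eq rfl rfl (eul_pull hW hσ hf)

theorem eul_prod (hW : IsRep G W r) (hW' : IsRep G W' r') {σ : X →[G] W} (hσ : Continuous σ)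
    {σ' : X →[G] W'} (hσ' : Continuous σ') {τ : X →[G] W × W'} (hτ : Continuous τ)
    (e : ∀ x, τ x = (σ x, σ' x)) : eul (hW.prod hW') hτ = eul hW hσ * eul hW' hσ' :=
  mk_eq (Set.ext fun x => by
    rw [mem_preimage, e, mem_singleton_iff, Prod.mk_eq_zero]; rfl) rfl
    (P291Z.eul_prod hW hW' hσ hσ' e)

theorem eul_iso (hW : IsRep G W r) (hW' : IsRep G W' r') {σ : X →[G] W} (hσ : Continuous σ)
    {σ' : X →[G] W'} (hσ' : Continuous σ') (L : X → W →ₗ[ℂ] W')
    (hL : Continuous fun x : X × W => L x.1 x.2) (hLb : ∀ z, Bijective (L z))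
    (hLe : ∀ (h : G) z w, L (h • z) (h • w) = h • L z w) (hLσ : ∀ z, L z (σ z) = σ' z)
    (hr : r = r') : eul hW hσ = eul hW' hσ' := by
  subst hr
  refine mk_eq (Set.ext fun x => ?_) rfl (P291Z.eul_iso hW hW' hσ L hL hLb hLe hLσ)
  rw [mem_preimage, mem_preimage, ← hLσ, mem_singleton_iff, mem_singleton_iff,
    map_eq_zero_iff _ (hLb x).1]

/-- **excess intersection**: the section σ is isomorphic to the pair of σ' and zero -/
theorem eul_exc {W'' : Type} [AddCommGroup W''] [Module ℂ W''] [TopologicalSpace W'']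
    [DistribMulAction G W''] {r'' : ℕ} (hW : IsRep G W r) (hW' : IsRep G W' r')
    (hW'' : IsRep G W'' r'') {σ : X →[G] W} (hσ : Continuous σ) {σ' : X →[G] W'}
    (hσ' : Continuous σ') (L : X → (W'' × W') →ₗ[ℂ] W)
    (hL : Continuous fun x : X × (W'' × W') => L x.1 x.2) (hLb : ∀ z, Bijective (L z))
    (hLe : ∀ (h : G) z w, L (h • z) (h • w) = h • L z w) (hLσ : ∀ z, L z (0, σ' z) = σ z)
    (hr : r'' + r' = r) :
    eul hW hσ = eul hW'' (σ := zeroH G X W'') continuous_const * eul hW' hσ' := by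
  have hτ : Continuous (⟨fun x => (0, σ' x), fun g x => Prod.ext (smul_zero g).symm
    (σ'.map_smul g x)⟩ : X →[G] W'' × W') := continuous_const.prodMk hσ'
  rw [← eul_prod hW'' hW' continuous_const hσ' hτ fun _ => rfl]
  exact (eul_iso _ hW hτ hσ L hL hLb hLe hLσ hr).symm

/-- Thom isomorphism for `X ≅ Z × W` -/
theorem gy_eul_bijective (hW : IsRep G W r) {p : X →[G] Z} {κ : X →[G] W}
    (h : IsHomeomorph fun x => (p x, κ x)) (hκ : Continuous κ) {s : Z →[G] X}
    (hs : ∀ z, p (s z) = z) (hs' : ∀ z, κ (s z) = 0) :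
    IsClosedEmbedding s ∧ κ ⁻¹' {0} ⊆ range s ∧ Bijective (gy s (eul hW hκ)) := by
  haveI := hW.nice
  have e : (s : Z → X) = h.homeomorph.symm ∘ fun z => (z, 0) := funext fun z =>
    h.homeomorph.injective (by
      rw [comp_apply, Homeomorph.apply_symm_apply]
      exact Prod.ext (hs z) (hs' z))
  have h1 : IsClosedEmbedding s := by
    rw [e]
    exact h.homeomorph.symm.isClosedEmbedding.comp 
      ⟨isEmbedding_prodMkLeft 0, by
        rw [show range (fun z : Z => (z, (0 : W))) = Prod.snd ⁻¹' {0} from Set.ext fun x =>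
          ⟨by rintro ⟨z, rfl⟩; rfl, fun hx => ⟨x.1, Prod.ext rfl (Eq.symm hx)⟩⟩]
        exact isClosed_singleton.preimage continuous_snd⟩
  have h2 : κ ⁻¹' {0} ⊆ range s := fun x hx =>
    ⟨p x, h.injective (Prod.ext (hs _) ((hs' _).trans (mem_singleton_iff.1 hx).symm))⟩
  refine ⟨h1, h2, ?_⟩
  rw [gy_eul hW hκ h1 h2]
  exact egys_bijective h1 ((isCoc_eul hW hκ).mono h2) (cgys_eul_bijective hW h hs hs')

/-- Euler classes under level maps -/
theorem lp_eul {V W₁ : Type} [TopologicalSpace V] [MulAction G' V] [Nice V] [ContinuousSMul G' V]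
    [AddCommGroup W₁] [Module ℂ W₁] [TopologicalSpace W₁] [DistribMulAction G' W₁]
    (hW : IsRep G W r) (hW₁ : IsRep G' W₁ r) (φ : G →* G') {b : X → V}
    {e : ∀ M, Sys.P G M → Sys.P G' M}
    (hf : ∀ M (h : G) (x : X × Sys.P G M), (b (h • x).1, e M (h • x).2) = φ h • (b x.1, e M x.2))
    (hb : Continuous b) (he : ∀ M, Continuous (e M))
    (h : IsCov (fun M => Bor.map φ (fun x => (b x.1, e M x.2)) (hf M)) b)
    {σ : X →[G] W} (hσ : Continuous σ) {σ₁ : V →[G'] W₁} (hσ₁ : Continuous σ₁)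
    (L : W →ₗ[ℂ] W₁) (hLb : Bijective L) (hLe : ∀ (h : G) w, L (h • w) = φ h • L w)
    (hLσ : ∀ x, L (σ x) = σ₁ (b x)) : lp h (eul hW₁ hσ₁) = eul hW hσ := by
  have h1 : b ⁻¹' (σ₁ ⁻¹' {0}) = σ ⁻¹' {0} := Set.ext fun x => by
    rw [mem_preimage, mem_preimage, mem_preimage, ← hLσ, mem_singleton_iff, mem_singleton_iff,
      map_eq_zero_iff _ hLb.1]
  refine mk_eq h1 rfl fun M => ?_
  refine (euler_pull hW hW₁ φ (hf M) ((hb.comp continuous_fst).prodMk ((he M).comp continuous_snd))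
    (fun h x => σ.map_smul h x.1) (hσ.comp continuous_fst) (fun h x => σ₁.map_smul h x.1)
    (hσ₁.comp continuous_fst) (fun _ => L) ((hW.continuous_linear hW₁ L).comp continuous_snd)
    (fun _ => hLb) (fun h _ w => hLe h w) fun x => hLσ x.1).mono ?_
  rintro _ ⟨y, hy, rfl⟩
  exact ⟨y, h1.symm.subset hy, rfl⟩

variable {V : SubMulAction G (X × W)}

/-- the Thom class -/
noncomputable def tho [Nice V] [ContinuousSMul G V] (hW : IsRep G W r') (hV : IsSubVB V r)
    (h0 : ∀ z, (z, 0) ∈ V) : CQ G V := mk (range_inv (zs V h0)) (isCoc_tho hW hV h0)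

theorem gy_tho [Nice V] [ContinuousSMul G V] (hW : IsRep G W r') (hV : IsSubVB V r)
    (h0 : ∀ z, (z, 0) ∈ V) : gy (zs V h0) (tho hW hV h0) = egys (zs V h0) (P291Z.tho V) :=
  gy_mk (IsSubVB.isClosedEmbedding_zs hW h0) _ _ subset_rfl

end eul

section lev

variable {V V' : Type} [TopologicalSpace V] [MulAction G' V] [Nice V] [ContinuousSMul G' V]
  [TopologicalSpace V'] [MulAction G' V'] [Nice V'] [ContinuousSMul G' V']

/-- base change for proper level maps -/
theorem gy_lpush {F : ∀ M, Bq G X M → Bq G' V M} {b : X → V} (h : IsCov F b) {c : ℤ}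
    (hF : IsLev F c) (hp : ∀ M, IsPr (F M)) {F' : ∀ M, Bq G Y M → Bq G' V' M} (hF' : IsLev F' c)
    (hp' : ∀ M, IsPr (F' M)) {i : Y →[G] X} (hi : IsClosedEmbedding i) {i' : V' →[G'] V}
    (hi' : IsClosedEmbedding i') (hsq : ∀ M y, F M (smap i M y) = smap i' M (F' M y))
    (hr : b ⁻¹' range i' ⊆ range i) {x : CQ G' V} (hx : x.supp ⊆ range i') (z : EH G X) :
    gy i' x (lpush F z) = lpush F' (gy i (lp h x) z) := by
  induction x using CQ.ind with
  | h A hA d t ht =>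
    have h1 : b ⁻¹' A ⊆ range i := (preimage_mono hx).trans hr
    rw [gy_mk hi' hA ht hx, lp_mk, gy_mk hi _ _ h1]
    refine EH.ext fun M => ?_
    rw [egys_apply hi' (ht.mono hx), lpush_apply hF hp, lpush_apply hF' hp',
      egys_apply hi ((ht.lp h hA).mono h1)]
    refine gys_push (isClosedEmbedding_smap hi' M) (isClosedEmbedding_smap hi M) (hp M) (hp' M)
      (hsq M) ?_ (ht.cocycle M) ((ht.mono hx).isCo M).supp _
    rw [range_smap, range_smap]
    exact (h.pre (range_inv i') M).trans (bset_mono hr M)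

end lev

section prod

variable {G₁ G₂ : Type} [Group G₁] [TopologicalSpace G₁] [Sys G₁] [Group G₂] [TopologicalSpace G₂]
  [Sys G₂] (S : SysProd G G₁ G₂) {Z₁ Z₂ Y₁ Y₂ : Type} [TopologicalSpace Z₁] [MulAction G₁ Z₁]
  [Nice Z₁] [ContinuousSMul G₁ Z₁] [TopologicalSpace Z₂] [MulAction G₂ Z₂] [Nice Z₂]
  [ContinuousSMul G₂ Z₂] [TopologicalSpace Y₁] [MulAction G₁ Y₁] [Nice Y₁] [ContinuousSMul G₁ Y₁]
  [TopologicalSpace Y₂] [MulAction G₂ Y₂] [Nice Y₂] [ContinuousSMul G₂ Y₂]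

theorem isCov₁ {b : X → Z₁} (hb : ∀ (g : G) y, b (g • y) = S.π₁ g • b y) (hc : Continuous b) :
    IsCov (S.p₁ b hb) b :=
  ⟨S.continuous_p₁ hb hc, S.comm₁ hb, fun g x => ⟨_, hb g x⟩, fun _ _ _ => ⟨_, rfl⟩⟩

theorem isCov₂ {b : X → Z₂} (hb : ∀ (g : G) y, b (g • y) = S.π₂ g • b y) (hc : Continuous b) :
    IsCov (S.p₂ b hb) b :=
  ⟨S.continuous_p₂ hb hc, S.comm₂ hb, fun g x => ⟨_, hb g x⟩, fun _ _ _ => ⟨_, rfl⟩⟩

/-- pull-back from the first factor -/
noncomputable def pl₁ {b : X → Z₁} (hb : ∀ (g : G) y, b (g • y) = S.π₁ g • b y)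
    (hc : Continuous b) : CQ G₁ Z₁ →* CQ G X := lp (isCov₁ S hb hc)

/-- pull-back from the second factor -/
noncomputable def pl₂ {b : X → Z₂} (hb : ∀ (g : G) y, b (g • y) = S.π₂ g • b y)
    (hc : Continuous b) : CQ G₂ Z₂ →* CQ G X := lp (isCov₂ S hb hc)

section one

variable {b : X → Z₁} (hb : ∀ (g : G) y, b (g • y) = S.π₁ g • b y) (hc : Continuous b)

@[simp] theorem supp_pl₁ (x : CQ G₁ Z₁) : (pl₁ S hb hc x).supp = b ⁻¹' x.supp := supp_lp _ x

theorem pull_pl₁ {f : Y →[G] X} (hf : Continuous f) {b' : Y → Z₁}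
    (hb' : ∀ (g : G) y, b' (g • y) = S.π₁ g • b' y) (hc' : Continuous b')
    (e : ∀ y, b' y = b (f y)) (x : CQ G₁ Z₁) : pull hf (pl₁ S hb hc x) = pl₁ S hb' hc' x :=
  lp_lp (isCov_smap hf) (isCov₁ S hb hc) (isCov₁ S hb' hc') (fun M y => by
    obtain ⟨y, rfl⟩ := Bor.mk_surjective y
    exact congrArg (fun z => Bor.mk G₁ (z, S.e₁ M y.2)) (e y.1)) e x

theorem pl₁_pull {f : Z₁ →[G₁] Y₁} (hf : Continuous f) {b' : X → Y₁}
    (hb' : ∀ (g : G) y, b' (g • y) = S.π₁ g • b' y) (hc' : Continuous b')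
    (e : ∀ y, b' y = f (b y)) (x : CQ G₁ Y₁) : pl₁ S hb hc (pull hf x) = pl₁ S hb' hc' x :=
  lp_lp (isCov₁ S hb hc) (isCov_smap hf) (isCov₁ S hb' hc') (fun M y => by
    obtain ⟨y, rfl⟩ := Bor.mk_surjective y
    exact congrArg (fun z => Bor.mk G₁ (z, S.e₁ M y.2)) (e y.1)) e x

theorem HasCls.pl₁ {x : CQ G₁ Z₁} {r : HS G₁ Unit} (h : HasCls x r) :
    HasCls (pl₁ S hb hc x) (S.r₁ r) :=
  h.lp _ (fun M y => by obtain ⟨y, rfl⟩ := Bor.mk_surjective y; rfl) (S.r₁_apply r)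

theorem pl₁_eul {W W₁ : Type} [AddCommGroup W] [Module ℂ W] [TopologicalSpace W]
    [DistribMulAction G W] [AddCommGroup W₁] [Module ℂ W₁] [TopologicalSpace W₁]
    [DistribMulAction G₁ W₁] {r : ℕ} (hW : IsRep G W r) (hW₁ : IsRep G₁ W₁ r)
    {σ : X →[G] W} (hσ : Continuous σ) {σ₁ : Z₁ →[G₁] W₁} (hσ₁ : Continuous σ₁)
    (L : W →ₗ[ℂ] W₁) (hLb : Bijective L) (hLe : ∀ (h : G) w, L (h • w) = S.π₁ h • L w)
    (hLσ : ∀ x, L (σ x) = σ₁ (b x)) : pl₁ S hb hc (eul hW₁ hσ₁) = eul hW hσ :=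
  lp_eul hW hW₁ S.π₁ (fun M g x => Prod.ext (hb g x.1) (S.e₁_smul M g x.2)) hc S.continuous_e₁
    (isCov₁ S hb hc) hσ hσ₁ L hLb hLe hLσ

end one

section two

variable {b : X → Z₂} (hb : ∀ (g : G) y, b (g • y) = S.π₂ g • b y) (hc : Continuous b)

@[simp] theorem supp_pl₂ (x : CQ G₂ Z₂) : (pl₂ S hb hc x).supp = b ⁻¹' x.supp := supp_lp _ x

theorem pull_pl₂ {f : Y →[G] X} (hf : Continuous f) {b' : Y → Z₂}
    (hb' : ∀ (g : G) y, b' (g • y) = S.π₂ g • b' y) (hc' : Continuous b')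
    (e : ∀ y, b' y = b (f y)) (x : CQ G₂ Z₂) : pull hf (pl₂ S hb hc x) = pl₂ S hb' hc' x :=
  lp_lp (isCov_smap hf) (isCov₂ S hb hc) (isCov₂ S hb' hc') (fun M y => by
    obtain ⟨y, rfl⟩ := Bor.mk_surjective y
    exact congrArg (fun z => Bor.mk G₂ (z, S.e₂ M y.2)) (e y.1)) e x

theorem pl₂_pull {f : Z₂ →[G₂] Y₂} (hf : Continuous f) {b' : X → Y₂}
    (hb' : ∀ (g : G) y, b' (g • y) = S.π₂ g • b' y) (hc' : Continuous b')
    (e : ∀ y, b' y = f (b y)) (x : CQ G₂ Y₂) : pl₂ S hb hc (pull hf x) = pl₂ S hb' hc' x :=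
  lp_lp (isCov₂ S hb hc) (isCov_smap hf) (isCov₂ S hb' hc') (fun M y => by
    obtain ⟨y, rfl⟩ := Bor.mk_surjective y
    exact congrArg (fun z => Bor.mk G₂ (z, S.e₂ M y.2)) (e y.1)) e x

theorem HasCls.pl₂ {x : CQ G₂ Z₂} {r : HS G₂ Unit} (h : HasCls x r) :
    HasCls (pl₂ S hb hc x) (S.r₂ r) :=
  h.lp _ (fun M y => by obtain ⟨y, rfl⟩ := Bor.mk_surjective y; rfl) (S.r₂_apply r)

theorem pl₂_eul {W W₂ : Type} [AddCommGroup W] [Module ℂ W] [TopologicalSpace W]
    [DistribMulAction G W] [AddCommGroup W₂] [Module ℂ W₂] [TopologicalSpace W₂]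
    [DistribMulAction G₂ W₂] {r : ℕ} (hW : IsRep G W r) (hW₂ : IsRep G₂ W₂ r)
    {σ : X →[G] W} (hσ : Continuous σ) {σ₂ : Z₂ →[G₂] W₂} (hσ₂ : Continuous σ₂)
    (L : W →ₗ[ℂ] W₂) (hLb : Bijective L) (hLe : ∀ (h : G) w, L (h • w) = S.π₂ h • L w)
    (hLσ : ∀ x, L (σ x) = σ₂ (b x)) : pl₂ S hb hc (eul hW₂ hσ₂) = eul hW hσ :=
  lp_eul hW hW₂ S.π₂ (fun M g x => Prod.ext (hb g x.1) (S.e₂_smul M g x.2)) hc S.continuous_e₂
    (isCov₂ S hb hc) hσ hσ₂ L hLb hLe hLσ

end two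

/-- Gysin maps and cross products -/
theorem gy_cross {b₁ : X → Z₁} (hb₁ : ∀ (g : G) y, b₁ (g • y) = S.π₁ g • b₁ y) {b₂ : X → Z₂}
    (hb₂ : ∀ (g : G) y, b₂ (g • y) = S.π₂ g • b₂ y) (hb : IsHomeomorph fun y => (b₁ y, b₂ y))
    (k₁ : Continuous b₁) (k₂ : Continuous b₂)
    {c₁ : Y → Y₁} (hc₁ : ∀ (g : G) y, c₁ (g • y) = S.π₁ g • c₁ y) {c₂ : Y → Y₂}
    (hc₂ : ∀ (g : G) y, c₂ (g • y) = S.π₂ g • c₂ y) (hc : IsHomeomorph fun y => (c₁ y, c₂ y))
    {f : Y →[G] X} {f₁ : Y₁ →[G₁] Z₁} {f₂ : Y₂ →[G₂] Z₂} (h₁ : ∀ y, b₁ (f y) = f₁ (c₁ y))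
    (h₂ : ∀ y, b₂ (f y) = f₂ (c₂ y)) (e₁ : IsClosedEmbedding f₁) (e₂ : IsClosedEmbedding f₂)
    {x₁ : CQ G₁ Z₁} {x₂ : CQ G₂ Z₂} (hx₁ : x₁.supp ⊆ range f₁) (hx₂ : x₂.supp ⊆ range f₂)
    (z₁ : EH G₁ Z₁) (z₂ : EH G₂ Z₂) :
    gy f (pl₁ S hb₁ k₁ x₁ * pl₂ S hb₂ k₂ x₂) (S.cross hb₁ hb₂ z₁ z₂) =
      S.cross hc₁ hc₂ (gy f₁ x₁ z₁) (gy f₂ x₂ z₂) := by
  induction x₁ using CQ.ind with
  | h A hA d s hs =>
  induction x₂ using CQ.ind with
  | h B hB d' t ht =>
    have e := SysProd.map_eq hb hc h₁ h₂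
    have hf : IsClosedEmbedding f := by
      rw [e]
      exact hb.homeomorph.symm.isClosedEmbedding.comp ((e₁.prodMap e₂).comp hc.isClosedEmbedding)
    have h3 : b₁ ⁻¹' A ∩ b₂ ⁻¹' B ⊆ range f := by
      rintro x ⟨h1, h2⟩
      obtain ⟨y₁, k₁⟩ := hx₁ h1
      obtain ⟨y₂, k₂⟩ := hx₂ h2
      obtain ⟨y, hy⟩ := hc.surjective (y₁, y₂)
      refine ⟨y, hb.injective (Prod.ext ?_ ?_)⟩
      · exact (h₁ y).trans ((congrArg (fun p => f₁ p.1) hy).trans k₁)
      · exact (h₂ y).trans ((congrArg (fun p => f₂ p.2) hy).trans k₂)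
    rw [pl₁, pl₂, lp_mk, lp_mk, mk_mul, gy_mk hf _ _ h3, gy_mk e₁ hA hs hx₁, gy_mk e₂ hB ht hx₂]
    exact S.egys_cross hb₁ hb₂ hb hc₁ hc₂ hc h₁ h₂ e₁ e₂ (hs.mono hx₁) (ht.mono hx₂) z₁ z₂

end prod

end CQ

end Vale.Agent.P291Z
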