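import Vale.Agent.P291Z.C.CCell

/-!
# The abelianization map: the Weyl group
-/

set_option linter.unusedSectionVars false

namespace Vale.Agent.P291Z

open Set Function Topology MvPolynomial Quiv Lt Vale.Agent.P291 Vale.Agent.P291.Hik

section alg

variable {B Λ : Type*} [Fintype B] [DecidableEq B] [CommRing Λ] [IsDomain Λ] (σ : Equiv.Perm B)

theorem lact_lact_inv (μ : B → ℤ) : lact σ (lact σ⁻¹ μ) = μ := funext fun b => by
  simp [lact]

theorem lact_inj {μ ν : B → ℤ} (h : lact σ μ = lact σ ν) : μ = ν := funext fun c => by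
  simpa [lact] using congrFun h (σ c)

theorem coeff_gact (z : AA B Λ) (μ : B → ℤ) :
    (P291.gact σ z).coeff (lact σ μ) = P291.act σ (z.coeff μ) := by
  classical
  rw [P291.gact, Finsupp.sum, AddMonoidAlgebra.coeff_sum, Finsupp.finsetSum_apply,
    Finset.sum_eq_single μ]
  · rw [AddMonoidAlgebra.coeff_single, Finsupp.single_eq_same]
  · intro ν _ h
    rw [AddMonoidAlgebra.coeff_single, Finsupp.single_eq_of_ne fun e => h (lact_inj σ e).symm]
  · intro h
    rw [Finsupp.notMem_support_iff.1 h, map_zero, AddMonoidAlgebra.coeff_single,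
      Finsupp.single_zero, Finsupp.zero_apply]

theorem gact_single (μ : B → ℤ) (c : P291.KK B Λ) :
    P291.gact σ (AddMonoidAlgebra.single μ c) =
      AddMonoidAlgebra.single (lact σ μ) (P291.act σ c) := by
  rw [P291.gact, AddMonoidAlgebra.coeff_single, Finsupp.sum_single_index]
  rw [map_zero, AddMonoidAlgebra.single_zero]

theorem eq_of_coeff_lact {z z' : AA B Λ}
    (h : ∀ μ, z.coeff (lact σ μ) = z'.coeff (lact σ μ)) : z = z' :=
  AddMonoidAlgebra.ext (Finsupp.ext fun μ => by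
    rw [← lact_lact_inv σ μ]
    exact h _)

end alg

variable {I E : Type} {Q : Quiv I E} {Φ : Type} [Fintype Φ] [Fintype I] [Fintype E] [DecidableEq I]

theorem wG_smul_smul {J : Type} [Fintype J] {n : J → ℕ} {Z : Type} [TopologicalSpace Z]
    [MulAction (GG n) Z] [MulAction (Tc n) Z] [IsScalarTower (Tc n) (GG n) Z] (w : Wy n) (t : Tc n)
    (z : Z) : wG w • t • z = wT w t • wG w • z := by
  rw [smulT_eq, smulT_eq, toG_wT, smul_smul, smul_smul, inv_mul_cancel_right]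

theorem wG_Lmu (w : Wy (Q.nn Φ)) (μ : Col Q → ℤ) :
    wG w • Lmu μ = Lmu (lact (Q.qd.act (wyG w)) μ) := wG_smul_Lmu w μ

theorem lact_mem_Box {n : ℕ} {χ : I → ℤ} (σ : Q.qd.Wy) {μ : Col Q → ℤ} :
    lact (Q.qd.act σ) μ ∈ Box Q n χ ↔ μ ∈ Box Q n χ := by
  refine and_congr ⟨fun h c => ?_, fun h c => h _⟩ (forall_congr' fun i => ?_)
  · simpa [lact] using h (Q.qd.act σ c)
  · exact Eq.congr_left (Equiv.sum_comp (σ i).symm fun a => μ ⟨i, a⟩)

namespace Flav

variable {A : Flav Q Φ} {n : ℕ} {χ : I → ℤ} {d : ℕ} (W : Wts A)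

theorem ev_wact (w : Wy (Q.nn Φ)) (μ : Col Q → ℤ) (z : EH (Tc (Q.nn Φ)) (A.RS n χ d)) :
    A.ev n χ d (lact (Q.qd.act (wyG w)) μ) (lpush (wact _ w) z) =
      Wy.sgn w • rename (Wy.perm w) (A.ev n χ d μ z) := by
  by_cases hμ : μ ∈ Box Q n χ
  swap
  · rw [ev_of_not_mem hμ, ev_of_not_mem fun h => hμ ((lact_mem_Box _).1 h), map_zero, smul_zero]
  have hν := (lact_mem_Box (wyG w)).2 hμ
  have hf := wG_smul_smul (Z := A.RS n χ d) w
  have hp := TS.isPr_wG (Z := A.RS n χ d) w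
  have e : wG w • A.oE d hμ () = A.oE d hν () :=
    RS.ext (wG_Lmu w μ) fun _ _ => smul_zero (wG w)
  have hl : ∀ x : A.RS n χ d, (wG w • x).1.1 = Lmu (lact (Q.qd.act (wyG w)) μ) →
      x.1.1 = Lmu μ := fun x h => smul_left_cancel (wG w) (h.trans (wG_Lmu w μ).symm)
  have h1 := CQ.coT_gy_wmap w hf hp.cont hp e (fun x hx => by
    obtain ⟨h, h'⟩ := (mem_range_oE hν).1 hx
    exact (mem_range_oE hμ).2 ⟨hl x h, smul_left_cancel (wG w)
      (((A.sF n χ d).map_smul _ x).symm.trans (h'.trans (smul_zero _).symm))⟩)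
    (x := A.tR n χ d _ * A.eS n χ d) (by
      rw [CQ.supp_mul, supp_tR hν.1, supp_eS]
      exact fun x hx => (mem_range_oE hν).2 hx) z
  have h2 : CQ.plW w hf hp.cont (A.eS n χ d) = A.eS n χ d := by
    have := (A.isRep_sF d).comm
    exact CQ.plW_eul w hf hp.cont _ _ _ _ (DistribSMul.toLinearMap ℂ _ (wG w))
      (MulAction.bijective _) (wG_smul_smul w) fun x => ((A.sF n χ d).map_smul _ x).symm
  have h3 := ev_swap hμ (u := CQ.plW w hf hp.cont (A.tR n χ d (lact (Q.qd.act (wyG w)) μ)))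
    (e := eN Q Φ n) (by
      rw [CQ.supp_plW, supp_tR hν.1]
      exact hl) (by
      rw [CQ.pull_plW w hf hp.cont (g := (id : Unit → Unit)) (fun _ _ => rfl) continuous_id _
        (CQ.isClosedEmbedding_pt (A.oE d hν)).continuous fun _ => e]
      refine CQ.HasCls.plW w _ _ ?_
      rw [rename_eN, tR, CQ.pull_pull (f := A.oE d hν) (g := toT (A.blE n χ d)) _ _
        (k := (toT (A.blE n χ d)).comp (A.oE d hν)) continuous_of_discreteTopology fun _ => rfl]
      exact hasCls_tl _ (fun _ => rfl) hν.1) z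
  rw [map_mul, h2] at h1
  rw [ev_apply hν, mul_left_cancel₀ eN_ne h3]
  exact h1

theorem PhiT_wact (w : Wy (Q.nn Φ)) (z : EH (Tc (Q.nn Φ)) (A.RS n χ d)) :
    PhiT n χ d W (lpush (wact _ w) z) =
      Wy.sgn w • P291.gact (Q.qd.act (wyG w)) (PhiT n χ d W z) := by
  refine eq_of_coeff_lact (Q.qd.act (wyG w)) fun μ => ?_
  rw [AddMonoidAlgebra.coeff_smul, Finsupp.smul_apply, coeff_gact, coeff_PhiT, coeff_PhiT,
    evK_apply, evK_apply, ev_wact, sK_smul, sK_rename, map_div₀, map_mul, act_mK,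
    ← sK_rename w (eN Q Φ n), rename_eN, mul_smul_comm, smul_div_assoc]

theorem gact_PhiG {σ : Equiv.Perm Q.qd.Col} (hσ : σ ∈ (cq Q W.χ).W)
    (β : EH (GG (Q.nn Φ)) (A.RS n χ d)) : P291.gact σ (PhiG n χ d W β) = PhiG n χ d W β := by
  obtain ⟨σ, rfl⟩ := exists_act Q.qd _ hσ
  obtain ⟨w, rfl⟩ := (wyG_bijective (Φ := Φ)).2 σ
  have h := PhiT_wact W w (resT β)
  rw [wact_resT, map_smul] at h
  rw [PhiG_apply, ← one_smul ℂ (P291.gact _ _), ← TS.sgn_mul_self w, mul_smul, ← h, smul_smul,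
    TS.sgn_mul_self, one_smul]

theorem exists_PhiG_sum (hd : 2 * n ≤ d) {μ : Col Q → ℤ} (hμ : μ ∈ Box Q n χ) (g : SP (Q.nn Φ)) :
    ∃ β, PhiG n χ d W β = ∑ w : Wy (Q.nn Φ), AddMonoidAlgebra.single (lact (Q.qd.act (wyG w)) μ)
      (P291.act (Q.qd.act (wyG w)) (sK Q Φ (rhoS W.χ μ * g) / sK Q Φ (Del (Q.nn Φ)))) := by
  obtain ⟨z, hz⟩ := exists_PhiT_single W hd hμ g
  have hD : sK Q Φ (Del (Q.nn Φ)) ≠ 0 := fun h =>
    TS.Del_ne_zero (sK_injective (h.trans (map_zero _).symm))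
  refine ⟨trT z, AddMonoidAlgebra.ext (Finsupp.ext fun ν => mul_left_cancel₀ hD ?_)⟩
  have h := congrArg (fun y => (PhiT n χ d W y).coeff ν) (resT_trT z)
  simp only [PhiT_smul, map_sum, PhiT_wact, hz, gact_single, QD.cst,
    AddMonoidAlgebra.coeff_single_zero_mul] at h
  refine h.trans ?_
  simp only [AddMonoidAlgebra.coeff_sum, Finsupp.finsetSum_apply, Finset.mul_sum]
  refine Finset.sum_congr rfl fun w _ => ?_
  have h1 : sK Q Φ (Del (Q.nn Φ)) * P291.act (Q.qd.act (wyG w))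
      (sK Q Φ (rhoS W.χ μ * g) / sK Q Φ (Del (Q.nn Φ))) =
      Wy.sgn w • P291.act (Q.qd.act (wyG w)) (sK Q Φ (rhoS W.χ μ * g)) := by
    have h2 : Wy.sgn w • Wy.sgn w • sK Q Φ (Del (Q.nn Φ)) = sK Q Φ (Del (Q.nn Φ)) := by
      rw [smul_smul, TS.sgn_mul_self, one_smul]
    rw [map_div₀, ← sK_rename w (Del _), TS.rename_Del, sK_smul, ← mul_div_assoc, div_eq_iff
      fun h => hD (by rw [← h2, h, smul_zero]), smul_mul_assoc, ← mul_smul_comm, h2, mul_comm]
  rw [AddMonoidAlgebra.coeff_smul, AddMonoidAlgebra.coeff_single, AddMonoidAlgebra.coeff_single,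
    Finsupp.smul_single, ← h1, ← smul_eq_mul, ← Finsupp.smul_single, Finsupp.smul_apply,
    smul_eq_mul]

end Flav

end Vale.Agent.P291Z
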