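import Vale.Agent.P291Z.C.CAlg
import Vale.Agent.P291Z.C.CCmp
import Vale.Agent.P291Z.C.CWeq
import Vale.Agent.P291Z.CAB
import Vale.Agent.P291Z.Conv2

/-!
# The abelianization map on `A_F`
-/

set_option linter.all false

namespace Vale.Agent.P291Z

open Set Function Topology MvPolynomial Quiv Lt Vale.Agent.P291 Vale.Agent.P291.Hik

variable {I E : Type} {Q : Quiv I E} {Φ : Type} [Fintype Φ] [Fintype I] [Fintype E]

/-- the charge of a cocharacter -/
def chg (μ : Col Q → ℤ) (i : I) : ℤ := ∑ a, μ ⟨i, a⟩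

theorem exists_mem_Box (μ : Col Q → ℤ) : ∃ n, μ ∈ Box Q n (chg μ) :=
  ⟨Finset.univ.sup fun c => (μ c).natAbs, fun c => by
    rw [Int.abs_eq_natAbs, Nat.cast_le]
    exact Finset.le_sup (f := fun c => (μ c).natAbs) (Finset.mem_univ c), fun _ => rfl⟩

namespace Flav

variable {A : Flav Q Φ} {n n' : ℕ} {χ χ' : I → ℤ} {d d' : ℕ} {k k' : ℤ}

theorem RR.induction {P : RR Q Φ → Prop} (r : RR Q Φ) (h0 : P 0)
    (hadd : ∀ a b, P a → P b → P (a + b)) (h : ∀ k r, r.1 ∈ HGdeg _ _ k → P r) : P r := by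
  let e := LinearEquiv.ofBijective
    (LinearMap.toSpanSingleton (HS (GG (Q.nn Φ)) Unit) _ (fundE (Q.nn Φ))) (fundE_free _)
  refine (congrArg P (e.symm_apply_apply r)).mp ?_
  refine EH.induction (P := fun z => P (e.symm z)) _ (by rwa [map_zero])
    (fun a b ha hb => by rw [map_add]; exact hadd _ _ ha hb) fun k z hz => h (-k) _ ?_
  exact smul_fundE_deg.1 ((e.apply_symm_apply z).symm ▸ hz :)

theorem An.induction (hd : 2 * n ≤ d) {P : EH (GG (Q.nn Φ)) (A.RS n χ d) → Prop} (z) (h0 : P 0)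
    (hadd : ∀ a b, P a → P b → P (a + b)) (h : ∀ k (β : A.An n χ k), P (An.at d hd β)) : P z :=
  EH.induction z h0 hadd fun j z hz => by
    obtain ⟨β, rfl⟩ := An.exists_at (k := j - 2 * Q.idx χ - 2 * d * Q.dimN) hd
      (by rwa [show j - 2 * Q.idx χ - 2 * d * Q.dimN + 2 * Q.idx χ + 2 * d * Q.dimN = j by ring])
    exact h _ β

theorem exists_clsE (hd : 2 * n ≤ d) : ∃ ψ : EH (GG (Q.nn Φ)) (A.RS n χ d) →ₗ[ℂ] A.AA,
    ∀ k (β : A.An n χ k), ψ (An.at d hd β) = cls β := by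
  classical
  let D := LinearEquiv.ofBijective (DirectSum.coeLinearMap _)
    (EH.isInternal (G := GG (Q.nn Φ)) (Z := A.RS n χ d))
  have h1 : ∀ j : ℤ, j = j - 2 * Q.idx χ - 2 * d * Q.dimN + 2 * Q.idx χ + 2 * d * Q.dimN :=
    fun j => by ring
  have h2 : ∀ k k' (β : A.An n χ k) (β' : A.An n χ k'), k' = k → An.at d hd β' = An.at d hd β →
      cls β' = cls β := by
    rintro k _ β β' rfl h
    rw [An.at_injective hd h]
  refine ⟨DirectSum.toModule ℂ ℤ _ (fun j => clsL ∘ₗ (A.anE χ _ hd).symm.toLinearMap ∘ₗ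
    Submodule.inclusion (congrArg (EH.deg _ _) (h1 j)).le) ∘ₗ D.symm.toLinearMap, fun k β => ?_⟩
  have : D.symm (An.at d hd β) = DirectSum.lof ℂ ℤ _ _ (A.anE χ k hd β) :=
    D.symm_apply_eq.2 (DirectSum.coeLinearMap_lof _ _ (A.anE χ k hd β)).symm
  refine (congrArg _ this).trans ((DirectSum.toModule_lof _ _ _).trans (h2 k _ β _ (by ring) ?_))
  exact (at_anE_symm hd _).trans (anE_val hd β)

/-- the class in `A_F` of a class of a truncation -/
noncomputable def clsE (hd : 2 * n ≤ d) : EH (GG (Q.nn Φ)) (A.RS n χ d) →ₗ[ℂ] A.AA :=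
  (exists_clsE hd).choose

theorem clsE_at (hd : 2 * n ≤ d) (β : A.An n χ k) : clsE hd (An.at d hd β) = cls β :=
  (exists_clsE hd).choose_spec k β

theorem AA.exists_sumE (a : A.AA) : ∃ (n : ℕ) (s : Finset (I → ℤ))
    (z : ∀ χ, EH (GG (Q.nn Φ)) (A.RS n χ (2 * n))),
      a = ∑ χ ∈ s, clsE le_rfl (z χ) ∧ ∀ χ ∉ s, z χ = 0 := by
  classical
  obtain ⟨n, h⟩ := AA.exists_sum a
  obtain ⟨s, β, rfl⟩ := h n le_rfl
  refine ⟨n, s.image Prod.fst, ∑ x ∈ s, Pi.single x.1 (An.at _ le_rfl (β x)), ?_, fun χ h => ?_⟩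
  · simp only [Finset.sum_apply, map_sum]
    rw [Finset.sum_comm]
    refine Finset.sum_congr rfl fun x hx => ?_
    rw [Finset.sum_eq_single_of_mem x.1 (Finset.mem_image_of_mem _ hx) fun χ _ h => by
      rw [Pi.single_eq_of_ne h, map_zero], Pi.single_eq_same, clsE_at]
  · rw [Finset.sum_apply]
    exact Finset.sum_eq_zero fun x hx => Pi.single_eq_of_ne
      (fun e => h (Finset.mem_image.2 ⟨x, hx, e.symm⟩)) _

variable [DecidableEq I] (W : Wts A)

/-- the abelianization map -/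
noncomputable def PhiA : A.AA →ₗ[ℂ] AF Q Φ :=
  AA.lift (fun n χ _ => PhiG n χ (2 * n) W ∘ₗ An.at (2 * n) le_rfl) fun n χ k β =>
    (congrArg _ (An.at_up le_rfl β)).trans ((PhiG_incN W _).trans (PhiG_at W _ _ β))

theorem PhiA_cls (hd : 2 * n ≤ d) (β : A.An n χ k) :
    PhiA W (cls β) = PhiG n χ d W (An.at d hd β) :=
  (AA.lift_cls _ _ β).trans (PhiG_at W _ _ β)

theorem PhiA_clsE (hd : 2 * n ≤ d) (z : EH (GG (Q.nn Φ)) (A.RS n χ d)) :
    PhiA W (clsE hd z) = PhiG n χ d W z :=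
  An.induction hd (P := fun z => PhiA W (clsE hd z) = PhiG n χ d W z) z
    (by rw [map_zero, map_zero, map_zero])
    (fun a b ha hb => by rw [map_add, map_add, map_add, ha, hb])
    fun k β => by rw [clsE_at, PhiA_cls W hd]

theorem coeff_PhiG_of_ne {μ : Col Q → ℤ} (h : chg μ ≠ χ) (z : EH (GG (Q.nn Φ)) (A.RS n χ d)) :
    (PhiG n χ d W z).coeff μ = 0 :=
  by_contra fun e => h (funext (mem_Box_of_coeff W e).2)

theorem exists_rep (a : A.AA) : ∃ (n : ℕ) (z : ∀ χ, EH (GG (Q.nn Φ)) (A.RS n χ (2 * n))),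
    (∀ μ χ, chg μ = χ → (PhiA W a).coeff μ = (PhiG n χ (2 * n) W (z χ)).coeff μ) ∧
      ((∀ χ, z χ = 0) → a = 0) := by
  obtain ⟨n, s, z, rfl, h⟩ := AA.exists_sumE a
  refine ⟨n, z, ?_, fun h => Finset.sum_eq_zero fun χ _ => by rw [h, map_zero]⟩
  rintro μ _ rfl
  simp only [map_sum, PhiA_clsE, AddMonoidAlgebra.coeff_sum, Finsupp.finset_sum_apply]
  exact Finset.sum_eq_single _ (fun χ _ e => coeff_PhiG_of_ne W e.symm _)
    fun e => by rw [h _ e, map_zero]; rfl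

theorem PhiA_injective : Injective (PhiA W) := by
  refine (injective_iff_map_eq_zero _).2 fun a ha => ?_
  obtain ⟨n, z, h1, h2⟩ := exists_rep W a
  refine h2 fun χ => PhiG_injective W le_rfl (AddMonoidAlgebra.ext (Finsupp.ext fun μ => ?_))
  rw [map_zero]
  by_cases h : chg μ = χ
  · rw [← h1 μ χ h, ha]
  · exact coeff_PhiG_of_ne W h _

theorem PhiA_coefA (r : RR Q Φ) : PhiA W (A.coefA r) = QD.cst (psi Q Φ r) := by
  refine RR.induction (P := fun r => PhiA W (A.coefA r) = QD.cst (psi Q Φ r)) r ?_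
    (fun a b ha hb => by rw [map_add, map_add, map_add, P291.cst_add, ha, hb]) fun k r hr => ?_
  · rw [map_zero, map_zero, map_zero, QD.cst, toK, map_zero, AddMonoidAlgebra.single_zero]
  · obtain ⟨β, h1, h2, -⟩ := coefA_final (A := A) k r hr
    rw [h2, PhiA_cls W le_rfl, PhiG_cap W h1]

open Classical in
theorem coeff_prj (p : (I → ℤ) → Prop) (a : A.AA) (μ : Col Q → ℤ) :
    (PhiA W (AA.prj (fun χ _ => p χ) a)).coeff μ =
      if p (chg μ) then (PhiA W a).coeff μ else 0 := by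
  refine AA.induction (P := fun a => (PhiA W (AA.prj (fun χ _ => p χ) a)).coeff μ =
    if p (chg μ) then (PhiA W a).coeff μ else 0) a (by simp) (fun a b ha hb => ?_)
    fun n χ k β => ?_
  · simp only [map_add, AddMonoidAlgebra.coeff_add, Finsupp.add_apply, ha, hb]
    split_ifs <;> simp
  · by_cases h : chg μ = χ
    · subst h
      split_ifs with h
      · rw [AA.prj_pos h]
      · rw [AA.prj_neg h, map_zero]
        rfl
    · have h0 : (PhiA W (cls β)).coeff μ = 0 := by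
        rw [PhiA_cls W le_rfl, coeff_PhiG_of_ne W h]
      rw [h0, ite_self]
      by_cases h' : p χ
      · rw [AA.prj_pos h', h0]
      · rw [AA.prj_neg h', map_zero]
        rfl

theorem mem_spP_chg {p : (I → ℤ) → Prop} {a : A.AA} :
    a ∈ A.spP (fun χ _ => p χ) ↔ ∀ μ, (PhiA W a).coeff μ ≠ 0 → p (chg μ) := by
  rw [mem_spP_iff, ← (PhiA_injective W).eq_iff]
  refine ⟨fun h μ hμ => by_contra fun e => hμ (by rw [← h, coeff_prj, if_neg e]),
    fun h => AddMonoidAlgebra.ext (Finsupp.ext fun μ => ?_)⟩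
  rw [coeff_prj]
  split_ifs with e
  · rfl
  · exact (not_not.1 fun e' => e (h μ e')).symm

/-- multiplicativity of the abelianization map -/
def Mult : Prop := ∀ n χ k n' χ' k' (β₁ : A.An n χ k) (β₂ : A.An n' χ' k') β₃,
  ConvRel β₁ β₂ β₃ → PhiA W (cls β₃) = PhiA W (cls β₁) * PhiA W (cls β₂)

variable {W}

theorem Mult.of (h : ∀ n χ n' χ', ∃ d d', ∃ (hd : 2 * (n + n') ≤ d) (hd' : 2 * n' ≤ d'), ∀ z z',
    PhiG (n + n') (χ + χ') d W (epush (A.mmE n χ n' χ' d) (A.cv n χ χ' d hd' z z')) =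
      PhiG n χ d W z * PhiG n' χ' d' W z') : Mult W := fun n χ k n' χ' k' β₁ β₂ β₃ hβ => by
  obtain ⟨d, d', hd, hd', h⟩ := h n χ n' χ'
  rw [PhiA_cls W hd, PhiA_cls W (le₁ hd), PhiA_cls W hd', ← h, hβ.at hd hd']

theorem Mult.exists_mul (h : Mult W) (a b : A.AA) : ∃ c, PhiA W c = PhiA W a * PhiA W b := by
  refine AA.induction (P := fun a => ∃ c, PhiA W c = PhiA W a * PhiA W b) a
    ⟨0, by rw [map_zero, zero_mul]⟩ ?_ fun n χ k β => ?_
  · rintro a a' ⟨c, hc⟩ ⟨c', hc'⟩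
    exact ⟨c + c', by rw [map_add, map_add, hc, hc', add_mul]⟩
  refine AA.induction (P := fun b => ∃ c, PhiA W c = PhiA W (cls β) * PhiA W b) b
    ⟨0, by rw [map_zero, mul_zero]⟩ ?_ fun n' χ' k' β' => ?_
  · rintro a a' ⟨c, hc⟩ ⟨c', hc'⟩
    exact ⟨c + c', by rw [map_add, map_add, hc, hc', mul_add]⟩
  · obtain ⟨γ, hγ, -⟩ := existsUnique_convRel β β'
    exact ⟨_, h _ _ _ _ _ _ _ _ _ hγ⟩

theorem Mult.conv_spec (h : Mult W) {β₁ : A.An n χ k} {β₂ : A.An n' χ' k'} {β₃}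
    (hβ : ConvRel β₁ β₂ β₃) : A.conv (cls β₁) (cls β₂) = cls β₃ := by
  choose c hc using h.exists_mul
  refine Classical.epsilon_spec (p := fun c : A.AA →ₗ[ℂ] A.AA →ₗ[ℂ] A.AA =>
    ∀ n χ k n' χ' k' (β₁ : A.An n χ k) (β₂ : A.An n' χ' k') β₃,
      ConvRel β₁ β₂ β₃ → c (cls β₁) (cls β₂) = cls β₃) ⟨LinearMap.mk₂ ℂ c ?_ ?_ ?_ ?_, ?_⟩
    n χ k n' χ' k' β₁ β₂ β₃ hβ
  · exact fun a a' b => PhiA_injective W (by simp only [map_add, hc, add_mul])
  · exact fun a a' b => PhiA_injective W (by simp only [map_smul, hc, smul_mul_assoc])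
  · exact fun a a' b => PhiA_injective W (by simp only [map_add, hc, mul_add])
  · exact fun a a' b => PhiA_injective W (by simp only [map_smul, hc, mul_smul_comm])
  · exact fun _ _ _ _ _ _ _ _ _ hβ => PhiA_injective W ((hc _ _).trans (h _ _ _ _ _ _ _ _ _ hβ).symm)

theorem Mult.conv_final (h : Mult W) (β₁ : A.An n χ k) (β₂ : A.An n' χ' k') :
    ∃ β₃, ConvRel β₁ β₂ β₃ ∧ A.conv (cls β₁) (cls β₂) = cls β₃ ∧
      ∀ β, ConvRel β₁ β₂ β → β = β₃ :=
  (existsUnique_convRel β₁ β₂).imp fun _ hβ => ⟨hβ.1, h.conv_spec hβ.1, hβ.2⟩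

theorem Mult.PhiA_conv (h : Mult W) (a b : A.AA) :
    PhiA W (A.conv a b) = PhiA W a * PhiA W b := by
  refine AA.induction (P := fun a => PhiA W (A.conv a b) = PhiA W a * PhiA W b) a
    (by simp) (fun a a' ha ha' => by simp only [map_add, LinearMap.add_apply, ha, ha', add_mul])
    fun n χ k β => ?_
  refine AA.induction (P := fun b => PhiA W (A.conv (cls β) b) = PhiA W (cls β) * PhiA W b) b
    (by simp) (fun a a' ha ha' => by simp only [map_add, ha, ha', mul_add]) fun n' χ' k' β' => ?_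
  obtain ⟨γ, h1, h2, -⟩ := h.conv_final β β'
  rw [h2, h _ _ _ _ _ _ _ _ _ h1]

variable (W) in
theorem PhiA_one : PhiA W (A.coefA 1) = 1 := by
  rw [PhiA_coefA, map_one, QD.cst, toK, map_one]
  rfl

theorem Mult.conv_assoc (h : Mult W) (a b c : A.AA) :
    A.conv (A.conv a b) c = A.conv a (A.conv b c) :=
  PhiA_injective W (by simp only [h.PhiA_conv, mul_assoc])

theorem Mult.conv_comm (h : Mult W) (a b : A.AA) : A.conv a b = A.conv b a :=
  PhiA_injective W (by simp only [h.PhiA_conv, mul_comm])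

theorem Mult.one_conv (h : Mult W) (a : A.AA) : A.conv (A.coefA 1) a = a :=
  PhiA_injective W (by rw [h.PhiA_conv, PhiA_one, one_mul])

/-- the image of the abelianization map -/
theorem Mult.mem_range (h : Mult W) (x : AF Q Φ) :
    (∃ a, PhiA W a = x) ↔ x ∈ (cq Q W.χ).A := by
  refine mem_iff_mem_A W.χ
    { carrier := {x | ∃ a, PhiA W a = x}
      mul_mem' := by
        rintro _ _ ⟨a, rfl⟩ ⟨b, rfl⟩
        exact h.exists_mul a b
      one_mem' := ⟨_, PhiA_one W⟩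
      add_mem' := by
        rintro _ _ ⟨a, rfl⟩ ⟨b, rfl⟩
        exact ⟨a + b, map_add _ _ _⟩
      zero_mem' := ⟨0, map_zero _⟩
      neg_mem' := by
        rintro _ ⟨a, rfl⟩
        exact ⟨-a, map_neg _ _⟩ } (fun μ g => ?_) ?_ ?_ x
  · obtain ⟨n, hn⟩ := exists_mem_Box μ
    obtain ⟨β, hβ⟩ := exists_PhiG_sum W le_rfl hn g
    exact ⟨clsE le_rfl β, (PhiA_clsE W _ β).trans hβ⟩
  · rintro _ ⟨a, rfl⟩ σ hσ
    refine AA.induction (P := fun a => P291.gact σ (PhiA W a) = PhiA W a) a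
      (by rw [map_zero, gact_eq, map_zero]) (fun a b ha hb => ?_) fun n χ k β => ?_
    · rw [map_add, gact_eq, map_add, ← gact_eq, ← gact_eq, ha, hb]
    · rw [PhiA_cls W le_rfl, gact_PhiG W hσ]
  · rintro _ ⟨a, rfl⟩ μ h1 h2
    obtain ⟨n, z, h3, -⟩ := exists_rep W a
    rw [h3 μ _ rfl]
    refine PhiT_lead W le_rfl (fun ν hν => ?_) h2
    by_cases e : chg ν = chg μ
    · exact (h3 ν _ e).symm.trans (h1 ν hν)
    · exact coeff_PhiG_of_ne W e _

end Flav

end Vale.Agent.P291Z
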