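import Vale.Agent.P291Z.C.CQ
import Vale.Agent.P291Z.Fcl

/-!
# Coordinate representations of the torus, restriction to the torus, the Weyl group
-/

set_option linter.unusedSectionVars false

namespace Vale.Agent.P291Z

open Set Function Topology MvPolynomial

variable {J : Type} [Fintype J] {n : J → ℕ}

section Wr

variable {ι : Type}

/-- the sum of the characters `ω i` -/
def Wr (_ : ι → Bx n → ℤ) : Type := ι → ℂ

variable (ω : ι → Bx n → ℤ)

noncomputable instance : AddCommGroup (Wr ω) := Pi.addCommGroup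

noncomputable instance : Module ℂ (Wr ω) := Pi.module _ _ _

noncomputable instance : TopologicalSpace (Wr ω) := Pi.topologicalSpace

theorem chr_one (χ : Bx n → ℤ) : chr n χ 1 = 1 :=
  Finset.prod_eq_one fun _ _ => one_zpow _

theorem chr_mul (χ : Bx n → ℤ) (s t : Tc n) : chr n χ (s * t) = chr n χ s * chr n χ t := by
  rw [chr, chr, chr, ← Finset.prod_mul_distrib]
  exact Finset.prod_congr rfl fun c _ => mul_zpow _ _ _

theorem chr_ne (χ : Bx n → ℤ) (t : Tc n) : chr n χ t ≠ 0 :=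
  Finset.prod_ne_zero_iff.2 fun c _ => zpow_ne_zero _ (Circle.coe_ne_zero (t c))

theorem continuous_chr (χ : Bx n → ℤ) : Continuous (chr n χ) :=
  continuous_finsetProd _ fun c _ =>
    (TS.continuous_coord c).zpow₀ _ fun t => Or.inl (Circle.coe_ne_zero (t c))

noncomputable instance : DistribMulAction (Tc n) (Wr ω) where
  smul t x i := chr n (ω i) t * x i
  one_smul x := funext fun i => by
    change chr n (ω i) 1 * x i = x i
    rw [chr_one, one_mul]
  mul_smul s t x := funext fun i => by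
    change chr n (ω i) (s * t) * x i = chr n (ω i) s * (chr n (ω i) t * x i)
    rw [chr_mul, mul_assoc]
  smul_zero _ := funext fun _ => mul_zero _
  smul_add _ _ _ := funext fun _ => mul_add _ _ _

theorem Wr.smul_apply (t : Tc n) (x : Wr ω) (i : ι) : (t • x) i = chr n (ω i) t * x i := rfl

instance : ContinuousSMul (Tc n) (Wr ω) :=
  ⟨continuous_pi fun i => ((continuous_chr (ω i)).comp continuous_fst).mul
    ((continuous_apply i).comp continuous_snd)⟩

variable [Fintype ι]

theorem isRep_Wr : IsRep (Tc n) (Wr ω) (Fintype.card ι) :=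
  ⟨(show Nonempty ((ι → ℂ) ≃L[ℂ] (Fin (Fintype.card ι) → ℂ)) from
      ⟨ContinuousLinearEquiv.ofFinrankEq (by simp)⟩),
    ⟨fun _ _ _ => funext fun _ => mul_left_comm _ _ _⟩, inferInstance⟩

instance : Nice (Wr ω) := (isRep_Wr ω).nice

theorem eu_Wr : eu (isRep_Wr ω) = psiT n (∏ i, linf n (ω i)) := by
  classical
  refine eu_weights (isRep_Wr ω) (Pi.basisFun ℂ ι) ω fun t p => funext fun i => ?_
  change chr n (ω i) t * (Pi.basisFun ℂ ι p) i = chr n (ω p) t * (Pi.basisFun ℂ ι p) i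
  rw [Pi.basisFun_apply, Pi.single_apply]
  split_ifs with h
  · rw [h]
  · rw [mul_zero, mul_zero]

end Wr

section co

variable (n) in
/-- the coefficient with respect to the fundamental class of the point -/
noncomputable def coT : EH (Tc n) Unit ≃ₗ[SP n] SP n :=
  (LinearEquiv.ofBijective (LinearMap.toSpanSingleton (SP n) _ (fundT n)) (fundT_free n)).symm

theorem coT_smul_fundT (s : SP n) : coT n (s • fundT n) = s :=
  (coT n).apply_symm_apply s

theorem coT_spec (z : EH (Tc n) Unit) : coT n z • fundT n = z :=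
  (coT n).symm_apply_apply z

theorem coT_psiT (s : SP n) (z : EH (Tc n) Unit) : coT n (psiT n s • z) = s * coT n z :=
  (coT n).map_smul s z

theorem coT_csmul (c : ℂ) (z : EH (Tc n) Unit) : coT n (c • z) = c • coT n z := by
  rw [← algebraMap_smul (SP n) c z, map_smul, algebraMap_smul]

theorem coT_lpush_wmap (w : Wy n) (z : EH (Tc n) Unit) :
    coT n (lpush (wmap w (id : Unit → Unit) fun _ _ => rfl) z) =
      Wy.sgn w • rename (Wy.perm w) (coT n z) := by
  conv_lhs => rw [← coT_spec z, lpush_wmap_smul w _ IsPr.id, lpush_wmap_fundT, map_smul, coT_csmul]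
  rw [show coT n (fundT n) = 1 from by simpa using coT_smul_fundT (n := n) 1]
  simp

end co

namespace CQ

section plT

variable {Z Z' : Type} [TopologicalSpace Z] [MulAction (GG n) Z] [MulAction (Tc n) Z]
  [IsScalarTower (Tc n) (GG n) Z] [Nice Z] [ContinuousSMul (GG n) Z]
  [TopologicalSpace Z'] [MulAction (GG n) Z'] [MulAction (Tc n) Z']
  [IsScalarTower (Tc n) (GG n) Z'] [Nice Z'] [ContinuousSMul (GG n) Z']

theorem isCov_piT : IsCov (piT (n := n) Z) id where
  cont M := (isPr_piT M).cont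
  comm _ x := TS.piT_binc x
  orb t x := ⟨toG n t, smulT_eq Z t x⟩
  map_mk _ _ u := ⟨St.toE n u, rfl⟩

/-- restriction of a class to the torus -/
noncomputable def plT : CQ (GG n) Z →* CQ (Tc n) Z := lp isCov_piT

@[simp] theorem supp_plT (x : CQ (GG n) Z) : (plT x).supp = x.supp := supp_lp _ x

theorem resT_gy {i : Z →[GG n] Z'} (hi : IsClosedEmbedding i) {x : CQ (GG n) Z'}
    (h : x.supp ⊆ range i) (β : EH (GG n) Z') :
    resT (gy i x β) = gy (toT i) (plT x) (resT β) := by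
  induction x using CQ.ind with
  | h A hA d t ht =>
    rw [gy_mk hi hA ht h, resT_egys hi (ht.mono h), plT, lp_mk,
      gy_mk (i := toT i) hi (A := id ⁻¹' A) _ _ h]

theorem plT_pull {f : Z →[GG n] Z'} (hf : Continuous f) (x : CQ (GG n) Z') :
    plT (pull hf x) = pull (f := toT f) hf (plT x) :=
  (lp_lp isCov_piT (isCov_smap hf) ((isCov_smap hf).comp isCov_piT) (fun _ _ => rfl)
    (fun _ => rfl) x).trans (lp_lp (isCov_smap (f := toT f) hf) isCov_piT _
      (fun _ y => (TS.piT_smap f y).symm) (fun _ => rfl) x).symm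

variable {W W₀ : Type} [AddCommGroup W] [Module ℂ W] [TopologicalSpace W]
  [DistribMulAction (GG n) W] [DistribMulAction (Tc n) W] [IsScalarTower (Tc n) (GG n) W] {r s : ℕ}
  [AddCommGroup W₀] [Module ℂ W₀] [TopologicalSpace W₀] [DistribMulAction (Tc n) W₀]

theorem plT_eul (hW : IsRep (GG n) W r) {σ : Z →[GG n] W} (hσ : Continuous σ) :
    plT (eul hW hσ) = eul hW.toT (σ := toT σ) hσ :=
  mk_eq rfl rfl (eul_piT hW hσ)

/-- the Thom class on the fibre over a fixed point of the torus -/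
theorem pull_plT_tho {V : SubMulAction (GG n) (Z × W)} [Nice V] [ContinuousSMul (GG n) V]
    [Nice W₀] [ContinuousSMul (Tc n) W₀]
    (hW : IsRep (GG n) W s) (hV : IsSubVB V r) (h0 : ∀ z, (z, 0) ∈ V) (hW₀ : IsRep (Tc n) W₀ r)
    {φ : W₀ →[Tc n] V} (hφ : Continuous φ) (o : Z) (ℓ : W₀ →ₗ[ℂ] W) (hℓ : Injective ℓ)
    (e : ∀ w, (φ w).1 = (o, ℓ w)) :
    pull hφ (plT (tho hW hV h0)) = eul hW₀ (σ := MulActionHom.id _) continuous_id := by
  have h1 : ∀ w, φ w ∈ range (zs V h0) ↔ w = 0 := fun w =>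
    ⟨fun ⟨z, hz⟩ => hℓ ((congrArg Prod.snd ((e w).symm.trans
      (congrArg Subtype.val hz).symm)).trans (map_zero ℓ).symm),
      fun h => ⟨o, Subtype.ext (by rw [e, h, map_zero]; rfl)⟩⟩
  refine (lp_lp (isCov_smap hφ) isCov_piT (isCov_piT.comp (isCov_smap hφ)) (fun _ _ => rfl)
    (fun _ => rfl) _).trans (mk_eq (Set.ext h1) rfl fun M => ?_)
  have h2 := thom_pull_eq_euler (P := St n M) (P' := EE n M) hW₀ hW (toG n) hV
    (p := toUnit (Tc n) W₀) (κ := MulActionHom.id _) (Homeomorph.uniqueProd Unit W₀).symm.isHomeomorph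
    (F := fun x => (φ x.1, St.toE n x.2))
    (fun t x => Prod.ext ((φ.map_smul t x.1).trans (smulT_eq V t _)) rfl)
    ((hφ.comp continuous_fst).prodMk (TS.continuous_toE.comp continuous_snd))
    fun _ u => ⟨(o, St.toE n u), ℓ, hℓ, fun x _ => ⟨e x, rfl⟩⟩
  have h3 : piT V M ∘ smap φ M = Bor.map (toG n) (fun x : W₀ × St n M => (φ x.1, St.toE n x.2))
      fun t x => Prod.ext ((φ.map_smul t x.1).trans (smulT_eq V t _)) rfl := funext fun x => by
    obtain ⟨x, rfl⟩ := Bor.mk_surjective x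
    rfl
  refine ((congrArg (fun f => Cohom _ (P291Z.pull f _) _) h3).mpr h2).mono ?_
  rintro _ ⟨y, hy, rfl⟩
  exact ⟨y, (h1 _).2 hy, rfl⟩

end plT

section wmap

variable {Z Z' Y Y' : Type} [TopologicalSpace Z] [MulAction (Tc n) Z] [Nice Z]
  [ContinuousSMul (Tc n) Z] [TopologicalSpace Z'] [MulAction (Tc n) Z'] [Nice Z']
  [ContinuousSMul (Tc n) Z'] [TopologicalSpace Y] [MulAction (Tc n) Y] [Nice Y]
  [ContinuousSMul (Tc n) Y] [TopologicalSpace Y'] [MulAction (Tc n) Y'] [Nice Y']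
  [ContinuousSMul (Tc n) Y'] (w : Wy n) {f : Z → Z'}
  (hf : ∀ (t : Tc n) z, f (t • z) = wT w t • f z) (hc : Continuous f)

theorem isCov_wmap (hc : Continuous f) : IsCov (wmap w f hf) f where
  cont := (isLev_wmap w hf hc).cont
  comm := (isLev_wmap w hf hc).comm
  orb t x := ⟨wT w t, hf t x⟩
  map_mk _ _ _ := ⟨_, rfl⟩

/-- pull-back along a map that is equivariant along `wT w` -/
noncomputable def plW : CQ (Tc n) Z' →* CQ (Tc n) Z := lp (isCov_wmap w hf hc)

@[simp] theorem supp_plW (x : CQ (Tc n) Z') : (plW w hf hc x).supp = f ⁻¹' x.supp := supp_lp _ x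

theorem HasCls.plW {x : CQ (Tc n) Z'} {s : SP n} (h : HasCls x (psiT n (rename (Wy.perm w) s))) :
    HasCls (plW w hf hc x) (psiT n s) := by
  have h0 := isLev_wmap w (f := (id : Unit → Unit)) (fun _ _ => rfl) continuous_id
  refine h.lp _ (F₀ := fun M => ⟨_, h0.cont M⟩) (fun M y => ?_) fun M => ?_
  · obtain ⟨y, rfl⟩ := Bor.mk_surjective y
    rfl
  · have h1 := TS.map_evT ⟨_, h0.cont M⟩ (Wy.perm w⁻¹) (fun x => ((), TS.wS w x.2))
      (fun _ => rfl) (fun c x y => congrArg₂ Fl.ip (TS.row_wG w x.2.1 c) (TS.row_wG w y.2.1 c))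
      (rename (Wy.perm w) s)
    rw [← TS.rename_mul, inv_mul_cancel, TS.rename_one] at h1
    exact h1.symm

theorem pull_plW {g : Y → Y'} (hg : ∀ (t : Tc n) z, g (t • z) = wT w t • g z) (hgc : Continuous g)
    {i : Y →[Tc n] Z} (hi : Continuous i) {i' : Y' →[Tc n] Z'} (hi' : Continuous i')
    (e : ∀ y, f (i y) = i' (g y)) (x : CQ (Tc n) Z') :
    pull hi (plW w hf hc x) = plW w hg hgc (pull hi' x) :=
  (lp_lp (isCov_smap hi) _ ((isCov_wmap w hf hc).comp (isCov_smap hi)) (fun _ _ => rfl)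
    (fun _ => rfl) x).trans (lp_lp (isCov_wmap w hg hgc) (isCov_smap hi') _ (fun _ y => by
      obtain ⟨y, rfl⟩ := Bor.mk_surjective y
      exact congrArg (fun z => Bor.mk (Tc n) (z, _)) (e y.1)) e x).symm

theorem plW_eul {W W' : Type} [AddCommGroup W] [Module ℂ W] [TopologicalSpace W]
    [DistribMulAction (Tc n) W] [AddCommGroup W'] [Module ℂ W'] [TopologicalSpace W']
    [DistribMulAction (Tc n) W'] {r : ℕ} (hW : IsRep (Tc n) W r) (hW' : IsRep (Tc n) W' r)
    {σ : Z →[Tc n] W} (hσ : Continuous σ) {σ' : Z' →[Tc n] W'} (hσ' : Continuous σ')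
    (L : W →ₗ[ℂ] W') (hLb : Bijective L) (hLe : ∀ (t : Tc n) x, L (t • x) = wT w t • L x)
    (hLσ : ∀ x, L (σ x) = σ' (f x)) : plW w hf hc (eul hW' hσ') = eul hW hσ :=
  lp_eul hW hW' (wT w) (e := fun _ => TS.wS w) _ hc (fun _ => TS.continuous_wS w)
    (isCov_wmap w hf hc) hσ hσ' L hLb hLe hLσ

/-- the value at a fixed point of a translate by the Weyl group -/
theorem coT_gy_wmap (hp : IsPr f) {o : Unit →[Tc n] Z} {o' : Unit →[Tc n] Z'}
    (e : f (o ()) = o' ()) (hr : f ⁻¹' range o' ⊆ range o) {x : CQ (Tc n) Z'}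
    (hx : x.supp ⊆ range o') (z : EH (Tc n) Z) :
    coT n (gy o' x (lpush (wmap w f hf) z)) =
      Wy.sgn w • rename (Wy.perm w) (coT n (gy o (plW w hf hc x) z)) := by
  have h0 : ∀ {X : Type} [TopologicalSpace X] [T2Space X] {o : Unit → X}, IsClosedEmbedding o :=
    continuous_of_discreteTopology.isClosedEmbedding fun _ _ _ => rfl
  rw [gy_lpush (isCov_wmap w hf hc) (isLev_wmap w hf hc) (isPr_wmap w hf hp)
    (isLev_wmap w (f := (id : Unit → Unit)) (fun _ _ => rfl) continuous_id)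
    (isPr_wmap w _ IsPr.id) h0 h0 (fun _ y => by
      obtain ⟨y, rfl⟩ := Bor.mk_surjective y
      exact congrArg (fun z => Bor.mk (Tc n) (z, _)) e) hr hx, coT_lpush_wmap]
  rfl

end wmap

section reg

variable (n) in
/-- the weights `x_b - y_b` -/
noncomputable def dW (b : Bx n) : Bx (Sum.elim n n) → ℤ := by
  classical exact Pi.single ⟨Sum.inl b.1, b.2⟩ 1 - Pi.single ⟨Sum.inr b.1, b.2⟩ 1

theorem chr_dW (b : Bx n) (t : Tc (Sum.elim n n)) :
    chr _ (dW n b) t = (fstT n n t b : ℂ) * (sndT n n t b : ℂ)⁻¹ := by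
  classical
  have h : ∀ c, chr _ (Pi.single c 1) t = t c := fun c => by
    rw [chr, Finset.prod_eq_single c (fun b _ hb => by rw [Pi.single_eq_of_ne hb, zpow_zero])
      fun h => (h (Finset.mem_univ _)).elim, Pi.single_eq_same, zpow_one]
  rw [← div_eq_mul_inv, eq_div_iff (Circle.coe_ne_zero _)]
  refine Eq.trans ?_ (h ⟨Sum.inl b.1, b.2⟩)
  rw [show ((sndT n n t b : Circle) : ℂ) = _ from (h ⟨Sum.inr b.1, b.2⟩).symm, chr, chr, chr,
    ← Finset.prod_mul_distrib]
  refine Finset.prod_congr rfl fun c _ => ?_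
  rw [← zpow_add₀ (Circle.coe_ne_zero _), dW]
  congr! 1
  exact sub_add_cancel _ _

variable (n) in
/-- restriction to the diagonal torus -/
noncomputable def fold : SP (Sum.elim n n) →ₐ[ℂ] SP n :=
  rename fun c => match c with
    | ⟨Sum.inl j, a⟩ => ⟨j, a⟩
    | ⟨Sum.inr j, a⟩ => ⟨j, a⟩

theorem fold_inl (s : SP n) : fold n (rename (fun c => ⟨Sum.inl c.1, c.2⟩) s) = s :=
  (rename_rename _ _ _).trans (rename_id_apply s)

theorem fold_inr (s : SP n) : fold n (rename (fun c => ⟨Sum.inr c.1, c.2⟩) s) = s :=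
  (rename_rename _ _ _).trans (rename_id_apply s)

/-- the coefficient of a cross product -/
theorem exists_fold_cross : ∃ c : SP n, c ≠ 0 ∧ ∀ z₁ z₂ : EH (Tc n) Unit,
    fold n (coT _ ((sumProdT n n).cross (B := Unit) (b₁ := id) (fun _ _ => rfl) (b₂ := id)
      (fun _ _ => rfl) z₁ z₂)) = c * (coT n z₁ * coT n z₂) := by
  have hb : IsHomeomorph fun y : Unit => (id y, id y) :=
    isHomeomorph_iff_continuous_bijective.2 ⟨by fun_prop, fun _ _ _ => rfl, fun _ => ⟨(), rfl⟩⟩
  set φ := (sumProdT n n).cross (B := Unit) (b₁ := id) (fun _ _ => rfl) (b₂ := id) fun _ _ => rfl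
  have h1 : ∀ (s : SP n) z₁ z₂, fold n (coT _ (φ (s • z₁) z₂)) = s * fold n (coT _ (φ z₁ z₂)) := by
    intro s z₁ z₂
    induction s using MvPolynomial.induction_on' with
    | add p q hp hq => simp only [add_smul, map_add, LinearMap.add_apply, hp, hq, add_mul]
    | monomial u a =>
      rw [EH.smulT_def, (sumProdT n n).cross_smul₁ _ _ hb
        (psiT_deg.2 (isHomogeneous_monomial a rfl)), sumProdT_r₁, coT_psiT, map_mul, fold_inl]
  obtain ⟨s, hs⟩ := (cross_fundT_free (n₁ := n) (n₂ := n)).2 (fundT _)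
  refine ⟨fold n (coT _ (φ (fundT n) (fundT n))), fun h => ?_, fun z₁ z₂ => ?_⟩
  · have h2 := congrArg (fun z => fold n (coT _ z)) hs
    simp only [map_smul, smul_eq_mul, map_mul] at h2
    rw [h, mul_zero, ← one_smul (SP (Sum.elim n n)) (fundT _), coT_smul_fundT, map_one] at h2
    exact zero_ne_one h2
  · conv_lhs => rw [← coT_spec z₁, ← coT_spec z₂]
    rw [h1, EH.smulT_def, (sumProdT n n).cross_smul₂ _ _ hb, sumProdT_r₂, coT_psiT, map_mul,
      fold_inr]
    ring

end reg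

end CQ

end Vale.Agent.P291Z
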